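import Crest.Agent.N346.P2.Abs

/-! Row 346, P2: integrability bookkeeping, the divergence lemma, basic flux bounds. -/

set_option autoImplicit false
open MeasureTheory Set
open scoped InnerProductSpace

noncomputable section
namespace Crest.Agent.N346.P2

variable {X : Type} [MeasurableSpace X] {V : Type} [NormedAddCommGroup V] [InnerProductSpace ℝ V]
  {ν : Measure X}

/-- bounded measurable functions -/
def Bd (h : X → ℝ) : Prop := Measurable h ∧ ∃ M : ℝ, ∀ x, |h x| ≤ M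

namespace Bd
variable {u v : X → ℝ}
theorem const (c : ℝ) : Bd (fun _ : X => c) := ⟨measurable_const, |c|, fun _ => le_rfl⟩
theorem add (hu : Bd u) (hv : Bd v) : Bd (fun x => u x + v x) := by
  obtain ⟨h1, M, hM⟩ := hu; obtain ⟨h2, N, hN⟩ := hv
  exact ⟨h1.add h2, M + N, fun x => (abs_add_le _ _).trans (add_le_add (hM x) (hN x))⟩
theorem neg (hu : Bd u) : Bd (fun x => -u x) := by
  obtain ⟨h1, M, hM⟩ := hu
  exact ⟨h1.neg, M, fun x => by simpa using hM x⟩
theorem sub (hu : Bd u) (hv : Bd v) : Bd (fun x => u x - v x) := by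
  simpa [sub_eq_add_neg] using hu.add hv.neg
theorem mul (hu : Bd u) (hv : Bd v) : Bd (fun x => u x * v x) := by
  obtain ⟨h1, M, hM⟩ := hu; obtain ⟨h2, N, hN⟩ := hv
  refine ⟨h1.mul h2, M * N, fun x => ?_⟩
  rw [abs_mul]
  exact mul_le_mul (hM x) (hN x) (abs_nonneg _) ((abs_nonneg _).trans (hM x))
theorem cmul (r : ℝ) (hu : Bd u) : Bd (fun x => r * u x) := (const r).mul hu
theorem sq (hu : Bd u) : Bd (fun x => u x ^ 2) := by simpa [pow_two] using hu.mul hu
theorem abs (hu : Bd u) : Bd (fun x => |u x|) := by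
  obtain ⟨h1, M, hM⟩ := hu
  exact ⟨h1.abs, M, fun x => by simpa using hM x⟩
theorem comp {lo hi : ℝ} (hu : Measurable u) (hm : ∀ x, u x ∈ Icc lo hi) {m : ℝ → ℝ}
    (hc : ContinuousOn m (Icc lo hi)) : Bd (fun x => m (u x)) := by
  obtain ⟨M, hM⟩ := isCompact_Icc.exists_bound_of_continuousOn hc
  refine ⟨?_, M, fun x => by simpa using hM _ (hm x)⟩
  have h1 : Measurable (fun s : Icc lo hi => m s) :=
    (continuousOn_iff_continuous_restrict.1 hc).measurable
  exact h1.comp (hu.subtype_mk (h := hm))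
theorem indicator {s : Set X} (hs : MeasurableSet s) (hu : Bd u) : Bd (s.indicator u) := by
  obtain ⟨h1, M, hM⟩ := hu
  refine ⟨h1.indicator hs, |M|, fun x => ?_⟩
  by_cases hx : x ∈ s
  · simpa [hx] using (hM x).trans (le_abs_self M)
  · simp [hx]
theorem int (hu : Bd u) {w : X → ℝ} (hw : Integrable w ν) :
    Integrable (fun x => u x * w x) ν := by
  obtain ⟨h1, M, hM⟩ := hu
  exact hw.bdd_mul h1.aestronglyMeasurable (ae_of_all _ fun x => by simpa using hM x)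
theorem smul_memLp (hu : Bd u) {G : X → V} (hG : MemLp G 2 ν) :
    MemLp (fun x => u x • G x) 2 ν := by
  obtain ⟨h1, M, hM⟩ := hu
  refine MemLp.of_le_mul (c := |M|) hG (h1.aestronglyMeasurable.smul hG.1)
    (ae_of_all _ fun x => ?_)
  rw [norm_smul, Real.norm_eq_abs]
  exact mul_le_mul_of_nonneg_right ((hM x).trans (le_abs_self M)) (norm_nonneg _)
end Bd

theorem DClass.bd {𝒟 : DClass ν V} {u : X → ℝ} {c : ℝ} {G : X → V} (h : 𝒟.D u c G) : Bd u :=
  ⟨𝒟.meas h, 𝒟.bdd h⟩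

theorem int_inner {G H : X → V} (hG : MemLp G 2 ν) (hH : MemLp H 2 ν) :
    Integrable (fun x => ⟪G x, H x⟫_ℝ) ν := by
  have h := MemLp.integrable_mul hG.norm hH.norm
  refine h.mono' (hG.1.inner hH.1) (ae_of_all _ fun x => ?_)
  simpa using abs_real_inner_le_norm (G x) (H x)

theorem int_normsq {G : X → V} (hG : MemLp G 2 ν) : Integrable (fun x => ‖G x‖ ^ 2) ν := by
  simpa [real_inner_self_eq_norm_sq] using int_inner hG hG


/-- a bounded integrable function is square integrable -/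
theorem Bd.memLp_two {u : X → ℝ} (hu : Bd u) (hi : Integrable u ν) : MemLp u 2 ν := by
  rw [memLp_two_iff_integrable_sq hu.1.aestronglyMeasurable]
  simpa [pow_two] using hu.int hi

/-- `f` is integrable with integral `r`. -/
def HI (ν : Measure X) (f : X → ℝ) (r : ℝ) : Prop := Integrable f ν ∧ ∫ x, f x ∂ν = r

namespace HI
variable {f g h : X → ℝ} {r s t : ℝ}
theorem of (hf : Integrable f ν) : HI ν f (∫ x, f x ∂ν) := ⟨hf, rfl⟩
theorem zero : HI ν (fun _ => 0) 0 := ⟨integrable_zero _ _ _, by simp⟩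
theorem add (hf : HI ν f r) (hg : HI ν g s) : HI ν (fun x => f x + g x) (r + s) :=
  ⟨hf.1.add hg.1, by rw [integral_add hf.1 hg.1, hf.2, hg.2]⟩
theorem sub (hf : HI ν f r) (hg : HI ν g s) : HI ν (fun x => f x - g x) (r - s) :=
  ⟨hf.1.sub hg.1, by rw [integral_sub hf.1 hg.1, hf.2, hg.2]⟩
theorem cmul (c : ℝ) (hf : HI ν f r) : HI ν (fun x => c * f x) (c * r) :=
  ⟨hf.1.const_mul c, by rw [integral_const_mul, hf.2]⟩
theorem mono (hf : HI ν f r) (hg : HI ν g s) (h : ∀ x, f x ≤ g x) : r ≤ s := by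
  rw [← hf.2, ← hg.2]; exact integral_mono hf.1 hg.1 h
theorem congr (hf : HI ν f r) (h : ∀ x, g x = f x) : HI ν g r := by
  have : g = f := funext h
  rwa [this]
theorem uniq (hf : HI ν f r) (hg : HI ν g s) (h : ∀ x, f x = g x) : r = s :=
  le_antisymm (hf.mono hg fun x => (h x).le) (hg.mono hf fun x => (h x).ge)
theorem nonneg (hf : HI ν f r) (h : ∀ x, 0 ≤ f x) : 0 ≤ r := zero.mono hf h
/-- Cauchy–Schwarz. -/
theorem cs (hf : HI ν f r) (hg : HI ν g s) (hh : HI ν h t) (h1 : ∀ x, 0 ≤ f x)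
    (h2 : ∀ x, 0 ≤ g x) (h3 : ∀ x, h x ^ 2 ≤ f x * g x) : t ^ 2 ≤ r * s := by
  have key : ∀ k : ℝ, 0 ≤ r * (k * k) + (-2 * t) * k + s := by
    intro k
    have := ((hh.cmul (2 * k))).mono ((hf.cmul (k * k)).add hg) (fun x => by
      have hx := h3 x; have a1 := h1 x; have a2 := h2 x
      by_contra hc
      push Not at hc
      have p1 : 0 ≤ k * k * f x + g x := add_nonneg (mul_nonneg (mul_self_nonneg k) a1) a2
      have p2 : (k * k * f x + g x) ^ 2 < (2 * k * h x) ^ 2 := by nlinarith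
      have p3 : (2 * k * h x) ^ 2 ≤ 4 * (k * k) * (f x * g x) := by
        have : 0 ≤ k * k := mul_self_nonneg k
        nlinarith
      nlinarith [sq_nonneg (k * k * f x - g x)])
    linarith
  have := discrim_le_zero key
  unfold discrim at this
  nlinarith
end HI

namespace Prof
variable {ε C0 : ℝ} (pr : Prof ε C0)
theorem cp : Continuous pr.p := continuous_iff_continuousAt.2 fun s => (pr.hp s).continuousAt
theorem cp' : Continuous pr.p' := continuous_iff_continuousAt.2 fun s => (pr.hp' s).continuousAt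
theorem cB : Continuous pr.B := continuous_iff_continuousAt.2 fun s => (pr.hB s).continuousAt
theorem cB' : Continuous pr.B' := continuous_iff_continuousAt.2 fun s => (pr.hB' s).continuousAt
theorem cm : Continuous pr.m := continuous_iff_continuousAt.2 fun s => (pr.hm s).continuousAt
theorem p_nonneg (hε : 0 < ε) {s : ℝ} (hs : s ∈ Icc (0 : ℝ) 1) : 0 ≤ pr.p s :=
  le_trans (le_min (div_nonneg hs.1 hε.le) zero_le_one) (pr.le_p s hs)
theorem self_le_p (hε : 0 < ε) (hε1 : ε ≤ 1) {s : ℝ} (hs : s ∈ Icc (0 : ℝ) 1) : s ≤ pr.p s := by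
  refine le_trans (le_min ?_ hs.2) (pr.le_p s hs)
  rw [le_div_iff₀ hε]; nlinarith [hs.1]
theorem m_le_p (hε : 0 < ε) {s : ℝ} (hs : s ∈ Icc (0 : ℝ) 1) : pr.m s ≤ 4 * ε * pr.p s := by
  have h1 := pr.m_le s hs
  have h2 := pr.le_p s hs
  rcases le_total (s / ε) 1 with h | h
  · rw [min_eq_left h] at h2
    have : s ≤ ε * pr.p s := by rwa [div_le_iff₀' hε] at h2
    have h3 := (min_le_left s (4 * ε))
    nlinarith [hs.1]
  · rw [min_eq_right h] at h2
    have h3 := (min_le_right s (4 * ε))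
    nlinarith
theorem B_mem {s : ℝ} (hs : s ∈ Icc (0 : ℝ) 1) : pr.B s ∈ Icc (0 : ℝ) 1 :=
  ⟨pr.B_nonneg s, (pr.B_le s hs).trans hs.2⟩
end Prof

/-- standing assumptions on the potential -/
structure WOK (ν : Measure X) (W : X → ℝ) : Prop where
  bd : Bd W
  nonneg : ∀ x, 0 ≤ W x
  int : Integrable W ν

theorem Neck.wok {𝒟 : DClass ν V} {a q τ₀ ω : ℝ} (nk : Neck 𝒟 a q τ₀ ω) : WOK ν nk.W := by
  obtain ⟨M, hM⟩ := nk.W_bdd
  exact ⟨⟨nk.W_meas, M, fun x => by rw [abs_of_nonneg (nk.W_nonneg x)]; exact hM x⟩,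
    nk.W_nonneg, nk.W_int⟩

theorem Neck.e_memLp {𝒟 : DClass ν V} {a q τ₀ ω : ℝ} (nk : Neck 𝒟 a q τ₀ ω) :
    MemLp nk.e 2 ν := by
  rw [memLp_two_iff_integrable_sq_norm nk.e_meas]
  exact nk.W_int.mono' (nk.e_meas.norm.pow 2)
    (ae_of_all _ fun x => by simpa using nk.e_le x)

theorem Neck.dθ_sq_le {𝒟 : DClass ν V} {a q τ₀ ω : ℝ} (nk : Neck 𝒟 a q τ₀ ω) (x : X) :
    ‖nk.dθ x‖ ^ 2 ≤ ω ^ 2 * nk.W x := by
  have h := nk.dθ_le x
  have h2 : 0 ≤ ω ^ 2 * nk.W x := mul_nonneg (sq_nonneg _) (nk.W_nonneg x)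
  nlinarith [sq_nonneg (2 * nk.θ x - 1)]

namespace Crit
variable {𝒟 : DClass ν V} {W : X → ℝ} {ε C0 : ℝ} {pr : Prof ε C0} (c : Crit 𝒟 W pr)

theorem b_meas : Measurable c.b := 𝒟.meas c.b_D
theorem gb2 : MemLp c.gb 2 ν := 𝒟.memG c.b_D
theorem bdb {m : ℝ → ℝ} (hm : ContinuousOn m (Icc 0 1)) : Bd (fun x => m (c.b x)) :=
  Bd.comp c.b_meas c.b_mem hm
theorem bdb' {m : ℝ → ℝ} (hm : Continuous m) : Bd (fun x => m (c.b x)) := c.bdb hm.continuousOn
theorem bd_b : Bd c.b := DClass.bd c.b_D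
theorem bd_σ : Bd c.σ := DClass.bd c.σ_D
theorem int_g2 {h : X → ℝ} (hh : Bd h) : Integrable (fun x => h x * ‖c.gb x‖ ^ 2) ν :=
  hh.int (int_normsq c.gb2)
theorem int_σ2 {h : X → ℝ} (hh : Bd h) : Integrable (fun x => h x * c.σ x ^ 2) ν := by
  have := (hh.mul c.bd_σ).int c.σ_int
  exact this.congr (ae_of_all _ fun x => by simp only []; ring)
theorem N_nonneg (hε : 0 < ε) (hW : WOK ν W) (x : X) : 0 ≤ c.N x := by
  have := pr.p_nonneg hε (c.b_mem x)
  have := pr.p'_nonneg (c.b x)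
  have := hW.nonneg x
  have := (c.b_mem x).1
  unfold N; positivity
theorem int_N (hW : WOK ν W) : Integrable c.N ν := by
  have h1 := c.bd_b.int hW.int
  have h2 := c.int_σ2 (((c.bdb' pr.cp).mul (c.bdb' pr.cp')).cmul (c.Λ ^ 2))
  exact (h1.add h2).congr (ae_of_all _ fun x => by simp only [N, Pi.add_apply]; ring)
theorem hiN (hW : WOK ν W) : HI ν c.N c.Φ := ⟨c.int_N hW, rfl⟩
theorem hiI (hW : WOK ν W) : HI ν (fun x => ‖c.gb x‖ ^ 2 + W x * c.b x ^ 2) c.I :=
  ⟨(int_normsq c.gb2).add ((c.bd_b.sq.int hW.int).congr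
    (ae_of_all _ fun x => by simp only []; ring)), rfl⟩

/-- the Euler–Lagrange equation for test functions with any value at infinity -/
theorem EL' (hW : WOK ν W) {h : X → ℝ} {k : ℝ} {G : X → V} (hh : 𝒟.D h k G) :
    HI ν (fun x => ⟪c.gb x, G x⟫_ℝ + c.N x * h x) (k * c.Φ) := by
  have h0 : 𝒟.D (fun x => h x + -k) 0 G := by
    have := 𝒟.add hh (𝒟.const (-k))
    simpa using this
  have e := c.EL h0
  have i1 := int_inner c.gb2 (𝒟.memG hh)
  have i2 : Integrable (fun x => c.N x * h x) ν :=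
    ((DClass.bd hh).int (c.int_N hW)).congr (ae_of_all _ fun x => by simp only []; ring)
  have H1 : HI ν (fun x => ⟪c.gb x, G x⟫_ℝ + c.N x * h x - k * c.N x) 0 := by
    refine ⟨(i1.add i2).sub ((c.int_N hW).const_mul k), ?_⟩
    rw [← e]; congr 1; funext x; simp only [N]; ring
  have := H1.add ((c.hiN hW).cmul k)
  rw [zero_add] at this
  exact this.congr fun x => by ring

/-- The divergence lemma. -/
theorem div (hW : WOK ν W) {h : X → ℝ} {k : ℝ} {G : X → V} (hh : 𝒟.D h k G) (m m' : ℝ → ℝ)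
    (hm : ∀ s ∈ Icc (0 : ℝ) 1, HasDerivAt m (m' s) s) (hc : ContinuousOn m' (Icc 0 1)) :
    HI ν (fun x => h x * (m' (c.b x) * ‖c.gb x‖ ^ 2 + m (c.b x) * c.N x)
      + m (c.b x) * ⟪G x, c.gb x⟫_ℝ) (k * m 1 * c.Φ) := by
  have h1 := 𝒟.comp m m' 0 1 c.b_D c.b_mem ⟨zero_le_one, le_rfl⟩ hm hc
  have h2 := c.EL' hW (𝒟.mul hh h1)
  refine h2.congr fun x => ?_
  rw [inner_add_right, inner_smul_right, inner_smul_right, inner_smul_right,
    real_inner_self_eq_norm_sq, real_inner_comm (G x)]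
  ring

/-- The divergence lemma with `h = 1`. -/
theorem div1 (hW : WOK ν W) (m m' : ℝ → ℝ)
    (hm : ∀ s ∈ Icc (0 : ℝ) 1, HasDerivAt m (m' s) s) (hc : ContinuousOn m' (Icc 0 1)) :
    HI ν (fun x => m' (c.b x) * ‖c.gb x‖ ^ 2 + m (c.b x) * c.N x) (m 1 * c.Φ) := by
  have := c.div hW (𝒟.const 1) m m' hm hc
  rw [one_mul] at this
  exact this.congr fun x => by simp

theorem Φ_nonneg (hε : 0 < ε) (hW : WOK ν W) : 0 ≤ c.Φ := (c.hiN hW).nonneg (c.N_nonneg hε hW)

theorem I_le_Φ (hε : 0 < ε) (hW : WOK ν W) : c.I ≤ c.Φ := by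
  have h := c.div1 hW (fun s => s) (fun _ => 1) (fun s _ => hasDerivAt_id s) continuousOn_const
  rw [one_mul] at h
  refine (c.hiI hW).mono h fun x => ?_
  have := pr.p_nonneg hε (c.b_mem x)
  have := pr.p'_nonneg (c.b x)
  have := (c.b_mem x).1
  have : 0 ≤ c.b x * (c.Λ ^ 2 * c.σ x ^ 2 * (pr.p (c.b x) * pr.p' (c.b x))) := by positivity
  simp only [N]; nlinarith

theorem Φ_le (hε : 0 < ε) (hW : WOK ν W) : (1 - ε) * c.Φ ≤ c.I := by
  have h := c.div1 hW (fun s => s) (fun _ => 1) (fun s _ => hasDerivAt_id s) continuousOn_const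
  rw [one_mul] at h
  have := h.mono ((c.hiI hW).add ((c.hiN hW).cmul ε)) fun x => by
    have h1 := pr.p_nonneg hε (c.b_mem x)
    have h2 := pr.p'_nonneg (c.b x)
    have h3 := (c.b_mem x).1
    have h4 := hW.nonneg x
    have h5 : 0 ≤ c.Λ ^ 2 * c.σ x ^ 2 * (pr.p (c.b x) * pr.p' (c.b x)) := by positivity
    have h6 : 0 ≤ ε * (W x * c.b x) := by positivity
    simp only [N]
    rcases le_total ε (c.b x) with hb | hb
    · rw [pr.p'_zero _ hb]; nlinarith
    · nlinarith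
  linarith

end Crit
end Crest.Agent.N346.P2
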