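import Mathlib

/-! Row 346, P2 concrete side: convergence in `L²` (general measure space). -/

set_option autoImplicit false
open MeasureTheory Filter Topology Set
open scoped ENNReal InnerProductSpace

noncomputable section
namespace Crest.Agent.N346.P2

variable {α : Type*} [MeasurableSpace α] {ν : Measure α} {V : Type*} [NormedAddCommGroup V]

/-- dominated convergence in `L²` -/
theorem tendsto_eLpNorm_dom {f : ℕ → α → V} {b : α → ℝ}
    (hf : ∀ j, AEStronglyMeasurable (f j) ν) (hb : MemLp b 2 ν)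
    (hle : ∀ j, ∀ᵐ x ∂ν, ‖f j x‖ ≤ b x) (h0 : ∀ᵐ x ∂ν, Tendsto (fun j => f j x) atTop (𝓝 0)) :
    Tendsto (fun j => eLpNorm (f j) 2 ν) atTop (𝓝 0) := by
  have h2 : (2 : ℝ≥0∞).toReal = 2 := by norm_num
  simp only [eLpNorm_eq_lintegral_rpow_enorm_toReal two_ne_zero ENNReal.ofNat_ne_top, h2]
  have key : Tendsto (fun j => ∫⁻ x, ‖f j x‖ₑ ^ (2 : ℝ) ∂ν) atTop (𝓝 (∫⁻ _, 0 ∂ν)) := by
    refine tendsto_lintegral_of_dominated_convergence' (fun x => ‖b x‖ₑ ^ (2 : ℝ))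
      (fun j => (hf j).enorm.pow_const _) (fun j => (hle j).mono fun x hx => ?_) ?_
      (h0.mono fun x hx => ?_)
    · refine ENNReal.rpow_le_rpow ?_ (by norm_num)
      rw [← ofReal_norm, ← ofReal_norm]
      exact ENNReal.ofReal_le_ofReal (hx.trans (le_abs_self _))
    · have := lintegral_rpow_enorm_lt_top_of_eLpNorm_lt_top two_ne_zero ENNReal.ofNat_ne_top hb.2
      rw [h2] at this
      exact this.ne
    · have := (ENNReal.continuous_rpow_const (y := 2)).continuousAt.tendsto.comp hx.enorm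
      simpa [Function.comp_def] using this
  have := (ENNReal.continuous_rpow_const (y := 1 / 2)).continuousAt.tendsto.comp key
  simpa [Function.comp_def] using this

/-- convergence in `L²` -/
def L2T (ν : Measure α) (H : ℕ → α → V) (H0 : α → V) : Prop :=
  Tendsto (fun j => eLpNorm (fun x => H j x - H0 x) 2 ν) atTop (𝓝 0)

namespace L2T
variable {H H' : ℕ → α → V} {H0 H0' : α → V}

theorem const (H0 : α → V) : L2T ν (fun _ => H0) H0 := by simp [L2T]

theorem congr (h : L2T ν H H0) (h1 : ∀ j x, H' j x - H0' x = H j x - H0 x) : L2T ν H' H0' := by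
  simpa only [L2T, h1] using h

theorem comp (h : L2T ν H H0) {φ : ℕ → ℕ} (hφ : Tendsto φ atTop atTop) :
    L2T ν (fun j => H (φ j)) H0 := by
  unfold L2T at h ⊢
  exact h.comp hφ

theorem add (h : L2T ν H H0) (h' : L2T ν H' H0') (m : ∀ j, AEStronglyMeasurable (H j) ν)
    (m0 : AEStronglyMeasurable H0 ν) (m' : ∀ j, AEStronglyMeasurable (H' j) ν)
    (m0' : AEStronglyMeasurable H0' ν) :
    L2T ν (fun j x => H j x + H' j x) fun x => H0 x + H0' x := by
  have := Tendsto.add h h'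
  rw [add_zero] at this
  refine tendsto_of_tendsto_of_tendsto_of_le_of_le tendsto_const_nhds this (fun _ => zero_le)
    fun j => ?_
  refine le_trans (le_of_eq ?_) (eLpNorm_add_le ((m j).sub m0) ((m' j).sub m0') one_le_two)
  congr 1; funext x; simp only [Pi.add_apply]; abel

/-- multiplication by uniformly bounded, a.e. convergent functions -/
theorem smul [NormedSpace ℝ V] (h : L2T ν H H0) (m : ∀ j, AEStronglyMeasurable (H j) ν)
    (m0 : MemLp H0 2 ν) {a : ℕ → α → ℝ} {a0 : α → ℝ} {M : ℝ}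
    (ma : ∀ j, AEStronglyMeasurable (a j) ν) (hM : ∀ j x, |a j x| ≤ M)
    (ha : ∀ᵐ x ∂ν, Tendsto (fun j => a j x) atTop (𝓝 (a0 x))) :
    L2T ν (fun j x => a j x • H j x) fun x => a0 x • H0 x := by
  have ma0 : AEStronglyMeasurable a0 ν := aestronglyMeasurable_of_tendsto_ae atTop ma ha
  have hM0 : ∀ᵐ x ∂ν, |a0 x| ≤ M := ha.mono fun x hx =>
    le_of_tendsto hx.abs (.of_forall fun j => hM j x)
  have h1 : Tendsto (fun j => eLpNorm (fun x => a j x • (H j x - H0 x)) 2 ν) atTop (𝓝 0) := by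
    have := ENNReal.Tendsto.const_mul (a := ENNReal.ofReal M) h (Or.inr ENNReal.ofReal_ne_top)
    rw [mul_zero] at this
    refine tendsto_of_tendsto_of_tendsto_of_le_of_le tendsto_const_nhds this (fun _ => zero_le)
      fun j => eLpNorm_le_mul_eLpNorm_of_ae_le_mul (.of_forall fun x => ?_) 2
    rw [norm_smul]
    exact mul_le_mul_of_nonneg_right (hM j x) (norm_nonneg _)
  have h2 : Tendsto (fun j => eLpNorm (fun x => (a j x - a0 x) • H0 x) 2 ν) atTop (𝓝 0) := by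
    refine tendsto_eLpNorm_dom (b := fun x => (2 * M) * ‖H0 x‖)
      (fun j => ((ma j).sub ma0).smul m0.1) (m0.norm.const_mul _) (fun j => hM0.mono fun x hx => ?_)
      (ha.mono fun x hx => ?_)
    · rw [norm_smul]
      refine mul_le_mul_of_nonneg_right ((abs_sub _ _).trans ?_) (norm_nonneg _)
      linarith [hM j x]
    · simpa using (hx.sub_const (a0 x)).smul_const (H0 x)
  have := Tendsto.add h1 h2
  rw [add_zero] at this
  refine tendsto_of_tendsto_of_tendsto_of_le_of_le tendsto_const_nhds this (fun _ => zero_le)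
    fun j => ?_
  refine le_trans (le_of_eq ?_) (eLpNorm_add_le ((ma j).smul ((m j).sub m0.1))
    (((ma j).sub ma0).smul m0.1) one_le_two)
  congr 1; funext x
  simp only [Pi.add_apply, smul_sub, sub_smul]; abel

theorem tendsto_toLp (h : L2T ν H H0) (m : ∀ j, MemLp (H j) 2 ν) (m0 : MemLp H0 2 ν) :
    Tendsto (fun j => (m j).toLp (H j)) atTop (𝓝 (m0.toLp H0)) :=
  (Lp.tendsto_Lp_iff_tendsto_eLpNorm'' H m H0 m0).2 h

theorem of_toLp (m : ∀ j, MemLp (H j) 2 ν) (m0 : MemLp H0 2 ν)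
    (h : Tendsto (fun j => (m j).toLp (H j)) atTop (𝓝 (m0.toLp H0))) : L2T ν H H0 :=
  (Lp.tendsto_Lp_iff_tendsto_eLpNorm'' H m H0 m0).1 h

variable [InnerProductSpace ℝ V]

omit H H' H0 H0' in
theorem inner_toLp {G G' : α → V} (m : MemLp G 2 ν) (m' : MemLp G' 2 ν) :
    ⟪m.toLp G, m'.toLp G'⟫_ℝ = ∫ x, ⟪G x, G' x⟫_ℝ ∂ν := by
  rw [L2.inner_def]
  refine integral_congr_ae ?_
  filter_upwards [m.coeFn_toLp, m'.coeFn_toLp] with x h1 h2
  rw [h1, h2]

omit H H' H0 H0' in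
theorem norm_toLp_sq {G : α → V} (m : MemLp G 2 ν) :
    ‖m.toLp G‖ ^ 2 = ∫ x, ‖G x‖ ^ 2 ∂ν := by
  rw [← real_inner_self_eq_norm_sq, inner_toLp]
  simp only [real_inner_self_eq_norm_sq]

theorem tendsto_inner (h : L2T ν H H0) (h' : L2T ν H' H0') (m : ∀ j, MemLp (H j) 2 ν)
    (m0 : MemLp H0 2 ν) (m' : ∀ j, MemLp (H' j) 2 ν) (m0' : MemLp H0' 2 ν) :
    Tendsto (fun j => ∫ x, ⟪H j x, H' j x⟫_ℝ ∂ν) atTop (𝓝 (∫ x, ⟪H0 x, H0' x⟫_ℝ ∂ν)) := by
  have := (h.tendsto_toLp m m0).inner (𝕜 := ℝ) (h'.tendsto_toLp m' m0')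
  simpa only [inner_toLp] using this

theorem tendsto_inner_left (h : L2T ν H H0) (m : ∀ j, MemLp (H j) 2 ν) (m0 : MemLp H0 2 ν)
    {e : α → V} (he : MemLp e 2 ν) :
    Tendsto (fun j => ∫ x, ⟪e x, H j x⟫_ℝ ∂ν) atTop (𝓝 (∫ x, ⟪e x, H0 x⟫_ℝ ∂ν)) :=
  (const e).tendsto_inner h (fun _ => he) he m m0

theorem tendsto_normSq (h : L2T ν H H0) (m : ∀ j, MemLp (H j) 2 ν) (m0 : MemLp H0 2 ν) :
    Tendsto (fun j => ∫ x, ‖H j x‖ ^ 2 ∂ν) atTop (𝓝 (∫ x, ‖H0 x‖ ^ 2 ∂ν)) := by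
  simpa only [real_inner_self_eq_norm_sq] using h.tendsto_inner h m m0 m m0


end L2T

/-- Diagonal selection for bounded a.e. convergence. -/
theorem exists_diag_ae [SFinite ν] {v : ℕ → ℕ → α → ℝ} {w : ℕ → α → ℝ} {w0 : α → ℝ}
    (mv : ∀ k j, AEStronglyMeasurable (v k j) ν)
    (hv : ∀ k, ∀ᵐ x ∂ν, Tendsto (fun j => v k j x) atTop (𝓝 (w k x)))
    (hw : ∀ᵐ x ∂ν, Tendsto (fun k => w k x) atTop (𝓝 (w0 x))) {P : ℕ → ℕ → Prop}
    (hP : ∀ k, ∀ᶠ j in atTop, P k j) :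
    ∃ J : ℕ → ℕ, (∀ k, P k (J k)) ∧ ∀ᵐ x ∂ν, Tendsto (fun k => v k (J k) x) atTop (𝓝 (w0 x)) := by
  have hm : ∀ k, TendstoInMeasure ν.toFinite (v k) atTop (w k) := fun k =>
    tendstoInMeasure_of_tendsto_ae (fun j => (mv k j).mono_ac (toFinite_absolutelyContinuous ν))
      (by rw [ae_toFinite]; exact hv k)
  have hJ : ∀ k : ℕ, ∃ j, P k j ∧
      ν.toFinite {x | (1 / ((k : ℝ) + 1)) ≤ dist (v k j x) (w k x)} ≤ (2⁻¹ : ℝ≥0∞) ^ k := fun k => by
    have h1 := (tendstoInMeasure_iff_dist.1 (hm k)) (1 / ((k : ℝ) + 1)) (by positivity)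
    have h2 := h1.eventually (ge_mem_nhds (show (0 : ℝ≥0∞) < 2⁻¹ ^ k from
      ENNReal.pow_pos (by norm_num) k))
    exact ((hP k).and h2).exists
  choose J hJP hJ using hJ
  refine ⟨J, hJP, ?_⟩
  have hbc : ∀ᵐ x ∂ν.toFinite, ∀ᶠ k : ℕ in atTop,
      x ∉ {x | (1 / ((k : ℝ) + 1)) ≤ dist (v k (J k) x) (w k x)} := by
    refine ae_eventually_notMem (ne_top_of_le_ne_top ?_ (ENNReal.tsum_le_tsum hJ))
    simp [ENNReal.tsum_geometric]
  rw [ae_toFinite] at hbc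
  filter_upwards [hbc, hw] with x h1 h2
  refine h2.congr_dist (squeeze_zero' (.of_forall fun _ => dist_nonneg) (h1.mono fun k hk => ?_)
    tendsto_one_div_add_atTop_nhds_zero_nat)
  rw [dist_comm]
  exact (not_le.1 hk).le

end Crest.Agent.N346.P2

end
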