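import Crest.Agent.N346.P2.Core5_Mg
import Crest.Agent.N346.P2.Abs

-- ▼ part N346/P2/Core6
section

/-! Row 346, P2, main estimate, part 6: all error terms at the scale `ε = s⁴`, `δ = ε⁴`. -/

set_option autoImplicit false
set_option linter.unusedSectionVars false
open MeasureTheory Set
open scoped InnerProductSpace

noncomputable section
namespace Crest.Agent.N346.P2

variable {X : Type} [MeasurableSpace X] {V : Type} [NormedAddCommGroup V] [InnerProductSpace ℝ V]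
  {ν : Measure X}

namespace Crit
variable {𝒟 : DClass ν V} {a q τ₀ ω : ℝ} {nk : Neck 𝒟 a q τ₀ ω} {s C0 : ℝ}
  {pr : Prof (s ^ 4) C0} (c : Crit 𝒟 nk.W pr) (P : Pair 𝒟 nk.ρ)

structure Sc (K : ℝ) : Prop where
  s_pos : 0 < s
  s_le : s ≤ 1 / 2
  K1 : 1 ≤ K
  Φ_le : c.Φ ≤ K
  Λ2 : c.Λ ^ 2 ≤ K
  Λ1 : c.Λ ≤ K
  C0_le : C0 ≤ K
  C0_nonneg : 0 ≤ C0
  sob : c.Sob K
  vol : c.vol ≤ K
  bb : c.bb ≤ K
  dσ : ∀ x, ‖c.dσ x‖ ≤ (s ^ 4) ^ 3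

def JJ : ℝ := c.J ((s ^ 4) ^ 4) (c.zf P) (c.Gz P)
def HH : ℝ := c.H ((s ^ 4) ^ 4) (c.zf P) (c.Gz P)
def DD : ℝ := c.Dz ((s ^ 4) ^ 4) (c.zf P)
def EE : ℝ := c.HH P + c.DD P + c.Qξ P + c.Fm P + P.S nk.W + P.t

variable {c} {K : ℝ}

theorem Sc.pow_le (h : c.Sc K) {i j : ℕ} (hij : i ≤ j) : s ^ j ≤ s ^ i :=
  pow_le_pow_of_le_one h.s_pos.le (by linarith [h.s_le]) hij
theorem Sc.s3 (h : c.Sc K) : s ^ 3 ≤ 1 / 8 :=
  (pow_le_pow_left₀ h.s_pos.le h.s_le 3).trans (by norm_num)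
theorem Sc.s4 (h : c.Sc K) : s ^ 4 ≤ s / 8 := by
  have := mul_le_mul_of_nonneg_left h.s3 h.s_pos.le
  linarith
theorem Sc.par (h : c.Sc K) : Par (s ^ 4) ((s ^ 4) ^ 4) :=
  ⟨pow_pos h.s_pos 4, by linarith [h.s4, h.s_le], pow_pos (pow_pos h.s_pos 4) 4,
    pow_le_one₀ (pow_pos h.s_pos 4).le (by linarith [h.s4, h.s_le])⟩
theorem Sc.Kpow (h : c.Sc K) {i j : ℕ} (hij : i ≤ j) : K ^ i ≤ K ^ j := pow_le_pow_right₀ h.K1 hij

theorem Sc.nn (h : c.Sc K) : 0 ≤ c.JJ P ∧ c.JJ P ≤ c.HH P ∧ 0 ≤ c.DD P ∧ 0 ≤ c.Qξ P ∧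
    0 ≤ c.Fm P ∧ 0 ≤ P.S nk.W ∧ 0 ≤ P.t :=
  ⟨c.J_nonneg, c.J_le_H nk.wok h.par (c.z_D P), c.Dz_nonneg h.par (DClass.bd (c.z_D P)),
    c.Qξ_nonneg P, c.Fm_nonneg P, P.S_nonneg nk.wok, P.t_nonneg⟩

theorem Sc.Z_le (h : c.Sc K) : s ^ 4 * c.Z (c.zf P) ≤ 10 * K ^ 2 * c.JJ P := by
  have hK := h.K1
  have hs := h.s_pos
  have h1 := h.sob (c.z_D P)
  rw [← c.Z_eq] at h1
  have h2 := mul_le_mul_of_nonneg_left (c.G_le nk.wok h.par (c.z_D P)) (by linarith : 0 ≤ K)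
  have h3 := mul_le_mul_of_nonneg_left (h1.trans h2) (pow_pos hs 4).le
  have e : s ^ 4 * (K * ((2 + 8 * (C0 / s ^ 4)) * c.JJ P))
      = K * (2 * s ^ 4 + 8 * C0) * c.JJ P := by field_simp
  have h4 : K * (2 * s ^ 4 + 8 * C0) ≤ 10 * K ^ 2 := by
    have : 2 * s ^ 4 + 8 * C0 ≤ 10 * K := by linarith [h.s4, h.s_le, h.C0_le]
    nlinarith
  have h5 := mul_le_mul_of_nonneg_right h4 (h.nn P).1
  unfold JJ at *
  linarith

theorem Sc.Φt_le (h : c.Sc K) : c.Φt ≤ 3 / 2 * K := by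
  have h1 := c.Φt_le nk.wok h.par.ε_pos
  have h2 := c.Φ_nonneg h.par.ε_pos nk.wok
  have h3 := mul_le_mul_of_nonneg_right h.par.ε_le h2
  linarith [h.Φ_le]

theorem Sc.Nm_le (h : c.Sc K) : c.Nm P ≤ 288 * K * s ^ 2 * c.EE P := by
  have hs := h.s_pos
  have hK := h.K1
  obtain ⟨n1, n2, n3, n4, n5, n6, n7⟩ := h.nn P
  have h1 := c.Nm_le P h.par (r := s ^ 2) (by positivity)
  have e1 : 64 * s ^ 4 / s ^ 2 = 64 * s ^ 2 := by field_simp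
  have e2 : 3 / 2 / s ^ 2 * (128 * s ^ 4 * c.JJ P + 2 * P.t * s ^ 4 * c.Φ)
      = s ^ 2 * (192 * c.JJ P + 3 * (P.t * c.Φ)) := by field_simp; ring
  have u1 : s ^ 4 ≤ s ^ 2 := h.pow_le (by norm_num)
  have a1 : C0 * s ^ 4 * c.DD P ≤ K * s ^ 2 * c.DD P := by
    have := h.C0_le; have := h.C0_nonneg; gcongr
  have a2 := mul_le_mul_of_nonneg_right u1 n6
  have a3 := mul_le_mul_of_nonneg_left ((c.Qt_le nk.wok).trans h.Φt_le) n7
  have a4 := mul_le_mul_of_nonneg_left h.Φ_le n7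
  have a5 : 3 / 2 * c.Fm P + 288 * c.JJ P + 3 / 2 * (K * c.DD P) + 4 * P.S nk.W + 3 * c.Qξ P
      + 3 / 4 * (P.t * c.Qt) + 3 * (P.t * c.Φ) ≤ 288 * K * c.EE P := by
    have := mul_le_mul_of_nonneg_right hK n5
    have := mul_le_mul_of_nonneg_right hK n1
    have := mul_le_mul_of_nonneg_left n2 (by linarith : 0 ≤ K)
    have := mul_le_mul_of_nonneg_right hK n6
    have := mul_le_mul_of_nonneg_right hK n4
    have := mul_nonneg (by linarith : 0 ≤ K) n3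
    have := mul_nonneg (by linarith : 0 ≤ K) n7
    unfold EE; linarith
  have a6 := mul_le_mul_of_nonneg_left a5 (sq_nonneg s)
  unfold JJ DD at *
  rw [e1, e2] at h1
  linarith

theorem Sc.EE_nonneg (h : c.Sc K) : 0 ≤ c.EE P := by
  obtain ⟨n1, n2, n3, n4, n5, n6, n7⟩ := h.nn P
  unfold EE; linarith

theorem Sc.a1 (h : c.Sc K) {k : ℝ} (hS : c.Stab k) :
    -k * c.xf (c.zf P) ^ 2 + c.HH P + c.DD P - 2 * P.t * c.x1 (c.zf P) + P.t * c.Qt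
      + 2 * c.Qξ P + 2 * c.Fm P + (a + τ₀) * P.S nk.W - 320 * K ^ 4 * s * c.EE P ≤ c.K0 P := by
  have hs := h.s_pos
  have hK := h.K1
  have hK0 : 0 ≤ K := by linarith
  obtain ⟨n1, n2, n3, n4, n5, n6, n7⟩ := h.nn P
  have hE := h.EE_nonneg P
  have h1 := c.K0_ge P h.par h.dσ hS
  have h2 := mul_le_mul_of_nonneg_left (c.Em_le P hs) n7
  have h3 : 1 / s * c.Nm P ≤ 288 * K * s * c.EE P := by
    rw [one_div, inv_mul_le_iff₀ hs]; linarith [h.Nm_le P]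
  have h4 : P.t * (1 / s * c.Nm P) ≤ 288 * K * s * c.EE P :=
    (mul_le_mul P.t_le h3 (mul_nonneg (by positivity) ((c.hiNm P).nonneg fun x =>
      mul_nonneg (sq_nonneg _) (c.nu_nonneg nk.wok x))) zero_le_one).trans (by linarith)
  have h5 := mul_le_mul_of_nonneg_left ((c.M_le nk.wok).trans h.Φt_le) (mul_nonneg n7 hs.le)
  have h6 : P.t ≤ c.EE P := by unfold EE; linarith
  have h7 := mul_le_mul_of_nonneg_left h6 (mul_nonneg hK0 hs.le)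
  have e : ((s ^ 4) ^ 4 * c.Λ ^ 2 * (C0 / (s ^ 4) ^ 2) + 2 * (c.Λ * (C0 / s ^ 4) * (s ^ 4) ^ 3))
      * c.Z (c.zf P) = s ^ 4 * (c.Λ ^ 2 * C0 + 2 * (c.Λ * C0)) * (s ^ 4 * c.Z (c.zf P)) := by
    field_simp
  have u1 : c.Λ ^ 2 * C0 + 2 * (c.Λ * C0) ≤ 3 * K ^ 2 := by
    have := mul_le_mul h.Λ2 h.C0_le h.C0_nonneg hK0
    have := mul_le_mul h.Λ1 h.C0_le h.C0_nonneg hK0
    linarith
  have u2 : s ^ 4 * (c.Λ ^ 2 * C0 + 2 * (c.Λ * C0)) * (s ^ 4 * c.Z (c.zf P))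
      ≤ s * (3 * K ^ 2) * (10 * K ^ 2 * c.EE P) := by
    have hJ : c.JJ P ≤ c.EE P := by unfold EE; linarith
    have := c.Λ_pos
    have := h.C0_nonneg
    refine mul_le_mul (mul_le_mul (by linarith [h.s4]) u1 (by positivity) hs.le)
      ((h.Z_le P).trans (by gcongr)) (mul_nonneg (by positivity)
        (c.Z_nonneg (DClass.bd (c.z_D P)))) (by positivity)
  have u3 := mul_le_mul_of_nonneg_right (show K ≤ K ^ 4 by simpa using h.Kpow (by norm_num : 1 ≤ 4))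
    (mul_nonneg hs.le hE)
  have u4 : 0 ≤ K ^ 4 * (s * c.EE P) := by positivity
  rw [e] at h1
  unfold HH DD
  linarith

theorem Sc.a2 (h : c.Sc K) :
    (c.x1 (c.zf P) - c.xf (c.zf P)) ^ 2 ≤ 144 * K ^ 7 * s ^ 3 * c.EE P := by
  have hs := h.s_pos
  have hK := h.K1
  have hK0 : 0 ≤ K := by linarith
  obtain ⟨n1, n2, n3, n4, n5, n6, n7⟩ := h.nn P
  have hΦ := c.Φ_nonneg h.par.ε_pos nk.wok
  have h1 := c.x1_sub_xf nk.wok h.par (c.z_D P)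
  have k1 : K ≤ K ^ 7 := by simpa using h.Kpow (by norm_num : 1 ≤ 7)
  have u0 : s ^ 4 * c.Φ ≤ s ^ 3 * K := mul_le_mul (h.pow_le (by norm_num)) h.Φ_le hΦ (by positivity)
  have t1 : c.JJ P * (6 * s ^ 4 * c.Φ) ≤ c.JJ P * (6 * (s ^ 3 * K ^ 7)) := by
    have : s ^ 3 * K ≤ s ^ 3 * K ^ 7 := by gcongr
    exact mul_le_mul_of_nonneg_left (by linarith) n1
  have t2 : (∫ x, nk.W x * c.zf P x ^ 2 ∂ν) * (4 * s ^ 4 * c.Φ)
      ≤ (P.S nk.W + P.t) * (4 * (s ^ 3 * K ^ 7)) := by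
    have v1 : ∫ x, nk.W x * c.zf P x ^ 2 ∂ν ≤ (P.S nk.W + P.t) * K := by
      have := c.Wz_le P
      have := mul_le_mul_of_nonneg_left h.bb n7
      have := mul_le_mul_of_nonneg_left hK n6
      have := mul_nonneg n7 hK0
      linarith
    have v2 := mul_le_mul v1 (show 4 * s ^ 4 * c.Φ ≤ 4 * (s ^ 3 * K) by linarith)
      (by positivity) (by positivity)
    have v3 : (P.S nk.W + P.t) * (s ^ 3 * K ^ 2) ≤ (P.S nk.W + P.t) * (s ^ 3 * K ^ 7) := by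
      have := h.Kpow (by norm_num : 2 ≤ 7); gcongr
    linarith
  have hL : s * (Real.log (1 + (s ^ 4) ^ 4) - Real.log ((s ^ 4) ^ 4)) ≤ 16 := by
    have l1 := Real.log_le_sub_one_of_pos (show 0 < 1 + (s ^ 4) ^ 4 by positivity)
    have l2 := h.par.δ_le
    have l3 := Real.log_le_sub_one_of_pos (inv_pos.2 hs)
    rw [Real.log_inv] at l3
    have l4 : Real.log ((s ^ 4) ^ 4) = 16 * Real.log s := by
      rw [Real.log_pow, Real.log_pow]; push_cast; ring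
    have l5 : Real.log (1 + (s ^ 4) ^ 4) - Real.log ((s ^ 4) ^ 4) ≤ 16 * s⁻¹ := by linarith
    have := mul_le_mul_of_nonneg_left l5 hs.le
    rwa [mul_left_comm, mul_inv_cancel₀ hs.ne', mul_one] at this
  have e1 : (s ^ 4) ^ 4 * c.Λ ^ 2 * (C0 / s ^ 4) = s ^ 12 * (c.Λ ^ 2 * C0) := by field_simp
  have u1 : c.Λ ^ 2 * C0 ≤ K ^ 2 := by
    have := mul_le_mul h.Λ2 h.C0_le h.C0_nonneg hK0; linarith
  have u2 : 0 ≤ c.Λ ^ 2 * C0 := mul_nonneg (sq_nonneg _) h.C0_nonneg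
  have hv : 0 ≤ c.vol := ENNReal.toReal_nonneg
  have t3 : C0 * s ^ 4 * (2 * ((Real.log (1 + (s ^ 4) ^ 4) - Real.log ((s ^ 4) ^ 4)) * c.Φ)
      + 2 * c.Φ + 2 * (s ^ 12 * (c.Λ ^ 2 * C0)) * c.vol) ≤ 36 * (s ^ 3 * K ^ 7) := by
    have v1 := mul_le_mul hL h.Φ_le hΦ (by norm_num)
    have v2 : s * c.Φ ≤ 1 * K := mul_le_mul (by linarith [h.s_le]) h.Φ_le hΦ zero_le_one
    have v3 : s ^ 13 * (c.Λ ^ 2 * C0) * c.vol ≤ 1 * K ^ 2 * K := by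
      have : s ^ 13 ≤ 1 := by simpa using h.pow_le (by norm_num : 0 ≤ 13)
      have := h.vol
      gcongr
    have k3 : K ≤ K ^ 3 := by simpa using h.Kpow (by norm_num : 1 ≤ 3)
    have v4 : s * (2 * ((Real.log (1 + (s ^ 4) ^ 4) - Real.log ((s ^ 4) ^ 4)) * c.Φ)
      + 2 * c.Φ + 2 * (s ^ 12 * (c.Λ ^ 2 * C0)) * c.vol) ≤ 36 * K ^ 3 := by linarith
    have v5 := mul_le_mul_of_nonneg_left v4 (mul_nonneg h.C0_nonneg (pow_pos hs 3).le)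
    have v6 : C0 * s ^ 3 * K ^ 3 ≤ K ^ 4 * s ^ 3 * K ^ 3 := by
      have : C0 ≤ K ^ 4 := h.C0_le.trans (by simpa using h.Kpow (by norm_num : 1 ≤ 4))
      gcongr
    linarith
  have t3' := mul_le_mul_of_nonneg_left t3 n3
  have t4 : c.Z (c.zf P) * ((s ^ 12 * (c.Λ ^ 2 * C0)) ^ 2 * c.vol)
      ≤ 10 * (s ^ 3 * K ^ 7) * c.JJ P := by
    have v1 : s ^ 20 * (c.Λ ^ 2 * C0) ^ 2 * c.vol ≤ s ^ 3 * (K ^ 2) ^ 2 * K := by
      have := h.pow_le (by norm_num : 3 ≤ 20)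
      have := h.vol
      gcongr
    have := mul_le_mul (h.Z_le P) v1 (by positivity) (by positivity)
    linarith
  have hp : 0 ≤ s ^ 3 * K ^ 7 := by positivity
  have f1 := mul_le_mul_of_nonneg_left n2 hp
  have f2 := mul_nonneg hp n1
  have f3 := mul_nonneg hp n4
  have f4 := mul_nonneg hp n5
  have f5 := mul_nonneg hp n6
  have f6 := mul_nonneg hp n7
  rw [e1] at h1
  unfold EE
  unfold JJ DD at *
  linarith

theorem Sc.a9 (h : c.Sc K) {μ I Bc Γ : ℝ} (F : Fields μ q I Bc Γ) (hI : I ≤ c.Φt)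
    (hB : 0 ≤ Bc) (ha : 0 ≤ a) (hΓ : Γ ≤ K) (y : ℝ) :
    c.K0 P + a * (P.t * μ - (1 + ω ^ 2) * P.S nk.W
      + Bc * (2 * y * (c.x1 (c.zf P) - c.xd (c.zf P) + P.t / 2 * c.xe) - y ^ 2 * c.M)
      - 650 * K ^ 2 * s * c.EE P) ≤ c.K1 P a (c.βf F.α₁ F.γ₁) (c.βf F.α₂ F.γ₂) := by
  have hs := h.s_pos
  have hK := h.K1
  have hK0 : 0 ≤ K := by linarith
  have hΓ0 : 0 ≤ Γ := (abs_nonneg _).trans (F.γ₁_le 0 ⟨le_rfl, zero_le_one⟩)
  obtain ⟨n1, n2, n3, n4, n5, n6, n7⟩ := h.nn P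
  have hE := h.EE_nonneg P
  refine le_trans (add_le_add le_rfl (mul_le_mul_of_nonneg_left ?_ ha))
    (c.K1_ge P h.par F hI hB ha hs y)
  have hΦ := c.Φ_nonneg h.par.ε_pos nk.wok
  have u1 : c.Np P ≤ 24 * K * c.EE P := by
    have v1 := c.Np_le P h.par
    have v2 : s ^ 4 * c.Φ ≤ 1 / 8 * K := mul_le_mul h.par.ε_le h.Φ_le hΦ (by norm_num)
    have v3 := mul_le_mul_of_nonneg_left v2 n7
    have v4 := mul_le_mul_of_nonneg_right hK n1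
    have v5 : K * (c.JJ P + P.t) ≤ K * c.EE P :=
      mul_le_mul_of_nonneg_left (by unfold EE; linarith) hK0
    have := mul_nonneg hK0 n7
    unfold JJ at *
    linarith
  have u2 : 2 * Γ * s + 8 * s ^ 4 * Γ ≤ 3 * (K * s) := by
    have := mul_le_mul_of_nonneg_right h.s4 hΓ0
    have := mul_le_mul_of_nonneg_right hΓ hs.le
    linarith
  have hNp : 0 ≤ c.Np P := integral_nonneg fun x =>
    mul_nonneg (sq_nonneg _) (c.nu_nonneg nk.wok x)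
  have u3 := mul_le_mul u2 u1 hNp (by positivity)
  have u4 : 2 * Γ / s * c.Nm P ≤ 576 * K ^ 2 * s * c.EE P := by
    have v1 := mul_le_mul_of_nonneg_left (h.Nm_le P) (by positivity : 0 ≤ 2 * Γ / s)
    have e : 2 * Γ / s * (288 * K * s ^ 2 * c.EE P) = Γ * (576 * K * s * c.EE P) := by
      field_simp; ring
    have v2 := mul_le_mul_of_nonneg_right hΓ (by positivity : 0 ≤ 576 * K * s * c.EE P)
    linarith
  have u5 : s ^ 4 * Γ * P.S nk.W ≤ s / 8 * K ^ 2 * c.EE P := by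
    have : P.S nk.W ≤ c.EE P := by unfold EE; linarith
    have : Γ ≤ K ^ 2 := hΓ.trans (by simpa using h.Kpow (by norm_num : 1 ≤ 2))
    have := h.s4
    gcongr
  have : 0 ≤ K ^ 2 * s * c.EE P := by positivity
  linarith

end Crit
end Crest.Agent.N346.P2
end
end

-- ▼ part N346/P2/Core
section

/-! Row 346, P2: the main estimate `core : FieldsStmt → CoreStmt`. -/

set_option autoImplicit false
set_option linter.unusedSectionVars false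
open MeasureTheory Set
open scoped InnerProductSpace

noncomputable section
namespace Crest.Agent.N346.P2

variable {X : Type} [MeasurableSpace X] {V : Type} [NormedAddCommGroup V] [InnerProductSpace ℝ V]
  {ν : Measure X}

/-- the numerical conditions used at a fixed critical point -/
structure Num (a μ q τ₀ ω I bb K s m γ k θ c0 κ : ℝ) : Prop where
  a0 : 0 ≤ a
  a1 : a ≤ 1
  q0 : 0 ≤ q
  qI : q < I
  μI : μ < I
  IK : I ≤ K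
  k0K : I / (I ^ 2 - q ^ 2) ≤ K
  kK : |k| ≤ K
  γ0 : 0 < γ
  γI : γ * (I - μ) ≤ 1
  m0 : 0 < m
  hm : 1200 * K ^ 8 * s ≤ m
  mγ : m ≤ γ
  mθ : m ≤ θ / 2
  m1 : m ≤ 1
  mτ : m ≤ τ₀ / 4
  mc : m ≤ c0
  θ1 : θ ≤ 1
  θk : θ * (I / (I ^ 2 - q ^ 2)) ≤ γ / 8
  ω0 : 0 ≤ ω
  ω1 : ω ≤ 1
  ωτ : ω ^ 2 ≤ τ₀ / 4
  w1 : (I / (I ^ 2 - q ^ 2)) ^ 2 * (ω * bb) ≤ γ / 64
  w2 : 16 * (I / (I ^ 2 - q ^ 2)) ^ 2 * (ω ^ 2 * bb) ≤ γ * (τ₀ / 4)
  w3 : 8 * (I / (I ^ 2 - q ^ 2)) ^ 2 * (ω ^ 2 * bb ^ 2) ≤ γ * c0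
  w4 : 256 * (I / (I ^ 2 - q ^ 2)) ^ 2 * (ω ^ 2 * bb) ≤ γ * (θ / 4)
  hc : 20 * c0 ≤ γ * (I - μ) ^ 2
  κ0 : 0 ≤ κ
  κ1 : κ ≤ 1
  hA : 1 / (I - μ) + γ - γ / 16 ≤ I / (I ^ 2 - q ^ 2) + a * κ * (I / (I ^ 2 - q ^ 2)) - k
  hA0 : γ ≤ I / (I ^ 2 - q ^ 2) - k

namespace Crit
variable {𝒟 : DClass ν V} {a q τ₀ ω : ℝ} {nk : Neck 𝒟 a q τ₀ ω} {s C0 : ℝ}
  {pr : Prof (s ^ 4) C0} {c : Crit 𝒟 nk.W pr} (P : Pair 𝒟 nk.ρ) {K μ m γ k θ c0 κ : ℝ}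

theorem Sc.a0 (h : c.Sc K) (n : Num a μ q τ₀ ω c.I c.bb K s m γ k θ c0 κ) (hS : c.Stab k) :
    P.t * c.Qt - 2 * P.t * c.x1 (c.zf P) + (c.I / (c.I ^ 2 - q ^ 2) - k - γ / 4) * c.x1 (c.zf P) ^ 2
      + θ * c.HH P + c.DD P + 2 * c.Qξ P + 2 * c.Fm P + 3 / 4 * τ₀ * P.S nk.W - c0 * P.t
      - 464 * K ^ 8 * s * c.EE P ≤ c.K0 P - a * P.S nk.W := by
  obtain ⟨n1, n2, n3, n4, n5, n6, n7⟩ := h.nn P
  have hI : 0 < c.I := n.q0.trans_lt n.qI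
  have hd : 0 < c.I ^ 2 - q ^ 2 := by nlinarith [n.q0, n.qI]
  have hbb : 0 ≤ c.bb := integral_nonneg fun x => mul_nonneg (nk.W_nonneg x) (sq_nonneg _)
  have p := alg_proj (T := q / c.I) (x1 := c.x1 (c.zf P)) n.γ0 (by positivity) n.k0K hI.le n.IK
    (div_nonneg n.q0 hI.le) ((div_le_one hI).2 n.qI.le) (by field_simp) (by field_simp)
    h.s_pos.le (by linarith [h.s_le]) ((c.Qt_le nk.wok).trans (c.Φt_le_I nk.wok h.par))
    (c.r2_abs n.ω0) n.w1 (c.proj h.par (c.z_D P) _ _)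
  exact alg0 h.s_pos h.s_le h.K1 n.kK n.γ0 n.hm n.mγ (by linarith [n.m0, n.mθ]) n.θ1 n.θk n7
    (n1.trans n2) n3 n4 n5 n6 n.w2 n.w3 (h.a1 P hS) (h.a2 P) p
    ((c.r1_sq (DClass.bd (c.z_D P))).trans
      (mul_le_mul_of_nonneg_left (c.Wz_le P) (by positivity)))

theorem Sc.H1 (h : c.Sc K) (n : Num a μ q τ₀ ω c.I c.bb K s m γ k θ c0 κ) (hS : c.Stab k) {Γ : ℝ}
    (F : Fields μ q c.I (κ / Real.sqrt (1 - (q / c.I) ^ 2)) Γ) (hΓ : Γ ≤ K) :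
    P.t * ((1 + a) * μ + c0) ≤ c.K1 P a (c.βf F.α₁ F.γ₁) (c.βf F.α₂ F.γ₂) := by
  obtain ⟨n1, n2, n3, n4, n5, n6, n7⟩ := h.nn P
  have hI : 0 < c.I := n.q0.trans_lt n.qI
  have hd : 0 < c.I ^ 2 - q ^ 2 := by nlinarith [n.q0, n.qI]
  have hT0 : 0 ≤ q / c.I := div_nonneg n.q0 hI.le
  have hT : q / c.I < 1 := (div_lt_one hI).2 n.qI
  have hj : 0 < Real.sqrt (1 - (q / c.I) ^ 2) := Real.sqrt_pos.2 (by nlinarith)
  have hε := h.par.ε_pos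
  have hΦ : 7 * s ^ 4 * c.Φ ≤ 7 * s ^ 4 * K := mul_le_mul_of_nonneg_left h.Φ_le (by positivity)
  have f := alg_field (x1 := c.x1 (c.zf P)) (θ := θ) n.γ0 (by positivity) n.k0K h.K1 hI.le n.IK
    hT0 hT.le (by field_simp) (by field_simp) h.s_pos h.s_le (c.Φt_le_I nk.wok h.par)
    (c.r2_abs n.ω0) n.w1 hj (c.bogo hT0 hT) n.κ0 n.κ1 n7 P.t_le (n1.trans n2)
    (by linarith [n.m0, n.mθ]) (c.xd_sq h.par (c.z_D P) n.ω0 n.ω1) n.w4 c.xe_nonneg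
    ((c.xe_le h.par).trans hΦ)
  exact alg1 h.s_pos h.s_le h.K1 n.γ0 n.hm n.mγ n.mθ n.m1 n.mτ n.mc n.ωτ n.a0 n.a1 n7 P.t_sq
    (n1.trans n2) n3 n4 n5 n6 (sub_pos.2 n.μI) n.γI n.hc n.hA
    (by linarith [c.le_Qt nk.wok h.par]) (h.a0 P n hS) f
    (h.a9 P F ((c.I_le_Φ hε nk.wok).trans (c.Φ_le_Φt nk.wok hε)) (div_nonneg n.κ0 hj.le) n.a0 hΓ _)

theorem Sc.H0 (h : c.Sc K) (n : Num a μ q τ₀ ω c.I c.bb K s m γ k θ c0 κ) (hS : c.Stab k)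
    {I Bc Γ : ℝ} (F : Fields μ q I Bc Γ) (ht : P.t = 0) :
    ∫ x, (‖P.G₁ x‖ ^ 2 + ‖P.G₂ x‖ ^ 2 + ‖c.βf F.α₁ F.γ₁ x‖ ^ 2 * P.Y₁ x ^ 2
      + ‖c.βf F.α₂ F.γ₂ x‖ ^ 2 * P.Y₂ x ^ 2) ∂ν
      ≤ (2 * (2 + 8 * (C0 / s ^ 4)) + 288 * Γ ^ 2) * (2 / m) * c.K0 P := by
  obtain ⟨n1, n2, n3, n4, n5, n6, n7⟩ := h.nn P
  have hH := n1.trans n2
  have hE := h.EE_nonneg P
  have hm := n.m0
  have h1 := h.a0 P n hS
  have h2 := c.H0_le P h.par F ht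
  have b1 := mul_le_mul_of_nonneg_right n.hm hE
  have c1 := mul_le_mul_of_nonneg_right n.mθ hH
  have c2 := mul_le_mul_of_nonneg_right n.m1 n3
  have c3 := mul_le_mul_of_nonneg_right n.m1 n4
  have c4 := mul_le_mul_of_nonneg_right n.m1 n5
  have c5 := mul_le_mul_of_nonneg_right n.mτ n6
  have c6 := mul_nonneg n.a0 n6
  have c7 := mul_nonneg (show 0 ≤ c.I / (c.I ^ 2 - q ^ 2) - k - γ / 4 by linarith [n.hA0, n.γ0])
    (sq_nonneg (c.x1 (c.zf P)))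
  have d1 := mul_nonneg hm.le hH
  have d2 := mul_nonneg hm.le n6
  have d3 := mul_nonneg hm.le hE
  have e : m * c.EE P = m * c.HH P + m * c.DD P + m * c.Qξ P + m * c.Fm P + m * P.S nk.W := by
    unfold EE; rw [ht]; ring
  rw [ht] at h1
  have h3 : m * c.EE P ≤ 2 * c.K0 P := by linarith
  have h4 : c.EE P ≤ 2 / m * c.K0 P := by
    rw [div_mul_eq_mul_div, le_div_iff₀ hm]; linarith
  set C := 2 * (2 + 8 * (C0 / s ^ 4)) + 288 * Γ ^ 2 with hC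
  have hC2 : 2 ≤ C := by
    have := pr.C0_nonneg
    have := sq_nonneg Γ
    linarith
  have g1 := mul_le_mul_of_nonneg_left h4 (by linarith : 0 ≤ C)
  have g2 : C * c.JJ P + C * c.Qξ P + C * P.S nk.W ≤ C * c.EE P := by
    rw [← mul_add, ← mul_add]
    exact mul_le_mul_of_nonneg_left (by unfold EE; linarith) (by linarith)
  have g3 := mul_le_mul_of_nonneg_right hC2 n4
  have g4 := mul_le_mul_of_nonneg_right hC2 n6
  unfold JJ at g2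
  linarith

end Crit

theorem kappa_nonneg {μ q Is I s₀ : ℝ} (hq : 0 ≤ q) (hqμ : q < μ) (hμ : μ < Is) (hI : Is ≤ I)
    (hs : 1 < s₀) (h : s₀ * (μ * Is - q ^ 2) ≤ Is * (Is - μ)) :
    0 ≤ 1 / s₀ - (μ * I - q ^ 2) / (I * (I - μ)) := by
  have h1 : 0 < s₀ * (μ ^ 2 - q ^ 2) := mul_pos (by linarith) (by nlinarith)
  have h2 : 0 < (Is - μ) * (Is - s₀ * μ) := by nlinarith
  have h3 : 0 < Is - s₀ * μ := pos_of_mul_pos_left' h2 (by linarith)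
  have h4 : 0 ≤ (I - Is) * (I + Is - (1 + s₀) * μ) := mul_nonneg (by linarith) (by linarith)
  rw [sub_nonneg, div_le_div_iff₀ (mul_pos (by linarith) (by linarith)) (by linarith)]
  nlinarith
where pos_of_mul_pos_left' {x y : ℝ} (h : 0 < x * y) (hx : 0 < x) : 0 < y := by
        by_contra hy
        nlinarith [not_lt.1 hy]

theorem basic_facts {q Is η₁ I Ib γ : ℝ} (hq : 0 ≤ q) (hqI : q < Is) (hI : Is ≤ I)
    (hIb : I ≤ Ib) (hγ : 0 < γ) (hηγ : η₁ ^ 2 ≤ γ ^ 2 * I ^ 3) :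
    I / (I ^ 2 - q ^ 2) * I ≤ Is ^ 2 / (Is ^ 2 - q ^ 2) ∧ η₁ * Real.sqrt Is ≤ γ * I ^ 2 ∧
      η₁ * Real.sqrt Is / (Ib ^ 2 + 1) ≤ γ := by
  have hI0 : 0 < Is := by linarith
  have Ip : 0 < I := by linarith
  have hd0 : 0 < Is ^ 2 - q ^ 2 := by nlinarith
  have hd : 0 < I ^ 2 - q ^ 2 := by nlinarith
  have f3 : η₁ * Real.sqrt Is ≤ γ * I ^ 2 := by
    refine (abs_le_of_sq_le_sq' ?_ (by positivity)).2
    rw [mul_pow, Real.sq_sqrt hI0.le]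
    have := mul_le_mul hηγ hI hI0.le (by positivity)
    linarith
  refine ⟨?_, f3, ?_⟩
  · rw [div_mul_eq_mul_div, div_le_div_iff₀ hd hd0]
    have : q ^ 2 * Is ^ 2 ≤ q ^ 2 * I ^ 2 := by gcongr
    linarith
  · rw [div_le_iff₀ (by positivity)]
    have : I ^ 2 ≤ Ib ^ 2 := by gcongr
    have := mul_le_mul_of_nonneg_left this hγ.le
    linarith

theorem num_of {a μ q Is η₁ τ₀ bb cb I γ ω κ0 g0 c0 γ0 σ m K s : ℝ} (ha : 0 < a) (ha1 : a ≤ 1)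
    (hq : 0 ≤ q) (hqμ : q < μ) (hμI : μ < Is) (hI : Is ≤ I) (hγ : 0 < γ)
    (hηγ : η₁ ^ 2 ≤ γ ^ 2 * I ^ 3) (hγI : γ * I ≤ 1) (κ0_one : 1 ≤ κ0) (g0_pos : 0 < g0)
    (hc0 : c0 = ((Is - μ) / Is) ^ 2 * g0 / 20) (f1 : I / (I ^ 2 - q ^ 2) * I ≤ κ0)
    (f3 : g0 ≤ γ * I ^ 2) (f5 : γ0 ≤ γ) (cb0 : 0 ≤ cb) (cbb : cb ≤ bb) (hω0 : 0 ≤ ω) (ω1 : ω ≤ 1)
    (ωτ : ω ≤ τ₀ / 4) (O1 : κ0 ^ 2 / g0 * bb * ω ≤ 1 / 64) (O2 : 64 * (κ0 ^ 2 / g0) * bb * ω ≤ τ₀)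
    (O3 : 8 * (κ0 ^ 2 / g0) * bb ^ 2 * ω ≤ c0) (O4 : 8192 * κ0 ^ 3 * bb * ω ≤ η₁ ^ 2)
    (σp : 0 < σ) (hs0 : (1 + σ) * (μ * Is - q ^ 2) ≤ Is * (Is - μ)) (S2 : κ0 / Is * σ ≤ γ0 / 16)
    (mp : 0 < m) (m1 : m ≤ γ0) (m2 : m ≤ γ0 * Is / (8 * κ0) / 2) (m3 : m ≤ 1) (m4 : m ≤ τ₀ / 4)
    (m5 : m ≤ c0) (hm : 1200 * K ^ 8 * s ≤ m) (K1 : I ≤ K)
    (K2 : 4 * (κ0 / Is) + 2 * (1 / (Is - μ)) + 1 / Is ≤ K) :
    Num a μ q τ₀ ω I cb K s m γ (kstar a μ q I - γ) (γ * I / (8 * κ0)) c0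
      (1 / (1 + σ) - (μ * I - q ^ 2) / (I * (I - μ))) := by
  have hμ : 0 < μ := by linarith
  have hI0 : 0 < Is := by linarith
  have Ip : 0 < I := by linarith
  have hh : 0 < I - μ := by linarith
  have hh0 : 0 < Is - μ := by linarith
  have hd : 0 < I ^ 2 - q ^ 2 := sub_pos.2 (pow_lt_pow_left₀ (by linarith) hq two_ne_zero)
  have eks : kstar a μ q I = (1 + 2 * a) * (I / (I ^ 2 - q ^ 2)) - (1 + a) * (1 / (I - μ)) := by
    rw [kstar]; ring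
  have eρ : I / (I ^ 2 - q ^ 2) * ((μ * I - q ^ 2) / (I * (I - μ)))
      = 1 / (I - μ) - I / (I ^ 2 - q ^ 2) := by field_simp; ring
  have ρ0 : 0 ≤ (μ * I - q ^ 2) / (I * (I - μ)) := by
    refine div_nonneg ?_ (by positivity)
    have := mul_le_mul hqμ.le (show q ≤ I by linarith) hq hμ.le
    linarith
  have k0p : 0 < I / (I ^ 2 - q ^ 2) := by positivity
  have hκ := kappa_nonneg hq hqμ hμI hI (by linarith) hs0
  generalize hk0 : I / (I ^ 2 - q ^ 2) = k0 at *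
  generalize (μ * I - q ^ 2) / (I * (I - μ)) = ϱ at ρ0 eρ hκ ⊢
  have hp1 : 0 < κ0 / Is := by positivity
  have hp2 : 0 < 1 / (Is - μ) := by positivity
  have hp3 : 0 < 1 / Is := by positivity
  have f2 : k0 ≤ κ0 / Is := by
    rw [le_div_iff₀ hI0]
    exact (mul_le_mul_of_nonneg_left hI k0p.le).trans f1
  have f4 : k0 ^ 2 ≤ κ0 ^ 2 / g0 * γ := by
    rw [div_mul_eq_mul_div, le_div_iff₀ g0_pos]
    have u1 := mul_le_mul_of_nonneg_left f3 (sq_nonneg k0)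
    have u2 := mul_le_mul_of_nonneg_left (pow_le_pow_left₀ (by positivity) f1 2) hγ.le
    linarith
  have f6 : 1 / (I - μ) ≤ 1 / (Is - μ) := one_div_le_one_div_of_le hh0 (by linarith)
  have f7 : γ ≤ 1 / Is := by
    rw [le_div_iff₀ hI0]
    exact (mul_le_mul_of_nonneg_left hI hγ.le).trans hγI
  have hh' : 0 < 1 / (I - μ) := by positivity
  have ω2 : ω ^ 2 ≤ ω := by
    have := mul_le_mul_of_nonneg_left ω1 hω0
    linarith
  have wb1 : ω * cb ≤ ω * bb := by gcongr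
  have wb2 : ω ^ 2 * cb ≤ ω * bb := by gcongr
  have wb3 : ω ^ 2 * cb ^ 2 ≤ ω * bb ^ 2 := by gcongr
  have Ap : 0 ≤ κ0 ^ 2 / g0 * γ := by positivity
  generalize κ0 ^ 2 / g0 = A at *
  have hσ0 : 1 / (1 + σ) ≤ 1 := by rw [div_le_one (by linarith)]; linarith
  have hσ1 : 1 - 1 / (1 + σ) ≤ σ := by
    rw [sub_le_comm, le_div_iff₀ (by linarith)]
    linarith [sq_nonneg σ]
  exact
    { a0 := ha.le
      a1 := ha1
      q0 := hq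
      qI := by linarith
      μI := by linarith
      IK := K1
      k0K := by linarith
      kK := by
        have u1 := mul_le_mul_of_nonneg_right ha1 k0p.le
        have u2 := mul_le_mul_of_nonneg_right ha1 hh'.le
        have u3 := mul_nonneg ha.le k0p.le
        have u4 := mul_nonneg ha.le hh'.le
        rw [eks, abs_le]; constructor <;> linarith
      γ0 := hγ
      γI := by linarith [mul_pos hγ hμ]
      m0 := mp
      hm := hm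
      mγ := m1.trans f5
      mθ := m2.trans (by have : 0 ≤ γ0 := by linarith
                         gcongr)
      m1 := m3
      mτ := m4
      mc := m5
      θ1 := by rw [div_le_one (by positivity)]; linarith
      θk := by
        rw [hk0, div_mul_eq_mul_div, div_le_div_iff₀ (by positivity) (by norm_num)]
        have := mul_le_mul_of_nonneg_left f1 hγ.le
        linarith
      ω0 := hω0
      ω1 := ω1
      ωτ := by linarith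
      w1 := by
        have u1 := mul_le_mul f4 wb1 (by positivity) Ap
        have u2 := mul_le_mul_of_nonneg_left O1 hγ.le
        rw [hk0]; linarith
      w2 := by
        have u1 := mul_le_mul f4 wb2 (by positivity) Ap
        have u2 := mul_le_mul_of_nonneg_left O2 hγ.le
        rw [hk0]; linarith
      w3 := by
        have u1 := mul_le_mul f4 wb3 (by positivity) Ap
        have u2 := mul_le_mul_of_nonneg_left O3 hγ.le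
        rw [hk0]; linarith
      w4 := by
        have u1 := mul_le_mul (pow_le_pow_left₀ (by positivity) f1 2) wb2 (by positivity)
          (sq_nonneg κ0)
        have u2 := mul_le_mul_of_nonneg_left u1 (by positivity : 0 ≤ 8192 * κ0)
        have u4 : 8192 * κ0 * (k0 ^ 2 * (ω ^ 2 * cb)) * I ^ 2 ≤ γ ^ 2 * I * I ^ 2 := by
          linarith
        have u5 := le_of_mul_le_mul_right u4 (by positivity)
        have e : γ * (γ * I / (8 * κ0) / 4) = γ ^ 2 * I / (32 * κ0) := by field_simp; ring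
        rw [hk0, e, le_div_iff₀ (by positivity)]
        linarith
      hc := by
        have u1 : (Is - μ) / Is * I ≤ I - μ := by
          rw [div_mul_eq_mul_div, div_le_iff₀ hI0]
          linarith [mul_le_mul_of_nonneg_left hI hμ.le]
        have u2 := pow_le_pow_left₀ (by positivity) u1 2
        have u3 := mul_le_mul_of_nonneg_left u2 hγ.le
        have u4 := mul_le_mul_of_nonneg_left f3 (sq_nonneg ((Is - μ) / Is))
        linarith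
      κ0 := hκ
      κ1 := by linarith
      hA := by
        have u2 := mul_le_mul f2 hσ1 (by linarith) hp1.le
        have u3 : a * (k0 * (1 - 1 / (1 + σ))) ≤ 1 * (γ / 16) :=
          mul_le_mul ha1 (by linarith) (mul_nonneg k0p.le (by linarith)) zero_le_one
        have u4 : a * (k0 * ϱ) = a * (1 / (I - μ) - k0) := by rw [eρ]
        rw [eks, hk0]; linarith
      hA0 := by
        have u1 := mul_nonneg k0p.le ρ0
        rw [eρ] at u1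
        have u2 := mul_nonneg ha.le u1
        have u3 := mul_le_mul_of_nonneg_right ha1 k0p.le
        rw [eks, hk0]; linarith }

theorem core (hF : FieldsStmt) : CoreStmt := by
  intro a μ q Is η₁ τ₀ bb C0 ha ha1 hq hqμ hIs hη hτ hbb hC0
  have hsq := Real.sqrt_nonneg (μ ^ 2 - q ^ 2)
  have hμI : μ < Is := by linarith
  have hμ : 0 < μ := by linarith
  have hI0 : 0 < Is := by linarith
  have hρ : 0 < Is * (Is - μ) - (μ * Is - q ^ 2) := by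
    have h1 : Real.sqrt (μ ^ 2 - q ^ 2) ^ 2 = μ ^ 2 - q ^ 2 := Real.sq_sqrt (by nlinarith)
    have h2 : Real.sqrt (μ ^ 2 - q ^ 2) ^ 2 < (Is - μ) ^ 2 := by gcongr; linarith
    nlinarith
  have hd0 : 0 < Is ^ 2 - q ^ 2 := by nlinarith
  have hh0 : 0 < Is - μ := by linarith
  obtain ⟨κ0, hκ0⟩ : ∃ κ0, κ0 = Is ^ 2 / (Is ^ 2 - q ^ 2) := ⟨_, rfl⟩
  have κ0_one : 1 ≤ κ0 := by rw [hκ0, le_div_iff₀ hd0]; linarith [sq_nonneg q]
  obtain ⟨g0, hg0⟩ : ∃ g0, g0 = η₁ * Real.sqrt Is := ⟨_, rfl⟩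
  have g0_pos : 0 < g0 := hg0 ▸ mul_pos hη (Real.sqrt_pos.2 hI0)
  obtain ⟨c0, hc0⟩ : ∃ c0, c0 = ((Is - μ) / Is) ^ 2 * g0 / 20 := ⟨_, rfl⟩
  have c0_pos : 0 < c0 := by rw [hc0]; positivity
  obtain ⟨o1, o1p, O1⟩ := exists_small (κ0 ^ 2 / g0 * bb) (1 / 64) (by norm_num)
  obtain ⟨o2, o2p, O2⟩ := exists_small (64 * (κ0 ^ 2 / g0) * bb) τ₀ hτ
  obtain ⟨o3, o3p, O3⟩ := exists_small (8 * (κ0 ^ 2 / g0) * bb ^ 2) c0 c0_pos
  obtain ⟨o4, o4p, O4⟩ := exists_small (8192 * κ0 ^ 3 * bb) (η₁ ^ 2) (by positivity)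
  refine ⟨min (min 1 (τ₀ / 4)) (min (min o1 o2) (min o3 o4)), by positivity, c0, c0_pos, ?_⟩
  intro Ib CZ Λb hCZ
  obtain ⟨γ0, hγ0⟩ : ∃ γ0, γ0 = g0 / (Ib ^ 2 + 1) := ⟨_, rfl⟩
  have γ0_pos : 0 < γ0 := by rw [hγ0]; positivity
  obtain ⟨σ1, σ1p, S1⟩ := exists_small (μ * Is - q ^ 2) _ hρ
  obtain ⟨σ2, σ2p, S2⟩ := exists_small (κ0 / Is) (γ0 / 16) (by positivity)
  obtain ⟨σ, σp, σa, σb⟩ : ∃ σ, 0 < σ ∧ σ ≤ σ1 ∧ σ ≤ σ2 :=
    ⟨min σ1 σ2, lt_min σ1p σ2p, min_le_left _ _, min_le_right _ _⟩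
  have hs0 : (1 + σ) * (μ * Is - q ^ 2) ≤ Is * (Is - μ) := by linarith [S1 σ σp.le σa]
  obtain ⟨Γ, hΓ0, hΓ⟩ := hF μ q Is (1 + σ) hq hqμ hμI (by linarith) hs0
  obtain ⟨m, mp, hm⟩ : ∃ m, 0 < m ∧
      m ≤ min (min γ0 (γ0 * Is / (8 * κ0) / 2)) (min 1 (min (τ₀ / 4) c0)) :=
    ⟨_, by positivity, le_rfl⟩
  simp only [le_min_iff] at hm
  obtain ⟨⟨m1, m2⟩, m3, m4, m5⟩ := hm
  have hp1 : 0 < κ0 / Is := by positivity
  have hp2 : 0 < 1 / (Is - μ) := by positivity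
  have hp3 : 0 < 1 / Is := by positivity
  obtain ⟨K, hK⟩ : ∃ K, K = 1 + 2 * |Ib| + Λb ^ 2 + C0 + CZ + Γ + bb
    + (4 * (κ0 / Is) + 2 * (1 / (Is - μ)) + 1 / Is) := ⟨_, rfl⟩
  have hIb := abs_nonneg Ib
  have hΛb := sq_nonneg Λb
  obtain ⟨s1, s1p, T1⟩ := exists_small (1200 * K ^ 8) m mp
  refine ⟨(min s1 (1 / 2)) ^ 4, by positivity, fun ε hε hε0 => ⟨ε ^ 3, by positivity, ?_⟩⟩
  obtain ⟨s, sp, rfl⟩ : ∃ s : ℝ, 0 < s ∧ ε = s ^ 4 := by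
    refine ⟨Real.sqrt (Real.sqrt ε), Real.sqrt_pos.2 (Real.sqrt_pos.2 hε), ?_⟩
    rw [show (4 : ℕ) = 2 * 2 from rfl, pow_mul, Real.sq_sqrt (Real.sqrt_nonneg _),
      Real.sq_sqrt hε.le]
  have hs : s ≤ min s1 (1 / 2) := (pow_le_pow_iff_left₀ sp.le (by positivity) (by norm_num)).1 hε0
  intro X _ V _ _ ν 𝒟 ω nk pr c γ hω0 hω hI hIb' hΛ hdσ hSob hvol hb hγ hηγ hγI hStab
  simp only [le_min_iff] at hω hs
  obtain ⟨⟨ω1, ωτ⟩, ⟨ωa, ωb⟩, ωc, ωd⟩ := hω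
  have hW := nk.wok
  have hε8 : s ^ 4 ≤ 1 / 16 := (pow_le_pow_left₀ sp.le hs.2 4).trans (by norm_num)
  have IK : 2 * c.I ≤ K := by linarith [le_abs_self Ib]
  have cbb0 : 0 ≤ c.bb := integral_nonneg fun x => mul_nonneg (nk.W_nonneg x) (sq_nonneg _)
  have cbb : c.bb ≤ bb := hb
  have sc : c.Sc K :=
    { s_pos := sp
      s_le := hs.2
      K1 := by linarith
      Φ_le := by
        have h1 := c.Φ_le hε hW
        have h2 := mul_le_mul_of_nonneg_right hε8 (c.Φ_nonneg hε hW)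
        linarith
      Λ2 := by
        have := pow_le_pow_left₀ c.Λ_pos.le hΛ 2
        linarith
      Λ1 := by
        have := pow_le_pow_left₀ c.Λ_pos.le hΛ 2
        linarith [sq_nonneg (c.Λ - 1), sq_nonneg c.Λ]
      C0_le := by linarith
      C0_nonneg := by linarith
      sob := fun hz => (hSob hz).trans (mul_le_mul_of_nonneg_right (by linarith)
        (integral_nonneg fun _ => sq_nonneg _))
      vol := hvol.trans (by linarith)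
      bb := by linarith
      dσ := hdσ }
  obtain ⟨f1, f3, f5⟩ := basic_facts hq (hqμ.trans hμI) hI hIb' hγ hηγ
  rw [← hκ0] at f1
  rw [← hg0] at f3 f5
  rw [← hγ0] at f5
  have n := num_of (K := K) ha ha1 hq hqμ hμI hI hγ hηγ hγI κ0_one g0_pos hc0 f1 f3 f5 cbb0 cbb
    hω0 ω1 ωτ (O1 ω hω0 ωa) (O2 ω hω0 ωb) (O3 ω hω0 ωc) (O4 ω hω0 ωd) σp hs0 (S2 σ σp.le σb)
    mp m1 m2 m3 m4 m5 (T1 s sp.le hs.1) (by linarith) (by linarith)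
  obtain ⟨F⟩ := hΓ c.I hI
  have hΓK : Γ ≤ K := by linarith
  refine ⟨c.βf F.α₁ F.γ₁, c.βf F.α₂ F.γ₂, c.βf2 (Crit.cont_of F.hα₁) (Crit.cont_of F.hγ₁),
    c.βf2 (Crit.cont_of F.hα₂) (Crit.cont_of F.hγ₂), c.βf_vanish F, ?_,
    (2 * (2 + 8 * (C0 / s ^ 4)) + 288 * Γ ^ 2) * (2 / m), ?_⟩
  · intro t Y₁ Y₂ G₁ G₂ ht hP
    exact sc.H1 ⟨t, Y₁, Y₂, G₁, G₂, hP, ht⟩ n hStab F hΓK
  · intro Y₁ Y₂ G₁ G₂ hP
    have := sc.H0 ⟨0, Y₁, Y₂, G₁, G₂, hP, Or.inl rfl⟩ n hStab F rfl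
    rwa [← c.Kf_zero _ a (c.βf F.α₁ F.γ₁) (c.βf F.α₂ F.γ₂)] at this

end Crest.Agent.N346.P2
end
end

-- ▼ part N346/P2/Fields

/-! Row 346, P2b: the explicit coefficient functions (helper20). -/

set_option autoImplicit false
open Set

noncomputable section
namespace Crest.Agent.N346.P2
namespace Fld

/-- `j(s) = √(T² s² + 1 - T²)` -/
def jj (T s : ℝ) : ℝ := Real.sqrt (T ^ 2 * s ^ 2 + 1 - T ^ 2)

def A0 (α γ : ℝ → ℝ) (s : ℝ) : ℝ := 1 - γ s * s - α s ^ 2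
def dα (T : ℝ) (α γ : ℝ → ℝ) (s : ℝ) : ℝ := 2 * A0 α γ s * T / jj T s - 2 * α s * γ s
def dγ (T : ℝ) (α γ : ℝ → ℝ) (s : ℝ) : ℝ := -γ s ^ 2 - A0 α γ s * T ^ 2 / jj T s ^ 2

variable {T : ℝ}

theorem arg_pos (hT : T ^ 2 < 1) (s : ℝ) : 0 < T ^ 2 * s ^ 2 + 1 - T ^ 2 := by
  nlinarith [mul_nonneg (sq_nonneg T) (sq_nonneg s)]

theorem jj_pos (hT : T ^ 2 < 1) (s : ℝ) : 0 < jj T s := Real.sqrt_pos.2 (arg_pos hT s)

theorem jj_sq (hT : T ^ 2 < 1) (s : ℝ) : jj T s ^ 2 = T ^ 2 * s ^ 2 + 1 - T ^ 2 :=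
  Real.sq_sqrt (arg_pos hT s).le

theorem jj_zero : jj T 0 = Real.sqrt (1 - T ^ 2) := by simp [jj]

theorem jj_one : jj T 1 = 1 := by simp [jj]

theorem le_jj (hT : T ^ 2 < 1) {s : ℝ} (hs : s ∈ Icc (0 : ℝ) 1) : s ≤ jj T s := by
  refine Real.le_sqrt_of_sq_le ?_
  have : s ^ 2 ≤ 1 := pow_le_one₀ hs.1 hs.2
  nlinarith

theorem le_jj' {j₀ : ℝ} (h : j₀ ^ 2 ≤ 1 - T ^ 2) (s : ℝ) : j₀ ≤ jj T s :=
  Real.le_sqrt_of_sq_le (by nlinarith [mul_nonneg (sq_nonneg T) (sq_nonneg s)])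

theorem hasDerivAt_jj (hT : T ^ 2 < 1) (s : ℝ) : HasDerivAt (jj T) (T ^ 2 * s / jj T s) s := by
  have h : HasDerivAt (fun s : ℝ => T ^ 2 * s ^ 2 + 1 - T ^ 2) (T ^ 2 * (2 * s)) s := by
    simpa using (((hasDerivAt_pow 2 s).const_mul (T ^ 2)).add_const 1).sub_const (T ^ 2)
  refine (h.sqrt (arg_pos hT s).ne').congr_deriv ?_
  rw [jj]; field_simp

/-- a solution of the Riccati system with `A0 ≥ 0` -/
structure Sol (T : ℝ) (α γ : ℝ → ℝ) : Prop where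
  hα : ∀ s ∈ Icc (0 : ℝ) 1, HasDerivAt α (dα T α γ s) s
  hγ : ∀ s ∈ Icc (0 : ℝ) 1, HasDerivAt γ (dγ T α γ s) s
  pos : ∀ s ∈ Icc (0 : ℝ) 1, 0 ≤ A0 α γ s

namespace Sol
variable {α γ : ℝ → ℝ}

theorem cont (h : Sol T α γ) (hT : T ^ 2 < 1) :
    ContinuousOn (dα T α γ) (Icc 0 1) ∧ ContinuousOn (dγ T α γ) (Icc 0 1) := by
  have h1 : ContinuousOn α (Icc 0 1) := fun s hs => (h.hα s hs).continuousAt.continuousWithinAt
  have h2 : ContinuousOn γ (Icc 0 1) := fun s hs => (h.hγ s hs).continuousAt.continuousWithinAt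
  have h3 : ContinuousOn (jj T) (Icc 0 1) := fun s _ =>
    (hasDerivAt_jj hT s).continuousAt.continuousWithinAt
  have h4 : ContinuousOn (A0 α γ) (Icc 0 1) :=
    (continuousOn_const.sub (h2.mul continuousOn_id)).sub (h1.pow 2)
  exact ⟨(((continuousOn_const.mul h4).mul continuousOn_const).div h3
      fun s _ => (jj_pos hT s).ne').sub ((continuousOn_const.mul h1).mul h2),
    (h2.pow 2).neg.sub ((h4.mul continuousOn_const).div (h3.pow 2)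
      fun s _ => pow_ne_zero 2 (jj_pos hT s).ne')⟩

theorem psd (h : Sol T α γ) : ∀ s ∈ Icc (0 : ℝ) 1, ∀ w E S U : ℝ, 0 ≤ E → E ≤ w → 0 ≤ U →
    S ^ 2 ≤ E * U → 0 ≤ w - (α s ^ 2 * E + 2 * α s * γ s * S + γ s ^ 2 * U) - dα T α γ s * S -
      dγ T α γ s * U - γ s * w * s := by
  intro s hs w E S U hE hw hU hS
  have h0 := h.pos s hs
  set τ := T / jj T s with hτ
  have h1 : 2 * τ * S ≤ E + τ ^ 2 * U :=
    le_of_abs_le (abs_le_of_sq_le_sq (by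
      nlinarith [sq_nonneg (E - τ ^ 2 * U), mul_le_mul_of_nonneg_left hS (sq_nonneg τ)])
      (by positivity))
  have e : w - (α s ^ 2 * E + 2 * α s * γ s * S + γ s ^ 2 * U) - dα T α γ s * S -
      dγ T α γ s * U - γ s * w * s =
      (A0 α γ s + α s ^ 2) * (w - E) + A0 α γ s * (E + τ ^ 2 * U - 2 * τ * S) := by
    rw [hτ, dα, dγ, A0]; ring
  rw [e]
  exact add_nonneg (mul_nonneg (by positivity) (sub_nonneg.2 hw)) (mul_nonneg h0 (sub_nonneg.2 h1))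

theorem lip (h : Sol T α γ) (hT : T ^ 2 < 1) {j₀ G : ℝ} (hj : 0 < j₀) (hj' : j₀ ^ 2 ≤ 1 - T ^ 2)
    (hG : ∀ s ∈ Icc (0 : ℝ) 1, |γ s| ≤ G) :
    ∀ s ∈ Icc (0 : ℝ) 1, |γ s - γ 0| ≤ (G + G ^ 2 + (1 + G) / j₀ ^ 2) * s := by
  intro s hs
  have := norm_image_sub_le_of_norm_deriv_le_segment' (f := γ) (f' := dγ T α γ) (a := 0) (b := 1)
    (C := G + G ^ 2 + (1 + G) / j₀ ^ 2) (fun x hx => (h.hγ x hx).hasDerivWithinAt)
    (fun x hx => by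
      have hx' : x ∈ Icc (0 : ℝ) 1 := Ico_subset_Icc_self hx
      have h0 := h.pos x hx'
      have h1 := hG x hx'
      have hG0 : 0 ≤ G := (abs_nonneg _).trans h1
      have h2 : γ x ^ 2 ≤ G ^ 2 := by rw [← sq_abs]; gcongr
      have h3 : A0 α γ x ≤ 1 + G := by
        rw [A0]
        nlinarith [sq_nonneg (α x), abs_le.1 h1, hx'.1, hx'.2]
      have h4 : A0 α γ x * T ^ 2 / jj T x ^ 2 ≤ (1 + G) / j₀ ^ 2 := by
        gcongr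
        · nlinarith
        · exact le_jj' hj' x
      have h5 : 0 ≤ A0 α γ x * T ^ 2 / jj T x ^ 2 := by positivity
      rw [Real.norm_eq_abs, dγ, abs_le]
      constructor <;> nlinarith [sq_nonneg (γ x)]) s hs
  simpa using this

end Sol

def rr (T ϱ s : ℝ) : ℝ := ϱ * jj T s / (s + ϱ * jj T s)
def α₁ (T ϱ d s : ℝ) : ℝ := T * (ϱ + d * rr T ϱ s ^ 2)
def γ₁ (T ϱ d s : ℝ) : ℝ := (1 - T ^ 2 * ϱ * (ϱ + d * rr T ϱ s)) / (s + ϱ * jj T s)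
def γ₂ (T s₀ s : ℝ) : ℝ := -(1 - T ^ 2 * s₀ ^ 2) / (s₀ * jj T s - s)

theorem N_pos (hT : T ^ 2 < 1) {ϱ s : ℝ} (hϱ : 1 ≤ ϱ) (hs : s ∈ Icc (0 : ℝ) 1) :
    0 < s + ϱ * jj T s := by
  nlinarith [jj_pos hT s, hs.1]

theorem rr_mem (hT : T ^ 2 < 1) {ϱ s : ℝ} (hϱ : 1 ≤ ϱ) (hs : s ∈ Icc (0 : ℝ) 1) :
    1 / 2 ≤ rr T ϱ s ∧ rr T ϱ s ≤ 1 := by
  have hN := N_pos hT hϱ hs
  rw [rr, le_div_iff₀ hN, div_le_one hN]
  constructor <;> nlinarith [jj_pos hT s, le_jj hT hs, hs.1]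

theorem sol₁ (hT : T ^ 2 < 1) {ϱ d : ℝ} (hϱ : 1 ≤ ϱ) (hd : d ≤ 0) (hd' : -ϱ ≤ d)
    (hTϱ : T ^ 2 * ϱ ^ 2 ≤ 1) : Sol T (α₁ T ϱ d) (γ₁ T ϱ d) := by
  have hr : ∀ s ∈ Icc (0 : ℝ) 1, HasDerivAt (rr T ϱ)
      ((ϱ * (T ^ 2 * s / jj T s) * (s + ϱ * jj T s) -
        ϱ * jj T s * (1 + ϱ * (T ^ 2 * s / jj T s))) / (s + ϱ * jj T s) ^ 2) s := fun s hs =>
    ((hasDerivAt_jj hT s).const_mul ϱ).div
      ((hasDerivAt_id s).add ((hasDerivAt_jj hT s).const_mul ϱ)) (N_pos hT hϱ hs).ne'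
  refine ⟨fun s hs => ?_, fun s hs => ?_, fun s hs => ?_⟩
  · have h1 := (N_pos hT hϱ hs).ne'
    have h2 := (jj_pos hT s).ne'
    have h3 := jj_sq hT s
    refine (((((hr s hs).pow 2).const_mul d).const_add ϱ).const_mul T).congr_deriv ?_
    simp only [dα, A0, α₁, γ₁, rr]
    field_simp
    grind
  · have h1 := (N_pos hT hϱ hs).ne'
    have h2 := (jj_pos hT s).ne'
    have h3 := jj_sq hT s
    refine ((((((hr s hs).const_mul d).const_add ϱ).const_mul (T ^ 2 * ϱ)).const_sub 1).div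
      ((hasDerivAt_id s).add ((hasDerivAt_jj hT s).const_mul ϱ)) h1).congr_deriv ?_
    simp only [dγ, A0, α₁, γ₁, rr, id, Pi.add_apply]
    field_simp
    grind
  · have h1 := (N_pos hT hϱ hs).ne'
    obtain ⟨h2, h3⟩ := rr_mem hT hϱ hs
    have e : A0 (α₁ T ϱ d) (γ₁ T ϱ d) s = rr T ϱ s * (1 - T ^ 2 *
        (ϱ ^ 2 - d * (ϱ * (1 - 3 * rr T ϱ s) - d * rr T ϱ s ^ 3))) := by
      simp only [A0, α₁, γ₁, rr]
      field_simp
      ring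
    rw [e]
    set r := rr T ϱ s
    have h4 : r ^ 3 ≤ 3 * r - 1 := by nlinarith [mul_nonneg (sub_nonneg.2 h2) (sub_nonneg.2 h3)]
    have h5 : ϱ * (1 - 3 * r) - d * r ^ 3 ≤ 0 := by
      nlinarith [mul_le_mul_of_nonneg_left h4 (by linarith : 0 ≤ ϱ),
        mul_nonneg (by linarith : 0 ≤ d + ϱ) (by positivity : 0 ≤ r ^ 3)]
    have h6 := mul_nonneg (sq_nonneg T) (mul_nonneg_of_nonpos_of_nonpos hd h5)
    exact mul_nonneg (by linarith) (by nlinarith)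

theorem D_ge (hT : T ^ 2 < 1) {s₀ s : ℝ} (hs : s ∈ Icc (0 : ℝ) 1) :
    (s₀ - 1) * jj T s ≤ s₀ * jj T s - s := by
  linarith [le_jj hT hs]

theorem sol₂ (hT : T ^ 2 < 1) {s₀ : ℝ} (h₀ : 1 < s₀) (hTs : T ^ 2 * s₀ ^ 2 ≤ 1) :
    Sol T (fun _ => -(T * s₀)) (γ₂ T s₀) := by
  have hD : ∀ s ∈ Icc (0 : ℝ) 1, 0 < s₀ * jj T s - s := fun s hs =>
    (mul_pos (sub_pos.2 h₀) (jj_pos hT s)).trans_le (D_ge hT hs)
  refine ⟨fun s hs => ?_, fun s hs => ?_, fun s hs => ?_⟩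
  · have h1 := (hD s hs).ne'
    have h2 := (jj_pos hT s).ne'
    refine (hasDerivAt_const s (-(T * s₀))).congr_deriv ?_
    simp only [dα, A0, γ₂]
    field_simp
    ring
  · have h1 := (hD s hs).ne'
    have h2 := (jj_pos hT s).ne'
    refine ((hasDerivAt_const s (-(1 - T ^ 2 * s₀ ^ 2))).div
      (((hasDerivAt_jj hT s).const_mul s₀).sub (hasDerivAt_id s)) h1).congr_deriv ?_
    simp only [dγ, A0, γ₂, id, Pi.sub_apply]
    field_simp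
    ring
  · have h1 := hD s hs
    have e : A0 (fun _ => -(T * s₀)) (γ₂ T s₀) s =
        (1 - T ^ 2 * s₀ ^ 2) * (s₀ * jj T s) / (s₀ * jj T s - s) := by
      simp only [A0, γ₂]
      field_simp
      ring
    rw [e]
    exact div_nonneg (mul_nonneg (by linarith) (mul_nonneg (by linarith) (jj_pos hT s).le)) h1.le

end Fld

open Fld in
theorem fields : FieldsStmt := by
  intro μ q Is s₀ hq hqμ hμ h₀ hs₀
  have hIs : 0 < Is := by linarith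
  have hTs : (q / Is) ^ 2 < 1 := by
    rw [div_pow, div_lt_one (by positivity)]; nlinarith
  set j₀ := Real.sqrt (1 - (q / Is) ^ 2) with hj₀
  have hj : 0 < j₀ := Real.sqrt_pos.2 (by linarith)
  set G := 1 / j₀ + 1 / ((s₀ - 1) * j₀) with hG
  have hs1 : 0 < s₀ - 1 := by linarith
  have hG0 : 0 ≤ G := by positivity
  refine ⟨G + G ^ 2 + (1 + G) / j₀ ^ 2, by positivity, fun I hI => ?_⟩
  have hI0 : 0 < I := by linarith
  have hIμ : 0 < I - μ := by linarith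
  have hden : 0 < μ * I - q ^ 2 := by nlinarith
  set T := q / I with hTdef
  set ϱ := I * (I - μ) / (μ * I - q ^ 2) with hϱdef
  have hT0 : 0 ≤ T := by positivity
  have hTT : T ^ 2 ≤ (q / Is) ^ 2 := by rw [hTdef]; gcongr
  have hT : T ^ 2 < 1 := hTT.trans_lt hTs
  have hj' : j₀ ^ 2 ≤ 1 - T ^ 2 := by rw [hj₀, Real.sq_sqrt (by linarith)]; linarith
  have hsϱ : s₀ ≤ ϱ := by
    rw [hϱdef, le_div_iff₀ hden]
    have h1 : μ * s₀ < Is := by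
      by_contra h
      have h2 : q ^ 2 < μ ^ 2 := by nlinarith
      nlinarith [mul_le_mul_of_nonneg_right (not_lt.1 h) (by linarith : 0 ≤ Is - μ)]
    nlinarith [mul_nonneg (sub_nonneg.2 hI) (by linarith : 0 ≤ I + Is - μ - μ * s₀)]
  have hTϱ : T * ϱ ≤ 1 := by
    have e : T * ϱ = q * (I - μ) / (μ * I - q ^ 2) := by rw [hTdef, hϱdef]; field_simp
    rw [e, div_le_one hden]
    nlinarith
  have hϱ : 1 ≤ ϱ := by linarith
  have hTϱ2 : T ^ 2 * ϱ ^ 2 ≤ 1 := by rw [← mul_pow]; exact pow_le_one₀ (by positivity) hTϱ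
  have hTs₀ : T * s₀ ≤ 1 := le_trans (by gcongr) hTϱ
  have hTs2 : T ^ 2 * s₀ ^ 2 ≤ 1 := by rw [← mul_pow]; exact pow_le_one₀ (by positivity) hTs₀
  have S1 := sol₁ hT hϱ (d := s₀ - ϱ) (by linarith) (by linarith) hTϱ2
  have S2 := sol₂ hT h₀ hTs2
  have hnum : ∀ s ∈ Icc (0 : ℝ) 1, 0 ≤ 1 - T ^ 2 * ϱ * (ϱ + (s₀ - ϱ) * rr T ϱ s) ∧
      1 - T ^ 2 * ϱ * (ϱ + (s₀ - ϱ) * rr T ϱ s) ≤ 1 := fun s hs => by
    obtain ⟨h2, h3⟩ := rr_mem hT hϱ hs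
    have h4 : 0 ≤ T ^ 2 * ϱ := by positivity
    have h5 : ϱ + (s₀ - ϱ) * rr T ϱ s ≤ ϱ := by nlinarith
    have h6 : 0 ≤ ϱ + (s₀ - ϱ) * rr T ϱ s := by nlinarith
    constructor <;> nlinarith [mul_le_mul_of_nonneg_left h5 h4, mul_nonneg h4 h6]
  have hG1 : ∀ s ∈ Icc (0 : ℝ) 1, |γ₁ T ϱ (s₀ - ϱ) s| ≤ G := fun s hs => by
    have hN := N_pos hT hϱ hs
    rw [γ₁, abs_of_nonneg (div_nonneg (hnum s hs).1 hN.le)]
    refine le_trans ?_ (le_add_of_nonneg_right (by positivity))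
    gcongr
    · exact (hnum s hs).2
    · nlinarith [le_jj' hj' s, hs.1]
  have hG2 : ∀ s ∈ Icc (0 : ℝ) 1, |γ₂ T s₀ s| ≤ G := fun s hs => by
    have h1 : (s₀ - 1) * j₀ ≤ s₀ * jj T s - s :=
      (mul_le_mul_of_nonneg_left (le_jj' hj' s) hs1.le).trans (D_ge hT hs)
    have h2 : 0 < (s₀ - 1) * j₀ := by positivity
    rw [γ₂, neg_div, abs_neg, abs_of_nonneg (div_nonneg (by linarith) (h2.le.trans h1))]
    refine le_trans ?_ (le_add_of_nonneg_left (by positivity))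
    gcongr
    nlinarith [mul_nonneg (sq_nonneg T) (sq_nonneg s₀)]
  have hΓ : G ≤ G + G ^ 2 + (1 + G) / j₀ ^ 2 := by
    rw [add_assoc]; exact le_add_of_nonneg_right (by positivity)
  have hj0 := (jj_pos hT 0).ne'
  have hϱ0 : ϱ ≠ 0 := by positivity
  have hr0 : rr T ϱ 0 = 1 := by rw [rr, zero_add, div_self (mul_ne_zero hϱ0 hj0)]
  refine ⟨⟨α₁ T ϱ (s₀ - ϱ), _, γ₁ T ϱ (s₀ - ϱ), _, fun _ => -(T * s₀), _, γ₂ T s₀, _, S1.hα, S1.hγ,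
    S2.hα, S2.hγ, (S1.cont hT).1, (S1.cont hT).2, (S2.cont hT).1, (S2.cont hT).2, S1.psd, S2.psd,
    ?_, ?_, ?_, ?_, fun s hs => ?_, fun s _ => ?_, fun s hs => (hG1 s hs).trans hΓ,
    fun s hs => (hG2 s hs).trans hΓ, S1.lip hT hj hj' hG1, S2.lip hT hj hj' hG2⟩⟩
  · rw [α₁, hr0]; ring
  · have e : (μ * I - q ^ 2) / (I * (I - μ)) = 1 / ϱ := by rw [hϱdef, one_div_div]
    rw [γ₁, γ₂, hr0, e, ← jj_zero]
    have : s₀ ≠ 0 := by positivity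
    field_simp
    ring
  · have h1 : 1 + ϱ ≠ 0 := by positivity
    have e : α₁ T ϱ (s₀ - ϱ) 1 * T + γ₁ T ϱ (s₀ - ϱ) 1 = (1 + T ^ 2 * ϱ) / (1 + ϱ) := by
      simp only [α₁, γ₁, rr, jj_one]
      field_simp
      ring
    have e2 : (1 + T ^ 2 * ϱ) * I = μ * (1 + ϱ) := by
      have a1 : ϱ * (μ * I - q ^ 2) = I * (I - μ) := div_mul_cancel₀ _ hden.ne'
      have a2 : T * I = q := div_mul_cancel₀ _ hI0.ne'
      refine mul_left_cancel₀ hI0.ne' ?_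
      rw [← a2] at a1
      linear_combination (-1 : ℝ) * a1
    have e3 : q = T * I := by rw [hTdef]; field_simp
    rw [e3, ← mul_assoc, ← add_mul, e, div_mul_eq_mul_div, e2, mul_div_assoc, div_self h1, mul_one]
  · have h1 : (1 : ℝ) ∈ Icc (0 : ℝ) 1 := ⟨zero_le_one, le_rfl⟩
    exact div_nonneg (hnum 1 h1).1 (N_pos hT hϱ h1).le
  · obtain ⟨h2, h3⟩ := rr_mem hT hϱ hs
    have h4 : rr T ϱ s ^ 2 ≤ 1 := pow_le_one₀ (by linarith) h3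
    have h5 : ϱ + (s₀ - ϱ) * rr T ϱ s ^ 2 ≤ ϱ := by nlinarith [sq_nonneg (rr T ϱ s)]
    have h6 : 0 ≤ ϱ + (s₀ - ϱ) * rr T ϱ s ^ 2 := by nlinarith
    rw [α₁, abs_of_nonneg (mul_nonneg hT0 h6)]
    exact (mul_le_mul_of_nonneg_left h5 hT0).trans hTϱ
  · rw [abs_neg, abs_of_nonneg (by positivity)]
    exact hTs₀

end Crest.Agent.N346.P2
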