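import Crest.Agent.N346.P2.Abs
import Crest.Agent.N346.P2.ConcD
import Crest.Agent.R335.KRellich
import Crest.Agent.N346.P2.Conc
import Crest.Agent.N346.P2.Basic
import Crest.Agent.N346.Basic2

-- ▼ part N346/P2/TopG
section

/-! Row 346, part P2e: the function `G` of the phase-field functional (pure real analysis,
helper28). -/

set_option autoImplicit false
open MeasureTheory Set Filter Topology

noncomputable section
namespace Crest.Agent.N346.P2.Top

/-- `log G'` above `Is` -/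
def gl (a μ q y I : ℝ) : ℝ :=
  (1 + 2 * a) * Real.log (I ^ 2 - q ^ 2) - (2 + 2 * a) * Real.log (I - μ) + 4 * y / √I

/-- `G'` -/
def gp (a μ q y Is I : ℝ) : ℝ := Real.exp (gl a μ q y (max I Is))

/-- `G` -/
def Gf (a μ q y Is I : ℝ) : ℝ := ∫ s in Is..I, gp a μ q y Is s

variable {a μ q y Is : ℝ}

theorem hasDerivAt_gl (hq : 0 ≤ q) (hμ : q < μ) {I : ℝ} (hI : μ < I) :
    HasDerivAt (gl a μ q y) (2 * (kstar a μ q I - y / (I * √I))) I := by
  have h0 : 0 < I := by linarith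
  have h1 : 0 < I ^ 2 - q ^ 2 := by nlinarith
  have h2 : 0 < I - μ := by linarith
  have h3 : 0 < √I := Real.sqrt_pos.2 h0
  have d1 := (((hasDerivAt_pow 2 I).sub_const (q ^ 2)).log h1.ne').const_mul (1 + 2 * a)
  have d2 := (((hasDerivAt_id I).sub_const μ).log h2.ne').const_mul (2 + 2 * a)
  have d3 := (hasDerivAt_const I (4 * y)).div (Real.hasDerivAt_sqrt h0.ne') h3.ne'
  refine ((d1.sub d2).add d3).congr_deriv ?_
  simp only [kstar, Real.sq_sqrt h0.le, id, Nat.cast_ofNat, Nat.add_one_sub_one, pow_one]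
  field_simp
  ring

theorem gp_pos (I : ℝ) : 0 < gp a μ q y Is I := Real.exp_pos _

theorem continuous_gp (hq : 0 ≤ q) (hμ : q < μ) (hI : μ < Is) : Continuous (gp a μ q y Is) := by
  refine Real.continuous_exp.comp (continuous_iff_continuousAt.2 fun I => ?_)
  exact ContinuousAt.comp (g := gl a μ q y) (f := fun I => max I Is)
    (hasDerivAt_gl hq hμ (hI.trans_le (le_max_right _ _))).continuousAt
    (continuous_id.max continuous_const).continuousAt

theorem hasDerivAt_Gf (hq : 0 ≤ q) (hμ : q < μ) (hI : μ < Is) (I : ℝ) :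
    HasDerivAt (Gf a μ q y Is) (gp a μ q y Is I) I :=
  ((continuous_gp hq hμ hI).integral_hasStrictDerivAt Is I).hasDerivAt

theorem monotone_Gf (hq : 0 ≤ q) (hμ : q < μ) (hI : μ < Is) : Monotone (Gf a μ q y Is) :=
  monotone_of_hasDerivAt_nonneg (hasDerivAt_Gf hq hμ hI) fun I => (gp_pos I).le

theorem continuous_Gf (hq : 0 ≤ q) (hμ : q < μ) (hI : μ < Is) : Continuous (Gf a μ q y Is) :=
  continuous_iff_continuousAt.2 fun I => (hasDerivAt_Gf hq hμ hI I).continuousAt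

theorem gp_of_le {I : ℝ} (h : I ≤ Is) : gp a μ q y Is I = Real.exp (gl a μ q y Is) := by
  rw [gp, max_eq_right h]

theorem hasDerivAt_gp (hq : 0 ≤ q) (hμ : q < μ) (hI : μ < Is) {I : ℝ} (h : Is < I) :
    HasDerivAt (gp a μ q y Is) (gp a μ q y Is I * (2 * (kstar a μ q I - y / (I * √I)))) I := by
  have d := (hasDerivAt_gl (a := a) (y := y) hq hμ (hI.trans h)).exp
  rw [gp, max_eq_left h.le]
  refine d.congr_of_eventuallyEq ?_
  filter_upwards [lt_mem_nhds h] with s hs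
  rw [gp, max_eq_left hs.le]

theorem exists_gp_ge (hq : 0 ≤ q) (hμ : q < μ) (hI : μ < Is) (Ib : ℝ) :
    ∃ m : ℝ, 0 < m ∧ ∀ I, Is ≤ I → I ≤ Ib → m ≤ gp a μ q y Is I := by
  rcases le_or_gt Is Ib with h | h
  · obtain ⟨I₀, -, h₀⟩ := isCompact_Icc.exists_isMinOn (nonempty_Icc.2 h)
      (continuous_gp (a := a) (y := y) hq hμ hI).continuousOn
    exact ⟨_, gp_pos I₀, fun I h1 h2 => h₀ ⟨h1, h2⟩⟩
  · exact ⟨1, one_pos, fun I h1 h2 => by linarith⟩

theorem gp_ge (ha : 0 < a) (ha1 : a ≤ 1) (hq : 0 ≤ q) (hμ : q < μ) (hI : μ < Is) (hy : 0 < y)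
    {I : ℝ} (h : Is ≤ I) (h' : 12 * q ^ 2 ≤ y * I ^ 2) :
    (1 - y / 4) * I ^ (2 * a) ≤ gp a μ q y Is I := by
  have h0 : 0 < I := by linarith
  have h1 : 0 < I ^ 2 - q ^ 2 := by nlinarith
  have h2 : 0 < I - μ := by linarith
  set r : ℝ := (I ^ 2 - q ^ 2) / I ^ 2 with hr
  have hr0 : 0 < r := by positivity
  have hr1 : r ≤ 1 := (div_le_one (by positivity)).2 (by nlinarith)
  have hr2 : 1 - y / 12 ≤ r := by rw [hr, le_div_iff₀ (by positivity)]; nlinarith
  have e1 : Real.log (I ^ 2 - q ^ 2) = Real.log r + 2 * Real.log I := by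
    rw [hr, Real.log_div h1.ne' (by positivity), Real.log_pow]; push_cast; ring
  have e2 : Real.log (I - μ) ≤ Real.log I := Real.log_le_log h2 (by linarith)
  have e3 : Real.log r ≤ 0 := Real.log_nonpos hr0.le hr1
  have e4 : 0 ≤ 4 * y / √I := by positivity
  have e5 : 3 * Real.log r + Real.log I * (2 * a) ≤ gl a μ q y I := by
    rw [gl, e1]; nlinarith
  have e6 : 1 - y / 4 ≤ r ^ 3 := by
    have := one_add_mul_le_pow (a := r - 1) (by linarith) 3
    push_cast at this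
    rw [add_sub_cancel] at this
    linarith
  rw [gp, max_eq_left h]
  refine le_trans ?_ (Real.exp_le_exp.2 e5)
  rw [Real.exp_add, ← Real.rpow_def_of_pos h0, show (3 : ℝ) = (3 : ℕ) by norm_num,
    Real.exp_nat_mul, Real.exp_log hr0]
  gcongr

theorem coercive (ha : 0 < a) (ha1 : a ≤ 1) (hq : 0 ≤ q) (hμ : q < μ) (hI : μ < Is) (hy : 0 < y)
    (K : ℝ) : ∃ Ib : ℝ, ∀ Q : ℝ,
      Gf a μ q y Is Q - (1 - y / 2) / (1 + 2 * a) * Q ^ (1 + 2 * a) ≤ K → Q ≤ Ib := by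
  set I₁ : ℝ := max (max Is 1) (12 * q ^ 2 / y) with hI₁
  have h1 : Is ≤ I₁ := (le_max_left _ _).trans (le_max_left _ _)
  have h2 : 1 ≤ I₁ := (le_max_right _ _).trans (le_max_left _ _)
  have h3 : 12 * q ^ 2 / y ≤ I₁ := le_max_right _ _
  set H : ℝ → ℝ := fun Q => Gf a μ q y Is Q - (1 - y / 2) / (1 + 2 * a) * Q ^ (1 + 2 * a) with hH
  have hd : ∀ Q, 0 < Q → HasDerivAt H (gp a μ q y Is Q - (1 - y / 2) * Q ^ (2 * a)) Q :=
    fun Q hQ => by
      refine ((hasDerivAt_Gf hq hμ hI Q).sub ((Real.hasDerivAt_rpow_const (p := 1 + 2 * a)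
        (Or.inl hQ.ne')).const_mul _)).congr_deriv ?_
      rw [add_sub_cancel_left]; field_simp
  refine ⟨max I₁ (I₁ + (K - H I₁) / (y / 4)), fun Q hQ => ?_⟩
  rcases le_total Q I₁ with h | h
  · exact h.trans (le_max_left _ _)
  refine le_trans ?_ (le_max_right _ _)
  have := (convex_Ici I₁).mul_sub_le_image_sub_of_le_deriv (f := H) (C := y / 4)
    (fun s hs => (hd s (by linarith [mem_Ici.1 hs])).continuousAt.continuousWithinAt)
    (fun s hs => (hd s (by linarith [mem_Ici.1 (interior_subset hs)])).differentiableAt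
      |>.differentiableWithinAt) (fun s hs => ?_) I₁ self_mem_Ici Q h h
  · rw [← sub_le_iff_le_add', le_div_iff₀ (by positivity)]
    change H Q ≤ K at hQ
    linarith
  · have hs' : I₁ ≤ s := mem_Ici.1 (interior_subset hs)
    rw [(hd s (by linarith)).deriv]
    have h4 := gp_ge ha ha1 hq hμ hI hy (h1.trans hs') (by
      rw [div_le_iff₀ hy] at h3
      have : I₁ ≤ s ^ 2 := by nlinarith
      nlinarith)
    have h5 : 1 ≤ s ^ (2 * a) := Real.one_le_rpow (h2.trans hs') (by positivity)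
    nlinarith

/-- the bound for the area, as a function of the small parameter -/
def Psi (a μ q cn y : ℝ) : ℝ :=
  (((μ + √(μ ^ 2 - q ^ 2) + y) ^ 2 - q ^ 2) / (μ + √(μ ^ 2 - q ^ 2) + y) + y) /
    (√(1 - (q / (μ + √(μ ^ 2 - q ^ 2) + y)) ^ 2) *
      √((1 - y) / (cn * (1 + 2 * a)) / Real.exp (gl a μ q y (μ + √(μ ^ 2 - q ^ 2) + y)))) + y

theorem exists_param {cn η : ℝ} (ha : 0 < a) (hq : 0 ≤ q) (hμ : q < μ) (hcn : 0 < cn)
    (hη : 0 < η) : ∃ y : ℝ, 0 < y ∧ y ≤ 1 / 2 ∧ y ≤ √μ ∧ Psi a μ q cn y ^ 2 ≤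
      (1 + η) * (cn * (1 + 2 * a)) * (2 * (μ + √(μ ^ 2 - q ^ 2))) ^ (2 + 2 * a) := by
  have h0 : 0 < μ := by linarith
  have h1 : 0 < μ ^ 2 - q ^ 2 := by nlinarith
  have h2 := Real.sq_sqrt h1.le
  have h3 : 0 < √(μ ^ 2 - q ^ 2) := Real.sqrt_pos.2 h1
  unfold Psi
  generalize √(μ ^ 2 - q ^ 2) = w at h2 h3
  set I := μ + w with hI
  have hI0 : 0 < I := by positivity
  have h4 : I ^ 2 - q ^ 2 = 2 * I * w := by rw [hI]; linear_combination -h2
  have h5 : 0 < I ^ 2 - q ^ 2 := by rw [h4]; positivity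
  have h6 : 1 - (q / I) ^ 2 = (I ^ 2 - q ^ 2) / I ^ 2 := by field_simp
  have h7 : Real.exp (gl a μ q 0 I) * (I ^ 2 - q ^ 2) = (2 * I) ^ (2 + 2 * a) := by
    rw [gl, show I - μ = w by rw [hI]; ring, Real.rpow_def_of_pos (by positivity)]
    conv_lhs => rw [← Real.exp_log h5]
    rw [Real.log_exp, ← Real.exp_add, h4, Real.log_mul (by positivity) h3.ne']
    congr 1; ring
  have hc : ContinuousAt (fun y : ℝ => ((((I + y) ^ 2 - q ^ 2) / (I + y) + y) /
      (√(1 - (q / (I + y)) ^ 2) *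
        √((1 - y) / (cn * (1 + 2 * a)) / Real.exp (gl a μ q y (I + y)))) + y) ^ 2) 0 := by
    have a1 : (I + 0) ^ 2 - q ^ 2 ≠ 0 := by rw [add_zero]; exact h5.ne'
    have a2 : I + 0 - μ ≠ 0 := by rw [hI]; linarith
    have a3 : √(I + 0) ≠ 0 := by positivity
    have a4 : I + 0 ≠ 0 := by positivity
    have c1 : ContinuousAt (fun y : ℝ => Real.exp (gl a μ q y (I + y))) 0 := by
      unfold gl; fun_prop (disch := assumption)
    have a5 : √(1 - (q / (I + 0)) ^ 2) *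
        √((1 - 0) / (cn * (1 + 2 * a)) / Real.exp (gl a μ q 0 (I + 0))) ≠ 0 := by
      rw [add_zero, h6, sub_zero]; positivity
    have a6 := (Real.exp_pos (gl a μ q 0 (I + 0))).ne'
    fun_prop (disch := assumption)
  have hv : ((((I + 0) ^ 2 - q ^ 2) / (I + 0) + 0) / (√(1 - (q / (I + 0)) ^ 2) *
      √((1 - 0) / (cn * (1 + 2 * a)) / Real.exp (gl a μ q 0 (I + 0)))) + 0) ^ 2 <
      (1 + η) * (cn * (1 + 2 * a)) * (2 * I) ^ (2 + 2 * a) := by
    simp only [add_zero, sub_zero]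
    rw [div_pow, mul_pow, Real.sq_sqrt (by rw [h6]; positivity), Real.sq_sqrt (by positivity), h6,
      ← h7]
    have e : ((I ^ 2 - q ^ 2) / I) ^ 2 / ((I ^ 2 - q ^ 2) / I ^ 2 *
        (1 / (cn * (1 + 2 * a)) / Real.exp (gl a μ q 0 I))) =
        cn * (1 + 2 * a) * (Real.exp (gl a μ q 0 I) * (I ^ 2 - q ^ 2)) := by
      field_simp
    rw [e, mul_assoc (1 + η)]
    exact lt_mul_of_one_lt_left (by positivity) (by linarith)
  have ev := (hc.eventually_lt_const hv).and ((ge_mem_nhds (by norm_num : (0 : ℝ) < 1 / 2)).and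
    (ge_mem_nhds (Real.sqrt_pos.2 h0)))
  obtain ⟨y, ⟨b1, b2, b3⟩, b4⟩ := ((ev.filter_mono nhdsWithin_le_nhds).and
    (self_mem_nhdsWithin (s := Ioi (0 : ℝ)))).exists
  exact ⟨y, b4, b2, b3, b1.le⟩

end Crest.Agent.N346.P2.Top
end
end

-- ▼ part N346/P2/TopMin
section

/-! Row 346, part P2e: integrability helpers and existence of a minimiser (helper28). -/

set_option autoImplicit false
open MeasureTheory Set Filter Topology

noncomputable section
namespace Crest.Agent.N346.P2.Top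

variable {X : Type} [MeasurableSpace X] {V : Type} [NormedAddCommGroup V] [InnerProductSpace ℝ V]
  {ν : Measure X} {𝒟 : DClass ν V} {ε C0 : ℝ}

theorem D_congr {u u' : X → ℝ} {c c' : ℝ} {G G' : X → V} (h : 𝒟.D u c G) (hu : ∀ x, u x = u' x)
    (hc : c = c') (hG : ∀ x, G x = G' x) : 𝒟.D u' c' G' := by
  rwa [← funext hu, ← hc, ← funext hG]

theorem D_one_sub {u : X → ℝ} {c : ℝ} {G : X → V} (h : 𝒟.D u c G) :
    𝒟.D (fun x => 1 - u x) (1 - c) (fun x => -G x) :=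
  D_congr (𝒟.add (𝒟.const 1) (𝒟.smul (-1) h)) (fun x => by ring) (by ring) fun x => by simp

theorem continuous_p (pr : Prof ε C0) : Continuous pr.p :=
  continuous_iff_continuousAt.2 fun s => (pr.hp s).continuousAt

theorem continuous_p' (pr : Prof ε C0) : Continuous pr.p' :=
  continuous_iff_continuousAt.2 fun s => (pr.hp' s).continuousAt

theorem p_nonneg (pr : Prof ε C0) (hε : 0 < ε) {s : ℝ} (hs : s ∈ Icc (0 : ℝ) 1) : 0 ≤ pr.p s :=
  (le_min (div_nonneg hs.1 hε.le) zero_le_one).trans (pr.le_p s hs)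

theorem p_le_mul (pr : Prof ε C0) {s : ℝ} (hs : s ∈ Icc (0 : ℝ) 1) : pr.p s ≤ C0 / ε * s := by
  have := (convex_Icc (0 : ℝ) 1).image_sub_le_mul_sub_of_deriv_le (f := pr.p) (C := C0 / ε)
    (continuous_p pr).continuousOn (fun x _ => (pr.hp x).differentiableAt.differentiableWithinAt)
    (fun x hx => by rw [(pr.hp x).deriv]; exact pr.p'_le x (interior_subset hx)) 0
    ⟨le_rfl, zero_le_one⟩ s hs hs.1
  simpa [pr.p_zero] using this

theorem one_sub_p_sq (pr : Prof ε C0) (hε : 0 < ε) {s : ℝ} (hs : s ∈ Icc (0 : ℝ) 1) :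
    1 - pr.p s ^ 2 ∈ Icc (0 : ℝ) 1 :=
  ⟨sub_nonneg.2 (pow_le_one₀ (p_nonneg pr hε hs) (pr.p_le_one s)), by linarith [sq_nonneg (pr.p s)]⟩

theorem integrable_normSq {u : X → ℝ} {c : ℝ} {G : X → V} (h : 𝒟.D u c G) :
    Integrable (fun x => ‖G x‖ ^ 2) ν := (𝒟.memG h).integrable_norm_pow two_ne_zero

theorem integrable_W_sq {W u : X → ℝ} {c : ℝ} {G : X → V} (h : 𝒟.D u c G) (hW : Integrable W ν) :
    Integrable (fun x => W x * u x ^ 2) ν := by
  obtain ⟨M, hM⟩ := 𝒟.bdd h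
  refine hW.mul_bdd (c := M ^ 2) ((𝒟.meas h).pow_const 2).aestronglyMeasurable
    (.of_forall fun x => ?_)
  rw [norm_pow, Real.norm_eq_abs]
  exact pow_le_pow_left₀ (abs_nonneg _) (hM x) 2

theorem Qf_eq {W u : X → ℝ} {c : ℝ} {G : X → V} (h : 𝒟.D u c G) (hW : Integrable W ν) :
    Qf ν W u G = (∫ x, ‖G x‖ ^ 2 ∂ν) + ∫ x, W x * u x ^ 2 ∂ν :=
  integral_add (integrable_normSq h) (integrable_W_sq h hW)

theorem grad_le_Qf {W u : X → ℝ} {c : ℝ} {G : X → V} (h : 𝒟.D u c G) (hW : Integrable W ν)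
    (hW0 : ∀ x, 0 ≤ W x) : ∫ x, ‖G x‖ ^ 2 ∂ν ≤ Qf ν W u G := by
  rw [Qf_eq h hW]
  exact le_add_of_nonneg_right (integral_nonneg fun x => mul_nonneg (hW0 x) (sq_nonneg _))

omit [InnerProductSpace ℝ V] in
theorem Qf_nonneg {W : X → ℝ} (hW0 : ∀ x, 0 ≤ W x) (u : X → ℝ) (G : X → V) : 0 ≤ Qf ν W u G :=
  integral_nonneg fun x => add_nonneg (sq_nonneg _) (mul_nonneg (hW0 x) (sq_nonneg _))

/-- the volume term -/
def Vf (ν : Measure X) (pr : Prof ε C0) (σ u : X → ℝ) : ℝ := ∫ x, σ x ^ 2 * (1 - pr.p (u x) ^ 2) ∂ν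

omit [MeasurableSpace X] in
theorem Vf_integrand (pr : Prof ε C0) (hε : 0 < ε) {σ u : X → ℝ} (hσ : ∀ x, σ x ∈ Icc (0 : ℝ) 1)
    (hu : ∀ x, u x ∈ Icc (0 : ℝ) 1) (x : X) :
    0 ≤ σ x ^ 2 * (1 - pr.p (u x) ^ 2) ∧ σ x ^ 2 * (1 - pr.p (u x) ^ 2) ≤ σ x := by
  obtain ⟨h1, h2⟩ := one_sub_p_sq pr hε (hu x)
  obtain ⟨h3, h4⟩ := hσ x
  exact ⟨by positivity, by nlinarith [mul_le_mul_of_nonneg_left h2 (sq_nonneg (σ x))]⟩

theorem measurable_Vf (pr : Prof ε C0) {σ u : X → ℝ} (hσ : Measurable σ) (hu : Measurable u) :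
    Measurable fun x => σ x ^ 2 * (1 - pr.p (u x) ^ 2) :=
  (hσ.pow_const 2).mul (measurable_const.sub
    (((continuous_p pr).measurable.comp hu).pow_const 2))

theorem Vf_nonneg (pr : Prof ε C0) (hε : 0 < ε) {σ u : X → ℝ} (hσ : ∀ x, σ x ∈ Icc (0 : ℝ) 1)
    (hu : ∀ x, u x ∈ Icc (0 : ℝ) 1) : 0 ≤ Vf ν pr σ u :=
  integral_nonneg fun x => (Vf_integrand pr hε hσ hu x).1

theorem Vf_le (pr : Prof ε C0) (hε : 0 < ε) {σ u : X → ℝ} (hσ : ∀ x, σ x ∈ Icc (0 : ℝ) 1)
    (hσi : Integrable σ ν) (hu : ∀ x, u x ∈ Icc (0 : ℝ) 1) : Vf ν pr σ u ≤ ∫ x, σ x ∂ν :=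
  integral_mono_of_nonneg (.of_forall fun x => (Vf_integrand pr hε hσ hu x).1) hσi
    (.of_forall fun x => (Vf_integrand pr hε hσ hu x).2)

theorem Vf_le_vol (pr : Prof ε C0) (hε : 0 < ε) {σ u : X → ℝ} (hσ : ∀ x, σ x ∈ Icc (0 : ℝ) 1)
    (hu : ∀ x, u x ∈ Icc (0 : ℝ) 1) (hum : Measurable u) (hf : ν {x | u x < ε} ≠ ⊤) :
    Vf ν pr σ u ≤ ν.real {x | u x < ε} := by
  have hm : MeasurableSet {x | u x < ε} := measurableSet_lt hum measurable_const
  rw [← integral_indicator_one hm]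
  refine integral_mono_of_nonneg (.of_forall fun x => (Vf_integrand pr hε hσ hu x).1)
    ((integrableOn_const hf).integrable_indicator hm) (.of_forall fun x => ?_)
  by_cases h : u x < ε
  · rw [indicator_of_mem (by exact h)]
    exact (Vf_integrand pr hε hσ hu x).2.trans (hσ x).2
  · rw [indicator_of_notMem (by exact h)]
    simp [pr.p_one _ (not_lt.1 h)]

/-- the direct method -/
theorem exists_min (pr : Prof ε C0) (hε : 0 < ε) {W σ : X → ℝ} (hWm : Measurable W)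
    (hW0 : ∀ x, 0 ≤ W x) (hW : Integrable W ν) (hσm : Measurable σ)
    (hσ : ∀ x, σ x ∈ Icc (0 : ℝ) 1) (hσi : Integrable σ ν) {Gf : ℝ → ℝ} (hGc : Continuous Gf)
    (hG : Monotone Gf) {κ : ℝ} (hκ : 0 ≤ κ)
    (cpt : ∀ (u : ℕ → X → ℝ) (G : ℕ → X → V) (M : ℝ), (∀ j, 𝒟.D (u j) 1 (G j)) →
      (∀ j x, u j x ∈ Icc (0 : ℝ) 1) → (∀ j, ∫ x, ‖G j x‖ ^ 2 ∂ν ≤ M) →
      ∃ (φ : ℕ → ℕ) (v : X → ℝ) (H : X → V), StrictMono φ ∧ 𝒟.D v 1 H ∧
        (∀ x, v x ∈ Icc (0 : ℝ) 1) ∧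
        (∀ᵐ x ∂ν, Tendsto (fun j => u (φ j) x) atTop (𝓝 (v x))) ∧
        ∀ δ : ℝ, 0 < δ → ∀ᶠ j in atTop, ∫ x, ‖H x‖ ^ 2 ∂ν ≤ ∫ x, ‖G (φ j) x‖ ^ 2 ∂ν + δ)
    {u₀ : X → ℝ} {G₀ : X → V} (h₀ : 𝒟.D u₀ 1 G₀) (hu₀ : ∀ x, u₀ x ∈ Icc (0 : ℝ) 1) {Ib : ℝ}
    (hIb : ∀ u G, 𝒟.D u 1 G → (∀ x, u x ∈ Icc (0 : ℝ) 1) →
      Gf (Qf ν W u G) - κ * Vf ν pr σ u ≤ Gf (Qf ν W u₀ G₀) - κ * Vf ν pr σ u₀ →
      Qf ν W u G ≤ Ib) :
    ∃ b gb, 𝒟.D b 1 gb ∧ (∀ x, b x ∈ Icc (0 : ℝ) 1) ∧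
      ∀ u G, 𝒟.D u 1 G → (∀ x, u x ∈ Icc (0 : ℝ) 1) →
        Gf (Qf ν W b gb) - κ * Vf ν pr σ b ≤ Gf (Qf ν W u G) - κ * Vf ν pr σ u := by
  set S : Set ℝ := {r | ∃ u G, 𝒟.D u 1 G ∧ (∀ x, u x ∈ Icc (0 : ℝ) 1) ∧
    r = Gf (Qf ν W u G) - κ * Vf ν pr σ u} with hS
  have hne : S.Nonempty := ⟨_, u₀, G₀, h₀, hu₀, rfl⟩
  have hbd : BddBelow S := ⟨Gf 0 - κ * ∫ x, σ x ∂ν, by
    rintro _ ⟨u, G, -, hu, rfl⟩
    exact sub_le_sub (hG (Qf_nonneg hW0 u G))
      (mul_le_mul_of_nonneg_left (Vf_le pr hε hσ hσi hu) hκ)⟩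
  have hseq : ∀ j : ℕ, ∃ u G, 𝒟.D u 1 G ∧ (∀ x, u x ∈ Icc (0 : ℝ) 1) ∧ Qf ν W u G ≤ Ib ∧
      Gf (Qf ν W u G) - κ * Vf ν pr σ u ≤ sInf S + 1 / ((j : ℝ) + 1) := fun j => by
    obtain ⟨_, ⟨u, G, hD, hu, rfl⟩, h⟩ := Real.lt_sInf_add_pos hne (Nat.one_div_pos_of_nat (n := j))
    rcases le_total (Gf (Qf ν W u G) - κ * Vf ν pr σ u)
      (Gf (Qf ν W u₀ G₀) - κ * Vf ν pr σ u₀) with h' | h'
    · exact ⟨u, G, hD, hu, hIb u G hD hu h', h.le⟩
    · exact ⟨u₀, G₀, h₀, hu₀, hIb u₀ G₀ h₀ hu₀ le_rfl, h'.trans h.le⟩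
  choose u G hD hu hQ hJ using hseq
  obtain ⟨φ, v, H, hφ, hv, hvm, hlim, hlsc⟩ := cpt u G Ib hD hu
    fun j => (grad_le_Qf (hD j) hW hW0).trans (hQ j)
  refine ⟨v, H, hv, hvm, fun u' G' hD' hu' => le_trans ?_ (csInf_le hbd ⟨u', G', hD', hu', rfl⟩)⟩
  have t1 : Tendsto (fun j => ∫ x, W x * u (φ j) x ^ 2 ∂ν) atTop (𝓝 (∫ x, W x * v x ^ 2 ∂ν)) := by
    refine tendsto_integral_of_dominated_convergence W
      (fun j => (hWm.mul ((𝒟.meas (hD _)).pow_const 2)).aestronglyMeasurable) hW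
      (fun j => .of_forall fun x => ?_) ?_
    · rw [Real.norm_of_nonneg (mul_nonneg (hW0 x) (sq_nonneg _))]
      exact mul_le_of_le_one_right (hW0 x) (pow_le_one₀ (hu _ x).1 (hu _ x).2)
    · filter_upwards [hlim] with x hx using (hx.pow 2).const_mul _
  have t2 : Tendsto (fun j => Vf ν pr σ (u (φ j))) atTop (𝓝 (Vf ν pr σ v)) := by
    refine tendsto_integral_of_dominated_convergence σ
      (fun j => (measurable_Vf pr hσm (𝒟.meas (hD _))).aestronglyMeasurable) hσi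
      (fun j => .of_forall fun x => ?_) ?_
    · rw [Real.norm_of_nonneg (Vf_integrand pr hε hσ (hu _) x).1]
      exact (Vf_integrand pr hε hσ (hu _) x).2
    · filter_upwards [hlim] with x hx using
        (((((continuous_p pr).tendsto _).comp hx).pow 2).const_sub 1).const_mul _
  have t3 : Tendsto (fun j => sInf S + 1 / ((φ j : ℝ) + 1) + κ * Vf ν pr σ (u (φ j))) atTop
      (𝓝 (sInf S + 0 + κ * Vf ν pr σ v)) :=
    ((tendsto_one_div_add_atTop_nhds_zero_nat.comp hφ.tendsto_atTop).const_add _).add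
      (t2.const_mul κ)
  have key : ∀ δ : ℝ, 0 < δ → Gf (Qf ν W v H - δ) ≤ sInf S + 0 + κ * Vf ν pr σ v := fun δ hδ => by
    refine ge_of_tendsto t3 ?_
    filter_upwards [hlsc (δ / 2) (half_pos hδ),
      t1.eventually (lt_mem_nhds (sub_lt_self _ (half_pos hδ)))] with j h1 h2
    have h3 : Qf ν W v H - δ ≤ Qf ν W (u (φ j)) (G (φ j)) := by
      rw [Qf_eq hv hW, Qf_eq (hD _) hW]; linarith
    linarith [hG h3, hJ (φ j)]
  have t4 : Tendsto (fun δ : ℝ => Gf (Qf ν W v H - δ)) (𝓝[>] 0) (𝓝 (Gf (Qf ν W v H - 0))) :=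
    ((hGc.comp (continuous_const.sub continuous_id)).tendsto 0).mono_left nhdsWithin_le_nhds
  have := le_of_tendsto t4 (eventually_nhdsWithin_of_forall key)
  rw [sub_zero] at this
  linarith

end Crest.Agent.N346.P2.Top
end
end

-- ▼ part N346/P2/TopF
section

/-! Row 346, part P2e: the steps of the top level argument (helper28). -/

set_option autoImplicit false
open MeasureTheory Set Filter Topology

noncomputable section
namespace Crest.Agent.N346.P2.Top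

variable {X : Type} [MeasurableSpace X] {V : Type} [NormedAddCommGroup V] [InnerProductSpace ℝ V]
  {ν : Measure X} {𝒟 : DClass ν V} {ε C0 : ℝ}

/-- step 1: the spinor estimate without phase field -/
theorem zero_step (hZ : ZeroStmt) {a μ q τ₀ ω : ℝ} (nk : Neck 𝒟 a q τ₀ ω) (ha : 0 < a)
    (hq : 0 ≤ q) (hω : 0 ≤ ω) (hω' : (1 + a) * ω ≤ τ₀) (sp : SPProp 𝒟 a μ nk.ρ) :
    q ≤ μ ∧ ∃ Y G, 𝒟.D Y 1 G ∧ Qf ν nk.W Y G ≤ (1 + a) * μ + 1 := by
  obtain ⟨h1, h2⟩ := hZ X V ν 𝒟 a q τ₀ ω nk ha hq hω hω'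
  have hm : AEStronglyMeasurable (fun x => nk.θ x • nk.e x) ν :=
    (𝒟.meas nk.θ_D).aestronglyMeasurable.smul nk.e_meas
  have hL : MemLp (fun x => nk.θ x • nk.e x) 2 ν := by
    rw [memLp_two_iff_integrable_sq_norm hm]
    refine nk.W_int.mono' (hm.norm.pow 2) (.of_forall fun x => ?_)
    rw [Real.norm_of_nonneg (sq_nonneg _), norm_smul, Real.norm_of_nonneg (nk.θ_mem x).1, mul_pow]
    exact (mul_le_of_le_one_left (sq_nonneg _)
      (pow_le_one₀ (nk.θ_mem x).1 (nk.θ_mem x).2)).trans (nk.e_le x)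
  have h3 := sp nk.P nk.dP (fun x => nk.θ x • nk.e x) (fun x => -(nk.θ x • nk.e x)) nk.P_D
    nk.P_nonneg nk.P_int nk.dP_int hL hL.neg (fun x => by simp)
    ⟨1, fun Y₁ Y₂ G₁ G₂ h => by rw [one_mul]; exact h2 Y₁ Y₂ G₁ G₂ h⟩
    fun Y₁ Y₂ G₁ G₂ h => le_trans (by rw [zero_mul]; exact le_max_left _ _)
      (h1 0 Y₁ Y₂ G₁ G₂ (Or.inl rfl) h)
  constructor
  · refine le_of_mul_le_mul_left (le_of_forall_pos_le_add fun η hη => ?_) (by linarith : 0 < 1 + a)
    obtain ⟨Y₁, Y₂, G₁, G₂, hp, hK⟩ := h3 η hη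
    have := (le_max_left _ _).trans (h1 1 Y₁ Y₂ G₁ G₂ (Or.inr rfl) hp)
    linarith
  · obtain ⟨Y₁, Y₂, G₁, G₂, hp, hK⟩ := h3 1 one_pos
    exact ⟨Y₁, G₁, hp.d₁, ((le_max_right _ _).trans (h1 1 Y₁ Y₂ G₁ G₂ (Or.inr rfl) hp)).trans hK⟩

/-- a bounded integrable function times an `L²` field is integrable -/
theorem integrable_smul_of_le {σ φ : X → ℝ} (hσ : ∀ x, σ x ∈ Icc (0 : ℝ) 1) (hσi : Integrable σ ν)
    (hφ : Measurable φ) {K : ℝ} (hK : ∀ x, |φ x| ≤ K * σ x) {G : X → V} (hG : MemLp G 2 ν) :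
    Integrable (fun x => φ x • G x) ν := by
  refine (((hσi.add (hG.integrable_norm_pow two_ne_zero))).const_mul |K|).mono'
    (hφ.aestronglyMeasurable.smul hG.1) (.of_forall fun x => ?_)
  obtain ⟨h0, h1⟩ := hσ x
  rw [norm_smul, Real.norm_eq_abs, Pi.add_apply]
  have h2 : |φ x| ≤ |K| * σ x := (hK x).trans (mul_le_mul_of_nonneg_right (le_abs_self K) h0)
  have h3 : σ x * ‖G x‖ ≤ σ x + ‖G x‖ ^ 2 := by nlinarith [sq_nonneg (σ x - ‖G x‖), norm_nonneg (G x)]
  calc _ ≤ |K| * σ x * ‖G x‖ := by gcongr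
    _ ≤ _ := by rw [mul_assoc]; gcongr

section crit
variable {W : X → ℝ} {pr : Prof ε C0} (c : Crit 𝒟 W pr)

theorem f_D : 𝒟.D c.f 0 c.df := by
  have h1 := 𝒟.comp pr.p' pr.p'' 0 1 c.b_D c.b_mem ⟨zero_le_one, le_rfl⟩ (fun s _ => pr.hp' s)
    pr.cp''.continuousOn
  refine D_congr (𝒟.smul c.Λ (𝒟.mul c.σ_D h1)) (fun x => by rw [Crit.f]; ring) (by ring)
    fun x => ?_
  simp only [Crit.df, smul_add, smul_smul, mul_assoc]

theorem f_nonneg (x : X) : 0 ≤ c.f x :=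
  mul_nonneg (mul_nonneg c.Λ_pos.le (c.σ_mem x).1) (pr.p'_nonneg _)

theorem abs_p'_le (x : X) : |pr.p' (c.b x)| ≤ C0 / ε := by
  rw [abs_of_nonneg (pr.p'_nonneg _)]; exact pr.p'_le _ (c.b_mem x)

theorem f_int : Integrable c.f ν :=
  (c.σ_int.const_mul c.Λ).mul_bdd (c := C0 / ε)
    ((continuous_p' pr).measurable.comp (𝒟.meas c.b_D)).aestronglyMeasurable
    (.of_forall (abs_p'_le c))

theorem df_int : Integrable c.df ν := by
  refine Integrable.add (integrable_smul_of_le c.σ_mem c.σ_int (K := c.Λ * (C0 / ε ^ 2))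
    (φ := fun x => c.Λ * c.σ x * pr.p'' (c.b x))
    (((𝒟.meas c.σ_D).const_mul _).mul (pr.cp''.measurable.comp (𝒟.meas c.b_D))) (fun x => ?_)
    (𝒟.memG c.b_D)) ?_
  · have h1 := pr.p''_le _ (c.b_mem x)
    have h2 := mul_nonneg c.Λ_pos.le (c.σ_mem x).1
    rw [abs_mul, abs_of_nonneg h2, abs_of_nonpos (pr.p''_nonpos _)]
    exact (mul_le_mul_of_nonneg_left h1 h2).trans_eq (by ring)
  · refine c.dσ_int.bdd_smul (c.Λ * (C0 / ε)) (((continuous_p' pr).measurable.comp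
      (𝒟.meas c.b_D)).const_mul _).aestronglyMeasurable (.of_forall fun x => ?_)
    rw [norm_mul, Real.norm_of_nonneg c.Λ_pos.le]
    exact mul_le_mul_of_nonneg_left (abs_p'_le c x) c.Λ_pos.le

end crit

/-- the conclusion of the main estimate contradicts the spinor estimate -/
theorem core_contra {a μ μ' q τ₀ ω c₀ : ℝ} (nk : Neck 𝒟 a q τ₀ ω) {pr : Prof ε C0}
    (c : Crit 𝒟 nk.W pr) (ha : 0 < a) (hμ : μ ≤ μ') (hc₀ : 0 < c₀) (sp : SPProp 𝒟 a μ nk.ρ)
    (h : ∃ β₁ β₂ : X → V, MemLp β₁ 2 ν ∧ MemLp β₂ 2 ν ∧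
      (∀ x, (c.f x + nk.P x) • (β₁ x + β₂ x) = 0) ∧
      (∀ (t : ℝ) Y₁ Y₂ G₁ G₂, t = 0 ∨ t = 1 → IsPair 𝒟 nk.ρ t Y₁ Y₂ G₁ G₂ →
        t * ((1 + a) * μ' + c₀) ≤ Kf ν a 1 nk.ρ (fun x => c.f x + nk.P x)
          (fun x => c.df x + nk.dP x) β₁ β₂ Y₁ Y₂ G₁ G₂) ∧
      ∃ C : ℝ, ∀ Y₁ Y₂ G₁ G₂, IsPair 𝒟 nk.ρ 0 Y₁ Y₂ G₁ G₂ →
        ∫ x, (‖G₁ x‖ ^ 2 + ‖G₂ x‖ ^ 2 + ‖β₁ x‖ ^ 2 * Y₁ x ^ 2 + ‖β₂ x‖ ^ 2 * Y₂ x ^ 2) ∂ν
          ≤ C * Kf ν a 0 nk.ρ (fun x => c.f x + nk.P x)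
            (fun x => c.df x + nk.dP x) β₁ β₂ Y₁ Y₂ G₁ G₂) : False := by
  obtain ⟨β₁, β₂, h1, h2, h3, h4, h5⟩ := h
  obtain ⟨Y₁, Y₂, G₁, G₂, hp, hK⟩ := sp (fun x => c.f x + nk.P x) (fun x => c.df x + nk.dP x)
    β₁ β₂ (D_congr (𝒟.add (f_D c) nk.P_D) (fun _ => rfl) (add_zero _) fun _ => rfl)
    (fun x => add_nonneg (f_nonneg c x) (nk.P_nonneg x)) ((f_int c).add nk.P_int)
    ((df_int c).add nk.dP_int) h1 h2 h3 h5
    (fun Y₁ Y₂ G₁ G₂ h => by simpa using h4 0 Y₁ Y₂ G₁ G₂ (Or.inl rfl) h) (c₀ / 2) (half_pos hc₀)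
  have := h4 1 Y₁ Y₂ G₁ G₂ (Or.inr rfl) hp
  nlinarith

/-- volume of the sublevel set from the isocapacitary inequality -/
theorem vol_le {K L e Q : ℝ} (hL : 0 ≤ L) (he : 0 ≤ e) (hε : 0 < ε) (hε1 : ε < 1)
    (iso : ∀ h G, 𝒟.D h 0 G → (∀ x, h x ∈ Icc (0 : ℝ) 1) → ∀ t ∈ Ioc (0 : ℝ) 1,
      ν {x | t < h x} ≤ ENNReal.ofReal (K + L * ((∫ x, ‖G x‖ ^ 2 ∂ν) / t ^ 2) ^ e))
    {u : X → ℝ} {G : X → V} (hD : 𝒟.D u 1 G) (hu : ∀ x, u x ∈ Icc (0 : ℝ) 1)
    (hQ : ∫ x, ‖G x‖ ^ 2 ∂ν ≤ Q) :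
    ν {x | u x < ε} ≤ ENNReal.ofReal (max K 0 + L * (Q / (1 - ε) ^ 2) ^ e) := by
  have h := iso _ _ (D_congr (D_one_sub hD) (fun _ => rfl) (sub_self _) fun _ => rfl)
    (fun x => ⟨sub_nonneg.2 (hu x).2, by linarith [(hu x).1]⟩) (1 - ε) ⟨by linarith, by linarith⟩
  simp only [sub_lt_sub_iff_left, norm_neg] at h
  refine h.trans (ENNReal.ofReal_le_ofReal (add_le_add (le_max_left _ _) ?_))
  have : 0 ≤ ∫ x, ‖G x‖ ^ 2 ∂ν := integral_nonneg fun _ => sq_nonneg _
  gcongr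

/-- the test function for the enclosing area -/
theorem cut_step {W : X → ℝ} (hW0 : ∀ x, 0 ≤ W x) (hW : Integrable W ν) {pr : Prof ε C0}
    (c : Crit 𝒟 W pr) (hε : 0 < ε) {Z Z' : Set X} (hZ : Z ⊆ Z') {s ℓ A : ℝ} (hs : 0 ≤ s)
    {θ₂ χ : X → ℝ} {dθ₂ dχ : X → V} (hθD : 𝒟.D θ₂ 1 dθ₂) (hθ : ∀ x, θ₂ x ∈ Icc (0 : ℝ) 1)
    (hdθ : ∀ x, ‖dθ₂ x‖ ≤ s * W x) (hθZ : ∀ x ∈ Z, θ₂ x = 0) (hθZ' : ∀ x, x ∉ Z' → θ₂ x = 1)
    (hχD : 𝒟.D χ 0 dχ) (hχ : ∀ x, χ x ∈ Icc (0 : ℝ) 1) (hdχ : ∀ x, ‖dχ x‖ ≤ ℓ)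
    (hχσ : ∀ x, χ x ≠ 0 → c.σ x = 1) (hχZ : ∀ x ∈ Z', χ x = 1 ∧ dχ x = 0)
    (hA : ∀ φ G, 𝒟.D φ 1 G → (∀ x, φ x ∈ Icc (0 : ℝ) 1) → (∀ x ∈ Z, φ x = 0) →
      (∀ x, χ x = 0 → φ x = 1) → Integrable G ν → A ≤ ∫ x, ‖G x‖ ∂ν) :
    A ≤ (∫ x, c.σ x * ‖(2 * pr.p (c.b x) * pr.p' (c.b x)) • c.gb x‖ ∂ν) +
      s * (C0 / ε) ^ 2 * (∫ x, W x * c.b x ^ 2 ∂ν) + ℓ * ν.real {x | c.b x < ε} := by
  have hm : MeasurableSet {x | c.b x < ε} := measurableSet_lt (𝒟.meas c.b_D) measurable_const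
  have d1 := 𝒟.comp (fun t => pr.p t ^ 2) (fun t => 2 * pr.p t * pr.p' t) 0 1 c.b_D c.b_mem
    ⟨zero_le_one, le_rfl⟩ (fun t _ => ((pr.hp t).fun_pow 2).congr_deriv (by simp))
    ((continuous_const.mul (continuous_p pr)).mul (continuous_p' pr)).continuousOn
  have d2 := D_one_sub (𝒟.mul hχD (D_one_sub (𝒟.mul hθD d1)))
  rw [zero_mul, sub_zero] at d2
  have hp0 := fun x => p_nonneg pr hε (c.b_mem x)
  have hp1 : ∀ x, pr.p (c.b x) ^ 2 ≤ 1 := fun x => pow_le_one₀ (hp0 x) (pr.p_le_one _)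
  have hr : ∀ x, 1 - θ₂ x * pr.p (c.b x) ^ 2 ∈ Icc (0 : ℝ) 1 := fun x =>
    ⟨sub_nonneg.2 (mul_le_one₀ (hθ x).2 (sq_nonneg _) (hp1 x)),
      by linarith [mul_nonneg (hθ x).1 (sq_nonneg (pr.p (c.b x)))]⟩
  have i1 : Integrable (fun x => c.σ x * ‖(2 * pr.p (c.b x) * pr.p' (c.b x)) • c.gb x‖) ν := by
    refine (integrable_smul_of_le c.σ_mem c.σ_int
      (φ := fun x => c.σ x * (2 * pr.p (c.b x) * pr.p' (c.b x))) (K := 2 * (C0 / ε))
      ((𝒟.meas c.σ_D).mul ((((continuous_const.mul (continuous_p pr)).mul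
        (continuous_p' pr)).measurable).comp (𝒟.meas c.b_D))) (fun x => ?_)
      (𝒟.memG c.b_D)).norm.congr (.of_forall fun x => ?_)
    · have h1 := pr.p'_nonneg (c.b x)
      have h2 := pr.p'_le _ (c.b_mem x)
      have h3 := (c.σ_mem x).1
      have h4 := hp0 x
      rw [abs_of_nonneg (by positivity), mul_comm]
      gcongr
      nlinarith [pr.p_le_one (c.b x)]
    · simp only [mul_smul (c.σ x), norm_smul (c.σ x), Real.norm_of_nonneg (c.σ_mem x).1]
  have i2 := (integrable_W_sq c.b_D hW).const_mul (s * (C0 / ε) ^ 2)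
  have i3 : Integrable (fun x => ℓ * {x | c.b x < ε}.indicator (1 : X → ℝ) x) ν :=
    ((integrableOn_const c.fin).integrable_indicator hm).const_mul ℓ
  have hb : ∀ x, ‖-(χ x • -(θ₂ x • (2 * pr.p (c.b x) * pr.p' (c.b x)) • c.gb x +
      pr.p (c.b x) ^ 2 • dθ₂ x) + (1 - θ₂ x * pr.p (c.b x) ^ 2) • dχ x)‖ ≤
      c.σ x * ‖(2 * pr.p (c.b x) * pr.p' (c.b x)) • c.gb x‖ +
        s * (C0 / ε) ^ 2 * (W x * c.b x ^ 2) + ℓ * {x | c.b x < ε}.indicator (1 : X → ℝ) x := by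
    intro x
    rw [norm_neg]
    refine (norm_add_le _ _).trans (add_le_add ?_ ?_)
    · rw [norm_smul, norm_neg, Real.norm_of_nonneg (hχ x).1]
      refine (mul_le_mul_of_nonneg_left (norm_add_le _ _) (hχ x).1).trans ?_
      rw [mul_add, norm_smul, norm_smul (_ ^ 2), Real.norm_of_nonneg (hθ x).1,
        Real.norm_of_nonneg (sq_nonneg _), ← mul_assoc]
      refine add_le_add (mul_le_mul_of_nonneg_right ?_ (norm_nonneg _)) ?_
      · by_cases h : χ x = 0
        · rw [h, zero_mul]; exact (c.σ_mem x).1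
        · rw [hχσ x h]; exact mul_le_one₀ (hχ x).2 (hθ x).1 (hθ x).2
      · refine (mul_le_of_le_one_left (by positivity) (hχ x).2).trans ?_
        have h1 := pow_le_pow_left₀ (hp0 x) (p_le_mul pr (c.b_mem x)) 2
        have h2 := mul_nonneg hs (hW0 x)
        calc _ ≤ (C0 / ε * c.b x) ^ 2 * (s * W x) :=
              mul_le_mul h1 (hdθ x) (norm_nonneg _) (sq_nonneg _)
          _ = _ := by ring
    · have hℓ : 0 ≤ ℓ := (norm_nonneg _).trans (hdχ x)
      by_cases h : c.b x < ε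
      · rw [indicator_of_mem (by exact h), norm_smul, Real.norm_of_nonneg (hr x).1, Pi.one_apply,
          mul_one]
        exact (mul_le_of_le_one_left (norm_nonneg _) (hr x).2).trans (hdχ x)
      · rw [indicator_of_notMem (by exact h), mul_zero, norm_le_zero_iff]
        by_cases h' : x ∈ Z'
        · rw [(hχZ x h').2, smul_zero]
        · rw [hθZ' x h', pr.p_one _ (not_lt.1 h)]; simp
  have i4 := (i1.add i2).add i3
  refine (hA _ _ d2 (fun x => ⟨sub_nonneg.2 (mul_le_one₀ (hχ x).2 (hr x).1 (hr x).2),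
    by linarith [mul_nonneg (hχ x).1 (hr x).1]⟩) (fun x hx => ?_) (fun x hx => ?_)
    (i4.mono' (𝒟.memG d2).1 (.of_forall hb))).trans ?_
  · rw [(hχZ x (hZ hx)).1, hθZ x hx]; ring
  · rw [hx]; ring
  · refine (integral_mono_of_nonneg (.of_forall fun x => norm_nonneg _) i4
      (.of_forall hb)).trans_eq ?_
    rw [integral_add' (i1.add i2) i3, integral_add' i1 i2, integral_const_mul, integral_const_mul,
      integral_indicator_one hm]

end Crest.Agent.N346.P2.Top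
end
end

-- ▼ part N346/P2/Top
section

/-! Row 346, part P2e: the top level argument (helper28). -/

set_option autoImplicit false
open MeasureTheory Set Filter Topology

noncomputable section
namespace Crest.Agent.N346.P2

namespace Top

theorem coef_le {a y ε cn Q : ℝ} (ha : 0 < a) (ha1 : a ≤ 1) (hy : 0 < y) (hy1 : y ≤ 1 / 2)
    (hε : 0 < ε) (hεy : ε ≤ y / 24) (hcn : 0 < cn) (hQ : 0 ≤ Q) :
    (1 - y) / (cn * (1 + 2 * a)) * ((1 + y / 4) * cn * (Q / (1 - ε) ^ 2) ^ (1 + 2 * a)) ≤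
      (1 - y / 2) / (1 + 2 * a) * Q ^ (1 + 2 * a) := by
  have h0 : 0 < 1 - ε := by linarith
  have h1 : 1 - y / 4 ≤ ((1 - ε) ^ 2) ^ (1 + 2 * a) := by
    have h2 := one_add_mul_le_pow (a := -ε) (by linarith) 6
    have h3 := Real.rpow_le_rpow_of_exponent_ge (x := (1 - ε) ^ 2) (y := ((3 : ℕ) : ℝ))
      (z := 1 + 2 * a) (by positivity) (pow_le_one₀ h0.le (by linarith)) (by push_cast; linarith)
    rw [Real.rpow_natCast, ← pow_mul, show 2 * 3 = 6 from rfl] at h3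
    push_cast at h2
    rw [← sub_eq_add_neg 1 ε] at h2
    linarith
  have h4 : 0 < 1 - y / 4 := by linarith
  have h5 : 0 ≤ Q ^ (1 + 2 * a) := Real.rpow_nonneg hQ _
  have h6 : 0 < 1 - y := by linarith
  rw [Real.div_rpow hQ (by positivity)]
  calc _ ≤ (1 - y) / (cn * (1 + 2 * a)) * ((1 + y / 4) * cn * (Q ^ (1 + 2 * a) / (1 - y / 4))) := by
        gcongr
    _ = (1 - y) * (1 + y / 4) / (1 - y / 4) / (1 + 2 * a) * Q ^ (1 + 2 * a) := by field_simp
    _ ≤ _ := by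
        gcongr
        rw [div_le_iff₀ h4]; nlinarith

theorem area_le {q Is I y ε : ℝ} (hq : 0 ≤ q) (hqI : q < Is) (hI : I ≤ Is) (hε : 0 < ε)
    (hε1 : ε ≤ 1 / 2) (hεy : ε ≤ y / (6 * Is)) :
    I / (1 - ε) - q / Is * q * (1 - ε ^ 2) ≤ (Is ^ 2 - q ^ 2) / Is + y / 2 := by
  have h0 : 0 < Is := by linarith
  rw [le_div_iff₀ (by positivity)] at hεy
  have h1 : I / (1 - ε) ≤ Is * (1 + 2 * ε) := by
    rw [div_le_iff₀ (by linarith)]
    nlinarith [mul_nonneg h0.le (mul_nonneg hε.le (by linarith : 0 ≤ 1 - 2 * ε))]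
  have h2 : q / Is * q ≤ Is := by
    rw [div_mul_eq_mul_div, div_le_iff₀ h0]; nlinarith
  have h3 : (Is ^ 2 - q ^ 2) / Is = Is - q / Is * q := by field_simp
  have h4 : q / Is * q * ε ^ 2 ≤ Is * ε := mul_le_mul h2 (by nlinarith) (by positivity) h0.le
  rw [h3]
  nlinarith

end Top

open _root_.Crest.Agent.N346.P2.Top in
theorem top (hP : ProfStmt) (hC : CoreStmt) (hZ : ZeroStmt) (hCm : CompStmt) (hAr : AreaStmt)
    (hV : VarStmt) : TopStmt := by
  intro a μ q τ₀ η cn ha ha1 hμ hq hτ hη hcn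
  have hωτ : ∀ ω : ℝ, 0 ≤ ω → ω ≤ τ₀ / 2 → (1 + a) * ω ≤ τ₀ := fun ω h0 h => by nlinarith
  by_cases hqμ : q ≤ μ
  swap
  · refine ⟨τ₀ / 2, half_pos hτ, fun X _ V _ _ ν 𝒟 ω A hω0 hω _ geo => absurd ?_ hqμ⟩
    obtain ⟨nk, hρ, -⟩ := geo.neck 1 one_pos
    exact (zero_step hZ nk ha hq hω0 (hωτ ω hω0 hω) (hρ ▸ geo.sp)).1
  obtain ⟨μ', hμ'⟩ : ∃ μ', μ' = μ + η := ⟨_, rfl⟩
  rw [← hμ']
  have hq' : q < μ' := by linarith
  obtain ⟨C0, hC0, hpr⟩ := hP
  obtain ⟨y, hy, hy1, hy2, hΨ⟩ := exists_param (a := a) (cn := cn) (η := η) ha hq hq' hcn hη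
  obtain ⟨Is, hIs⟩ : ∃ Is, Is = μ' + √(μ' ^ 2 - q ^ 2) + y := ⟨_, rfl⟩
  have hI : μ' < Is := by linarith [Real.sqrt_nonneg (μ' ^ 2 - q ^ 2)]
  have hIs0 : 0 < Is := by linarith
  obtain ⟨bb, hbb⟩ : ∃ bb, bb = 4 * ((1 + a) * μ + 1) := ⟨_, rfl⟩
  have hbb0 : 0 < bb := by rw [hbb]; positivity
  obtain ⟨ω₁, hω₁, c₀, hc₀, hcore⟩ := hC a μ' q Is y τ₀ bb C0 ha ha1 hq hq' (by linarith) hy hτ
    hbb0.le hC0
  refine ⟨min (τ₀ / 2) (min ω₁ (y / (2 * bb))), by positivity,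
    fun X _ V _ _ ν 𝒟 ω A hω0 hω hA geo => ⟨hqμ, le_trans (pow_le_pow_left₀ hA ?_ 2) hΨ⟩⟩
  obtain ⟨hω2, hω3, hω4⟩ : ω ≤ τ₀ / 2 ∧ ω ≤ ω₁ ∧ ω ≤ y / (2 * bb) := by
    simpa only [le_min_iff] using hω
  rw [Psi, ← hIs]
  obtain ⟨κ, hκ⟩ : ∃ κ, κ = (1 - y) / (cn * (1 + 2 * a)) := ⟨_, rfl⟩
  have hκ0 : 0 < κ := by rw [hκ]; exact div_pos (by linarith) (by positivity)
  rw [← hκ]
  obtain ⟨K, hiso⟩ := geo.iso (y / 4) (by positivity)
  obtain ⟨Ib, hIb⟩ := coercive ha ha1 hq hq' hI hy (Gf a μ' q y Is geo.Q₀ + κ * max K 0)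
  obtain ⟨v, hv⟩ : ∃ v, v = max K 0 + (1 + y / 4) * cn * (max Ib 0 / (1 / 2) ^ 2) ^ (1 + 2 * a) :=
    ⟨_, rfl⟩
  have hv0 : 0 ≤ v := by rw [hv]; positivity
  obtain ⟨CZ, hCZ, hsob⟩ := geo.sob v
  obtain ⟨m, hm, hgm⟩ := exists_gp_ge (a := a) (y := y) hq hq' hI Ib
  obtain ⟨ε₀, hε₀, hcore⟩ := hcore Ib (max CZ v) √(κ / m) (le_max_of_le_left hCZ)
  obtain ⟨ε, hε, hε1, hε2, hε3⟩ : ∃ ε : ℝ, 0 < ε ∧ ε ≤ ε₀ ∧ ε ≤ y / 24 ∧ ε ≤ y / (6 * Is) :=
    ⟨min ε₀ (min (y / 24) (y / (6 * Is))), by positivity, min_le_left _ _,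
      (min_le_right _ _).trans (min_le_left _ _), (min_le_right _ _).trans (min_le_right _ _)⟩
  have hε8 : ε ≤ 1 / 8 := by linarith
  obtain ⟨pr⟩ := hpr ε hε hε8
  obtain ⟨ℓ₀, hℓ₀, hcore⟩ := hcore ε hε hε1
  obtain ⟨nk, hρ, hQ₀, θ₂, dθ₂, hθD, hθ, hdθ, hθZ, hθZ'⟩ :=
    geo.neck (y / (2 * ((C0 / ε) ^ 2 * bb))) (by positivity)
  obtain ⟨σ, dσ, χ, dχ, hσD, hσ, hσi, hdσi, hdσ, hχD, hχ, hdχ, hχσ, hχZ, hcut⟩ :=
    geo.cut (min ℓ₀ (y / (2 * (v + 1)))) (by positivity)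
  have sp : SPProp 𝒟 a μ nk.ρ := hρ ▸ geo.sp
  obtain ⟨-, Y₀, G₀, hY₀, hQY⟩ := zero_step hZ nk ha hq hω0 (hωτ ω hω0 hω2) sp
  have hvol : ∀ {u G Q}, 𝒟.D u 1 G → (∀ x, u x ∈ Icc (0 : ℝ) 1) → Qf ν nk.W u G ≤ Q →
      ν {x | u x < ε} ≤ ENNReal.ofReal
        (max K 0 + (1 + y / 4) * cn * (Q / (1 - ε) ^ 2) ^ (1 + 2 * a)) := fun hD hu hQ =>
    vol_le (by positivity) (by positivity) hε (by linarith) hiso hD hu
      ((grad_le_Qf hD nk.W_int nk.W_nonneg).trans hQ)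
  have hbd : ∀ u G, 𝒟.D u 1 G → (∀ x, u x ∈ Icc (0 : ℝ) 1) →
      Gf a μ' q y Is (Qf ν nk.W u G) - κ * Vf ν pr σ u ≤
        Gf a μ' q y Is (Qf ν nk.W geo.u₀ geo.G₀) - κ * Vf ν pr σ geo.u₀ →
      Qf ν nk.W u G ≤ Ib := fun u G hD hu h => by
    refine hIb _ ?_
    have hQ := Qf_nonneg (ν := ν) nk.W_nonneg u G
    have h1 := hvol hD hu le_rfl
    have h2 := (Vf_le_vol pr hε hσ hu (𝒟.meas hD) (ne_top_of_le_ne_top ENNReal.ofReal_ne_top h1)).trans
      (ENNReal.toReal_le_of_le_ofReal (by positivity) h1)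
    have h3 := mul_le_mul_of_nonneg_left h2 hκ0.le
    have h4 := coef_le ha ha1 hy hy1 hε hε2 hcn hQ
    rw [← hκ] at h4
    have h5 := monotone_Gf (a := a) (y := y) hq hq' hI hQ₀
    have h6 := mul_nonneg hκ0.le (Vf_nonneg (ν := ν) pr hε hσ geo.u₀_mem)
    linarith
  obtain ⟨b, gb, hbD, hb, hmin⟩ := exists_min pr hε nk.W_meas nk.W_nonneg nk.W_int (𝒟.meas hσD) hσ
    hσi (continuous_Gf hq hq' hI) (monotone_Gf hq hq' hI) hκ0.le geo.cpt geo.u₀_D geo.u₀_mem hbd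
  have hQb := hbd b gb hbD hb (hmin _ _ geo.u₀_D geo.u₀_mem)
  have hvb : ν {x | b x < ε} ≤ ENNReal.ofReal v := by
    refine (hvol hbD hb (hQb.trans (le_max_left Ib 0))).trans (ENNReal.ofReal_le_ofReal ?_)
    rw [hv]
    gcongr
    linarith
  obtain ⟨c, hΛ, rfl, rfl, rfl, rfl, hstab⟩ := hV X V ν 𝒟 nk.W ε C0 pr σ dσ b gb (Gf a μ' q y Is) κ
    (gp a μ' q y Is (Qf ν nk.W b gb)) hε hε8 nk.W_meas nk.W_nonneg nk.W_bdd nk.W_int hσD hσ hσi hdσi
    hbD hb (ne_top_of_le_ne_top ENNReal.ofReal_ne_top hvb) (monotone_Gf hq hq' hI) hκ0 (gp_pos _)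
    (hasDerivAt_Gf hq hq' hI _) hmin
  change c.I ≤ Ib at hQb
  change c.Λ = √(κ / gp a μ' q y Is c.I) at hΛ
  have hWb : ∫ x, nk.W x * c.b x ^ 2 ∂ν ≤ bb := by
    have := hCm X V ν 𝒟 nk.W ε C0 pr c hε nk.W_meas nk.W_nonneg nk.W_int Y₀ G₀ hY₀
    linarith
  rcases lt_or_ge Is c.I with hc | hc
  · exfalso
    have hI0 : 0 < c.I := by linarith
    have hs0 : 0 < √c.I := Real.sqrt_pos.2 hI0
    have e : gp a μ' q y Is c.I * (2 * (kstar a μ' q c.I - y / (c.I * √c.I))) /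
        (2 * gp a μ' q y Is c.I) = kstar a μ' q c.I - y / (c.I * √c.I) := by
      have := (gp_pos (a := a) (μ := μ') (q := q) (y := y) (Is := Is) c.I).ne'
      field_simp
    have hst : c.Stab (kstar a μ' q c.I - y / (c.I * √c.I)) := by
      rw [← e]
      intro z G h
      exact hstab _ _ (.of_forall fun s => hasDerivAt_Gf hq hq' hI s)
        (hasDerivAt_gp hq hq' hI hc) h
    refine core_contra nk c ha (by linarith) hc₀ sp (hcore X V ν 𝒟 ω nk pr c (y / (c.I * √c.I))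
      hω0 hω3 hc.le hQb ?_ (fun x => (hdσ x).trans (min_le_left _ _))
      (fun hD => (hsob _ _ _ hD (measurableSet_lt (𝒟.meas c.b_D) measurable_const) hvb).trans
        (mul_le_mul_of_nonneg_right (le_max_left _ _) (integral_nonneg fun _ => sq_nonneg _)))
      ((ENNReal.toReal_le_of_le_ofReal hv0 hvb).trans (le_max_right _ _)) hWb
      (by positivity) (le_of_eq ?_) ?_ hst)
    · rw [hΛ]
      gcongr
      exact hgm _ hc.le hQb
    · rw [div_pow, mul_pow, Real.sq_sqrt hI0.le]; field_simp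
    · rw [div_mul_eq_mul_div, mul_comm y, mul_div_mul_left _ _ hI0.ne', div_le_one hs0]
      exact hy2.trans (Real.sqrt_le_sqrt (by linarith))
  · have hT : q / Is < 1 := (div_lt_one hIs0).2 (by linarith)
    have hT0 : 0 ≤ q / Is := by positivity
    have h1 := hAr X V ν 𝒟 a q τ₀ ω nk ε C0 pr c (q / Is) hε hε8 hq hω0 hT0 hT
    have h2 := area_le (y := y) hq (by linarith) hc hε (by linarith) hε3
    have h3 : ω * ∫ x, nk.W x * c.b x ^ 2 ∂ν ≤ y / 2 :=
      (mul_le_mul hω4 hWb (integral_nonneg fun x => mul_nonneg (nk.W_nonneg x) (sq_nonneg _))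
        (by positivity)).trans_eq (by field_simp)
    have h4 := cut_step nk.W_nonneg nk.W_int c hε geo.Z_sub (by positivity) hθD hθ hdθ hθZ hθZ' hχD
      hχ hdχ hχσ hχZ hcut
    have h5 : y / (2 * ((C0 / ε) ^ 2 * bb)) * (C0 / ε) ^ 2 * ∫ x, nk.W x * c.b x ^ 2 ∂ν ≤ y / 2 :=
      (mul_le_mul_of_nonneg_left hWb (by positivity)).trans_eq (by field_simp)
    have h6 : min ℓ₀ (y / (2 * (v + 1))) * ν.real {x | c.b x < ε} ≤ y / 2 :=
      (mul_le_mul (min_le_right _ _) ((ENNReal.toReal_le_of_le_ofReal hv0 hvb).trans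
        (le_add_of_nonneg_right zero_le_one)) measureReal_nonneg (by positivity)).trans_eq
        (by field_simp)
    rw [gp_of_le hc] at hΛ
    rw [← hΛ]
    have h7 : 0 < √(1 - (q / Is) ^ 2) * c.Λ :=
      mul_pos (Real.sqrt_pos.2 (sub_pos.2 (pow_lt_one₀ hT0 hT two_ne_zero))) c.Λ_pos
    have h8 : ∫ x, c.σ x * ‖(2 * pr.p (c.b x) * pr.p' (c.b x)) • c.gb x‖ ∂ν ≤
        ((Is ^ 2 - q ^ 2) / Is + y) / (√(1 - (q / Is) ^ 2) * c.Λ) := by
      rw [le_div_iff₀' h7]; linarith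
    linarith

end Crest.Agent.N346.P2
end
end

-- ▼ part N346/P2/Cpt
section

/-! Row 346, P2h (helper66): Rellich (`rel : RelStmt`) and compactness in the Dirichlet class
(`cpt`). -/

set_option autoImplicit false
open MeasureTheory Filter Topology Set Metric
open scoped ENNReal InnerProductSpace
open Crest.GeometryTopology.CoordMetric
open Crest.MathPhysics.ExteriorData

noncomputable section
namespace Crest.Agent.N346.P2
open Crest.Agent.N346.Bs

variable {n : ℕ}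

/-- a positive `C¹` weight in `L²` whose logarithm is Lipschitz -/
theorem exists_weight (hn : 0 < n) : ∃ s : E n → ℝ, ContDiff ℝ 1 s ∧ (∀ x, 0 < s x) ∧
    (∀ x, s x ≤ 1) ∧ MemLp s 2 volume ∧ ∀ x, ‖fderiv ℝ s x‖ ≤ n * s x := by
  have hp : ∀ x : E n, 0 < 1 + ‖x‖ ^ 2 := fun x => by positivity
  have hn' : (0 : ℝ) < n := by exact_mod_cast hn
  have hc : ContDiff ℝ 1 fun x : E n => (1 + ‖x‖ ^ 2) ^ (-(n : ℝ)) :=
    (contDiff_const.add (contDiff_norm_sq ℝ)).rpow_const_of_ne fun x => (hp x).ne'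
  refine ⟨_, hc, fun x => Real.rpow_pos_of_pos (hp x) _, fun x =>
    Real.rpow_le_one_of_one_le_of_nonpos (by nlinarith [sq_nonneg ‖x‖]) (by linarith), ?_,
    fun x => ?_⟩
  · rw [memLp_two_iff_integrable_sq hc.continuous.aestronglyMeasurable]
    refine (integrable_rpow_neg_one_add_norm_sq (E := E n) (μ := volume) (r := 4 * n)
      (by rw [finrank_euclideanSpace_fin]; linarith)).congr (.of_forall fun x => ?_)
    simp only
    rw [← Real.rpow_natCast (_ ^ (-(n : ℝ))) 2, ← Real.rpow_mul (hp x).le]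
    congr 1
    push_cast
    ring
  · have h1 := ((hasStrictFDerivAt_norm_sq x).hasFDerivAt.const_add 1).rpow_const
      (p := -(n : ℝ)) (Or.inl (hp x).ne')
    rw [h1.fderiv, norm_smul, two_smul, Real.norm_eq_abs, abs_mul, abs_neg, abs_of_pos hn',
      abs_of_pos (Real.rpow_pos_of_pos (hp x) _), Real.rpow_sub_one (hp x).ne', mul_assoc]
    refine mul_le_mul_of_nonneg_left ?_ hn'.le
    rw [div_mul_eq_mul_div, div_le_iff₀ (hp x)]
    refine mul_le_mul_of_nonneg_left ((norm_add_le _ _).trans ?_) (Real.rpow_pos_of_pos (hp x) _).le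
    rw [innerSL_apply_norm]
    nlinarith [sq_nonneg (‖x‖ - 1)]

/-- Rellich for bounded `C¹_c` functions with bounded Dirichlet energy -/
theorem rel_flat (hn : 0 < n) {v : ℕ → E n → ℝ} (h1 : ∀ j, ContDiff ℝ 1 (v j))
    (h2 : ∀ j, HasCompactSupport (v j)) {M C : ℝ} (hM : ∀ j x, |v j x| ≤ M)
    (hC : ∀ j, ∫ x, ‖fderiv ℝ (v j) x‖ ^ 2 ≤ C) :
    ∃ (φ : ℕ → ℕ) (w : E n → ℝ), StrictMono φ ∧
      ∀ᵐ x, Tendsto (fun j => v (φ j) x) atTop (𝓝 (w x)) := by
  obtain ⟨s, s1, s0, sle, sm, sd⟩ := exists_weight hn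
  have hM0 : 0 ≤ M := (abs_nonneg _).trans (hM 0 0)
  have f1 : ∀ j, ContDiff ℝ 1 fun x => s x * v j x := fun j => s1.mul (h1 j)
  have f2 : ∀ j, HasCompactSupport fun x => s x * v j x := fun j => (h2 j).mul_left
  have hg : ∀ j, MemLp (R335.gr fun x => s x * v j x) 2 volume := fun j =>
    Continuous.memLp_of_hasCompactSupport ((PiLp.continuous_toLp 2 _).comp
      (continuous_pi fun i => continuous_pd (f1 j) i)) (R335.hasCompactSupport_gr (f2 j))
  have hH : ∀ j, R335.H1 (fun x => s x * v j x) (R335.gr fun x => s x * v j x) := fun j =>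
    ⟨(f1 j).continuous.memLp_of_hasCompactSupport (f2 j), hg j,
      R335.WG.of_contDiffOn isOpen_univ (f1 j).contDiffOn⟩
  have hi : ∀ j, Integrable fun x => ‖fderiv ℝ (v j) x‖ ^ 2 := fun j =>
    (((h1 j).continuous_fderiv one_ne_zero).memLp_of_hasCompactSupport (p := 2)
      ((h2 j).fderiv ℝ)).norm.integrable_sq
  obtain ⟨f, g, hf, ht, -⟩ := R335.exists_limit hH (s := fun x => M * s x) (sm.const_mul M)
    (fun j => .of_forall fun x => by
      rw [abs_mul, abs_of_pos (s0 x), mul_comm]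
      exact mul_le_mul_of_nonneg_right (hM j x) (s0 x).le)
    (C := 2 * C + 2 * (M * n) ^ 2 * ∫ x, s x ^ 2) fun j => by
      refine (integral_mono (hg j).norm.integrable_sq (((hi j).const_mul 2).add
        (sm.integrable_sq.const_mul (2 * (M * n) ^ 2))) fun x => ?_).trans ?_
      · have e : ‖R335.gr (fun x => s x * v j x) x‖ = ‖fderiv ℝ (fun x => s x * v j x) x‖ :=
          norm_euclidGrad _ x
        have h3 : ‖fderiv ℝ (fun x => s x * v j x) x‖ ≤ ‖fderiv ℝ (v j) x‖ + M * n * s x := by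
          rw [fderiv_fun_mul (s1.differentiable one_ne_zero x) ((h1 j).differentiable one_ne_zero x)]
          refine (norm_add_le _ _).trans (add_le_add ?_ ?_)
          · rw [norm_smul, Real.norm_of_nonneg (s0 x).le]
            exact mul_le_of_le_one_left (norm_nonneg _) (sle x)
          · rw [norm_smul, mul_assoc]
            exact mul_le_mul (hM j x) (sd x) (norm_nonneg _) hM0
        have h4 := pow_le_pow_left₀ (norm_nonneg _) h3 2
        simp only [e, Pi.add_apply]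
        nlinarith [sq_nonneg (‖fderiv ℝ (v j) x‖ - M * n * s x)]
      · simp only [Pi.add_apply]
        rw [integral_add ((hi j).const_mul 2) (sm.integrable_sq.const_mul _), integral_const_mul,
          integral_const_mul]
        linarith [hC j]
  have ht' : Tendsto (fun j => (hH j).memf.toLp _) (hyperfilter ℕ : Filter ℕ)
      (𝓝 (hf.memf.toLp f)) := by
    rw [tendsto_iff_norm_sub_tendsto_zero]
    have := ht.sqrt
    rw [Real.sqrt_zero] at this
    refine this.congr fun j => ?_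
    rw [← MemLp.toLp_sub, ← Real.sqrt_sq (norm_nonneg (MemLp.toLp _ _)), L2T.norm_toLp_sq]
    simp
  obtain ⟨θ, hθ, hθ'⟩ := subseq_tendsto_of_neBot (f := 𝓝 (hf.memf.toLp f))
    (u := fun j => (hH j).memf.toLp _)
    (NeBot.mono inferInstance (le_inf ht' (map_mono Nat.hyperfilter_le_atTop)))
  obtain ⟨ψ, hψ, hψ'⟩ := (tendstoInMeasure_of_tendsto_eLpNorm two_ne_zero
    (fun j => (hH (θ j)).memf.1) hf.memf.1
    (L2T.of_toLp (fun j => (hH (θ j)).memf) hf.memf hθ')).exists_seq_tendsto_ae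
  refine ⟨θ ∘ ψ, fun x => f x / s x, hθ.comp hψ, hψ'.mono fun x hx => ?_⟩
  refine (hx.div_const (s x)).congr fun j => ?_
  rw [mul_div_cancel_left₀ _ (s0 x).ne']
  rfl

theorem rel : RelStmt := by
  intro n hn g F h u G M hu h01 hM
  choose a a1 a2 a3 a4 a5 using fun k => (hu k).approx_bdd h zero_le_one fun x =>
    abs_le.2 ⟨by linarith [(h01 k x).1], by linarith [(h01 k x).2]⟩
  obtain ⟨J, hJ, hJ'⟩ := exists_diag_ae (ν := nu g) (v := fun k j x => a k j x - (u k x - 1))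
    (w := fun _ _ => 0) (w0 := fun _ => 0)
    (fun k j => (a1 k j).continuous.aestronglyMeasurable.sub
      ((hu k).meas.sub_const 1).aestronglyMeasurable)
    (fun k => (a4 k).mono fun x hx => tendsto_sub_nhds_zero_iff.2 hx)
    (.of_forall fun _ => tendsto_const_nhds)
    (P := fun k j => ∫ x, ‖fgrad F (a k j) x‖ ^ 2 ∂(nu g) ≤ M + 1)
    fun k => ((a5 k).tendsto_normSq (fun j => h.memLp_fgrad (a1 k j) (a2 k j) 2)
      (hu k).memG).eventually (ge_mem_nhds (by linarith [hM k]))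
  obtain ⟨K, hK1, hK⟩ := h.exists_grad_bd
  obtain ⟨L, hL1, hL⟩ := h.exists_vol_bd
  obtain ⟨φ, w, hφ, hw⟩ := rel_flat (by omega) (fun k => a1 k (J k)) (fun k => a2 k (J k))
    (fun k => a3 k (J k)) (C := K ^ 2 * L * (M + 1)) fun k => by
      refine le_trans ?_ (mul_le_mul_of_nonneg_left (hJ k) (by positivity))
      rw [integral_nu h.riem, ← integral_const_mul]
      refine integral_mono_of_nonneg (.of_forall fun x => by positivity)
        (((integrable_nu_iff' h.riem _).1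
          (h.memLp_fgrad (a1 k _) (a2 k _) 2).norm.integrable_sq).const_mul _)
        (.of_forall fun x => ?_)
      have h1 := pow_le_pow_left₀ (norm_nonneg _) (hK (a k (J k)) x).2 2
      have h2 : 1 ≤ L * volDensity g x := by
        have := (hL x).1
        rwa [inv_le_iff_one_le_mul₀' (by linarith)] at this
      calc ‖fderiv ℝ (a k (J k)) x‖ ^ 2 ≤ (K * ‖fgrad F (a k (J k)) x‖) ^ 2 * 1 := by
            rwa [mul_one]
        _ ≤ (K * ‖fgrad F (a k (J k)) x‖) ^ 2 * (L * volDensity g x) := by gcongr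
        _ = _ := by ring
  obtain ⟨v, mv, hv⟩ := measurable_limit_of_tendsto_metrizable_ae (μ := nu g)
    (f := fun j => u (φ j)) (L := atTop) (fun j => (hu _).meas.aemeasurable) (by
      filter_upwards [(ae_nu_iff h.riem).2 hw, hJ'] with x h1 h2
      refine ⟨w x - 0 + 1, ((h1.sub (h2.comp hφ.tendsto_atTop)).add_const 1).congr fun j => ?_⟩
      simp)
  refine ⟨φ, fun x => max 0 (min (v x) 1), hφ, measurable_const.max (mv.min measurable_const),
    fun x => ⟨le_max_left _ _, max_le zero_le_one (min_le_right _ _)⟩, hv.mono fun x hx => ?_⟩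
  have := isClosed_Icc.mem_of_tendsto hx (.of_forall fun j => h01 (φ j) x)
  simpa only [min_eq_left this.2, max_eq_right this.1] using hx

/-- Mazur's lemma -/
theorem mem_closure_of_weak {H : Type*} [NormedAddCommGroup H] [InnerProductSpace ℝ H]
    [CompleteSpace H] {x : ℕ → H} {y : H}
    (hw : ∀ Φ, Tendsto (fun j => ⟪x j, Φ⟫_ℝ) (hyperfilter ℕ : Filter ℕ) (𝓝 ⟪y, Φ⟫_ℝ))
    {K : Set H} (hK : Convex ℝ K) (hx : ∀ᶠ j in atTop, x j ∈ K) : y ∈ _root_.closure K := by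
  by_contra hy
  obtain ⟨f, c, h1, h2⟩ := geometric_hahn_banach_point_closed hK.closure isClosed_closure hy
  have e : ∀ z, ⟪z, (InnerProductSpace.toDual ℝ H).symm f⟫_ℝ = f z := fun z => by
    rw [real_inner_comm, InnerProductSpace.toDual_symm_apply]
  have h3 := hw ((InnerProductSpace.toDual ℝ H).symm f)
  simp only [e] at h3
  exact h1.not_ge (ge_of_tendsto h3 ((hx.filter_mono Nat.hyperfilter_le_atTop).mono
    fun j hj => (h2 _ (subset_closure hj)).le))

theorem cpt : ClassStmt → ClosureStmt → RelStmt → CptStmt := by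
  intro _ hcl hrel n hn g F h u G M hu h01 hM
  obtain ⟨L, -, θ, hθ, hL⟩ := (isCompact_Icc (a := (0 : ℝ)) (b := M)).tendsto_subseq
    (x := fun j => ∫ x, ‖G j x‖ ^ 2 ∂(nu g))
    fun j => ⟨integral_nonneg fun x => by positivity, hM j⟩
  obtain ⟨ψ, v, hψ, mv, v01, hv⟩ := hrel n hn g F h (fun j => u (θ j)) (fun j => G (θ j)) M
    (fun j => hu _) (fun j => h01 _) fun j => hM _
  have hL' := hL.comp hψ.tendsto_atTop
  set X : ℕ → Lp (E n) 2 (nu g) := fun j => (hu (θ (ψ j))).memG.toLp _ with hX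
  have hXn : ∀ j, ‖X j‖ ^ 2 = ∫ x, ‖G (θ (ψ j)) x‖ ^ 2 ∂(nu g) := fun j => L2T.norm_toLp_sq _
  obtain ⟨Y, -, hY⟩ := R335.exists_weak_limit X (M := √M) fun j =>
    Real.le_sqrt_of_sq_le ((hXn j).trans_le (hM _))
  let K : ℕ → Set (Lp (E n) 2 (nu g)) := fun k => {Z | ∃ w, DD g F w 1 Z ∧
    ∀ x, ∀ S : Set ℝ, Convex ℝ S → (∀ j, k ≤ j → u (θ (ψ j)) x ∈ S) → w x ∈ S}
  have hK : ∀ k, Convex ℝ (K k) := by
    rintro k Z ⟨w, hw, hw'⟩ Z' ⟨w', hz, hz'⟩ a b ha hb hab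
    refine ⟨fun x => a * w x + b * w' x, ?_, fun x S hS hj => hS (hw' x S hS hj) (hz' x S hS hj)
      ha hb hab⟩
    have := (hw.smul h a).add h (hz.smul h b)
    rw [mul_one, mul_one, hab] at this
    refine this.congr_G ?_
    filter_upwards [Lp.coeFn_add (a • Z) (b • Z'), Lp.coeFn_smul a Z, Lp.coeFn_smul b Z']
      with x h1 h2 h3
    rw [h1, Pi.add_apply, h2, h3]
    rfl
  have hYK : ∀ k : ℕ, ∃ Z ∈ K k, dist Y Z < 1 / ((k : ℝ) + 1) := fun k =>
    Metric.mem_closure_iff.1 (mem_closure_of_weak hY (hK k) ((eventually_ge_atTop k).mono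
      fun j hj => ⟨_, (hu _).congr_G (MemLp.coeFn_toLp _), fun x S _ h => h j hj⟩)) _ (by positivity)
  choose Z hZ hZ' using hYK
  choose w hw hw' using hZ
  have habs : ∀ t ∈ Icc (0 : ℝ) 1, |t| ≤ 1 := fun t ht => abs_le.2 ⟨by linarith [ht.1], ht.2⟩
  refine ⟨θ ∘ ψ, v, Y, hθ.comp hψ, ?_, v01, hv, fun δ hδ => ?_⟩
  · refine hcl n g F h w (fun k => Z k) 1 1 v Y hw
      (fun k x => habs _ (hw' k x _ (convex_Icc 0 1) fun j _ => h01 _ x)) mv
      (fun x => habs _ (v01 x)) (Lp.memLp Y) (hv.mono fun x hx => ?_) ?_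
    · rw [Metric.tendsto_atTop] at hx ⊢
      intro ε hε
      obtain ⟨N, hN⟩ := hx ε hε
      exact ⟨N, fun k hk => hw' k x (ball (v x) ε) (convex_ball _ _) fun j hj => hN j (hk.trans hj)⟩
    · refine (Lp.tendsto_Lp_iff_tendsto_eLpNorm' Z Y).1 ?_
      rw [tendsto_iff_dist_tendsto_zero]
      refine squeeze_zero (fun _ => dist_nonneg) (fun k => ?_)
        tendsto_one_div_add_atTop_nhds_zero_nat
      rw [dist_comm]
      exact (hZ' k).le
  · have hL0 : 0 ≤ L := ge_of_tendsto' hL fun j => integral_nonneg fun x => by positivity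
    have h1 := mem_closure_of_weak hY (convex_closedBall 0 √(L + δ / 2))
      ((hL'.eventually (ge_mem_nhds (show L < L + δ / 2 by linarith))).mono fun j hj =>
        mem_closedBall_zero_iff.2 (Real.le_sqrt_of_sq_le ((hXn j).trans_le hj)))
    rw [closure_closedBall, mem_closedBall_zero_iff,
      Real.le_sqrt (norm_nonneg _) (by linarith)] at h1
    have h2 := L2T.norm_toLp_sq (Lp.memLp Y)
    rw [Lp.toLp_coeFn] at h2
    filter_upwards [hL'.eventually (le_mem_nhds (show L - δ / 2 < L by linarith))] with j hj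
    have h3 : L - δ / 2 ≤ ∫ x, ‖G (θ (ψ j)) x‖ ^ 2 ∂(nu g) := hj
    show _ ≤ ∫ x, ‖G (θ (ψ j)) x‖ ^ 2 ∂(nu g) + δ
    linarith

theorem cpt' : CptStmt := cpt classStmt closure rel

end Crest.Agent.N346.P2

end
end

-- ▼ part N346/P2/Cut
section

/-! Row 346, P2: `cut : CutStmt` (helper14). -/

set_option autoImplicit false
open MeasureTheory Filter Topology Set Matrix
open scoped ContDiff ENNReal Convolution
open Crest.GeometryTopology.CoordMetric
open Crest.MathPhysics.ExteriorData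
open Crest.Agent.N346.Bs

noncomputable section
namespace Crest.Agent.N346.P2
namespace Cut

variable {n : ℕ} {g F : MetricField n} {u v : E n → ℝ} {x : E n}

theorem norm_fg (h : Fr g F) (u : E n → ℝ) (x : E n) : ‖fgrad F u x‖ = √(gradSq g u x) := by
  have h1 : (g x)⁻¹ = ((F x)ᵀ)ᵀ * Matrix.diagonal (fun _ => 1) * (F x)ᵀ := by
    refine inv_eq_left_inv ?_
    rw [diagonal_one, Matrix.mul_one, transpose_transpose, Matrix.mul_assoc]
    exact mul_eq_one_comm.1 (h.orth x)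
  rw [← Real.sqrt_sq (norm_nonneg _), norm_sq_eq, gradSq, gradDot_eq, h1, qb_conj]
  simp [fgrad, mulVec, dotProduct]

theorem fg_mul (hu : DifferentiableAt ℝ u x) (hv : DifferentiableAt ℝ v x) :
    fgrad F (fun y => u y * v y) x = u x • fgrad F v x + v x • fgrad F u x := by
  ext a
  simp only [fgrad, pd_mul hu hv, PiLp.add_apply, PiLp.smul_apply, smul_eq_mul, Finset.mul_sum,
    ← Finset.sum_add_distrib]
  exact Finset.sum_congr rfl fun i _ => by ring

theorem fg_sub (hu : DifferentiableAt ℝ u x) (hv : DifferentiableAt ℝ v x) :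
    fgrad F (fun y => u y - v y) x = fgrad F u x - fgrad F v x := by
  ext a
  simp only [fgrad, pd_sub hu hv, PiLp.sub_apply, mul_sub, Finset.sum_sub_distrib]

theorem fg_const_add (c : ℝ) : fgrad F (fun y => c + u y) x = fgrad F u x := by
  simp only [fgrad, pd_const_add]

theorem fg_of_fderiv (h : fderiv ℝ u x = 0) : fgrad F u x = 0 := by
  ext a; simp [fgrad, pderiv, h]

theorem continuous_fg (h : Fr g F) (hu : ContDiff ℝ 1 u) : Continuous (fgrad F u) :=
  (PiLp.continuous_toLp 2 _).comp (continuous_pi fun a => continuous_finsetSum _ fun i _ =>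
    (h.smooth i a).continuous.mul (continuous_pd hu i))

theorem hcs_fg (hu : HasCompactSupport u) : HasCompactSupport (fgrad F u) :=
  .intro hu fun y hy => by ext a; simp [fgrad, pd_of_notMem hy]

theorem exists_fg_le (h : Fr g F) : ∃ C : ℝ, 0 < C ∧ ∀ u x, ‖fgrad F u x‖ ≤ C * ‖fderiv ℝ u x‖ := by
  obtain ⟨Λ, hΛ, h1, -⟩ := h.bd
  refine ⟨√Λ, by positivity, fun u x => ?_⟩
  rw [norm_fg h, ← Real.sqrt_sq (norm_nonneg (fderiv ℝ u x)), ← Real.sqrt_mul (by positivity)]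
  simpa using Real.sqrt_le_sqrt (gradSq_le h.riem (by positivity) (h1 x) u)

theorem locFin (h : Fr g F) : IsLocallyFiniteMeasure (nu g) :=
  IsLocallyFiniteMeasure.withDensity_ofReal (contDiff_volDensity h.riem).continuous

theorem int_nu (h : Fr g F) (f : E n → ℝ) : ∫ x, f x ∂(nu g) = ∫ x, f x * volDensity g x := by
  rw [nu, integral_withDensity_eq_integral_toReal_smul
    (contDiff_volDensity h.riem).continuous.measurable.ennreal_ofReal (by simp)]
  simp only [ENNReal.toReal_ofReal (volDensity_pos h.riem _).le, smul_eq_mul, mul_comm]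

theorem dd_of (h : Fr g F) (hu : ContDiff ℝ 1 u) (hc : HasCompactSupport u) :
    DD g F u 0 (fgrad F u) := by
  have := locFin h
  obtain ⟨M, hM⟩ := hu.continuous.bounded_above_of_compact_support hc
  exact ⟨hu.continuous.measurable, ⟨M, hM⟩,
    (continuous_fg h hu).memLp_of_hasCompactSupport (hcs_fg hc),
    fun _ => u, M, fun _ => hu, fun _ => hc, fun _ => hM, .of_forall fun _ => by simp, by simp⟩

/-- uniform `C¹` approximation by smooth functions -/
theorem exists_smooth (hu : ContDiff ℝ 1 u) (hc : HasCompactSupport u) {ε : ℝ} (hε : 0 < ε) :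
    ∃ w : E n → ℝ, ContDiff ℝ ∞ w ∧ (∀ x, |w x - u x| ≤ ε) ∧
      ∀ x, ‖fderiv ℝ w x - fderiv ℝ u x‖ ≤ ε := by
  have hc' := hu.continuous_fderiv one_ne_zero
  obtain ⟨δ₁, h₁, H₁⟩ := Metric.uniformContinuous_iff.1
    (hc.uniformContinuous_of_continuous hu.continuous) ε hε
  obtain ⟨δ₂, h₂, H₂⟩ := Metric.uniformContinuous_iff.1
    ((hc.fderiv (𝕜 := ℝ)).uniformContinuous_of_continuous hc') ε hε
  have h₃ : 0 < min δ₁ δ₂ := lt_min h₁ h₂
  let φ : ContDiffBump (0 : E n) := ⟨min δ₁ δ₂ / 2, min δ₁ δ₂, by positivity, by linarith⟩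
  refine ⟨φ.normed volume ⋆[ContinuousLinearMap.lsmul ℝ ℝ, volume] u,
    φ.hasCompactSupport_normed.contDiff_convolution_left _ φ.contDiff_normed
      hu.continuous.locallyIntegrable, fun x => ?_, fun x => ?_⟩
  · exact φ.dist_normed_convolution_le hu.continuous.aestronglyMeasurable fun y hy =>
      (H₁ (hy.trans_le (min_le_left _ _))).le
  · rw [(hc.hasFDerivAt_convolution_right _ φ.continuous_normed.locallyIntegrable hu x).fderiv,
      ← dist_eq_norm]
    exact φ.dist_normed_convolution_le hc'.aestronglyMeasurable fun y hy =>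
      (H₂ (hy.trans_le (min_le_right _ _))).le

end Cut
open Cut

theorem cut : CutStmt := by
  intro n _ g F h d Λ ℓ A hd hdΛ hℓ hA l hl
  have := locFin h
  obtain ⟨C₁, hC₁, hfg⟩ := exists_fg_le h
  obtain ⟨C₂, hC₂, hη⟩ := exists_eta_grad n
  obtain ⟨R, hR0, hRΛ, hRl⟩ : ∃ R : ℝ, 0 < R ∧ Λ ≤ R ∧ C₁ * C₂ / l ≤ R :=
    ⟨max 1 (max Λ (C₁ * C₂ / l)), by positivity, by simp, by simp⟩
  have hb : ∀ r, R ≤ r → ∀ x, ‖fgrad F (eta r) x‖ ≤ l := fun r hr x => by
    refine (hfg _ x).trans ((mul_le_mul_of_nonneg_left (hη r (by linarith) x) hC₁.le).trans ?_)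
    rw [← mul_div_assoc, div_le_iff₀ (by linarith), mul_comm l, ← div_le_iff₀ hl]
    linarith
  have hR2 : 0 < 2 * R := by positivity
  have e1 := fun r => smooth_one (contDiff_eta (n := n) r)
  have c2 := hasCompactSupport_eta (n := n) hR2
  refine ⟨eta (2 * R), fgrad F (eta (2 * R)), eta R, fgrad F (eta R), dd_of h (e1 _) c2,
    fun x => ⟨eta_nonneg _ x, eta_le_one _ x⟩, (e1 _).continuous.integrable_of_hasCompactSupport c2,
    (continuous_fg h (e1 _)).integrable_of_hasCompactSupport (hcs_fg c2), hb _ (by linarith),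
    dd_of h (e1 _) (hasCompactSupport_eta hR0), fun x => ⟨eta_nonneg _ x, eta_le_one _ x⟩,
    hb _ le_rfl, fun x hx => eta_eq_one hR2 (not_lt.1 fun h => hx (eta_eq_zero hR0 h.le)),
    fun x hx => ?_, fun φ G hφ _ hφ0 hφ1 hG => ?_⟩
  · have := (mem_closedBall_zero_iff.1 hx).trans hRΛ
    exact ⟨eta_eq_one hR0 this, fg_of_fderiv (fderiv_eta_of_le hR0 this)⟩
  obtain ⟨v, M, hv1, hvc, hvM, hvφ, hvG⟩ := hφ.approx
  choose w hw hwv hwv' using fun j : ℕ => exists_smooth (hv1 j) (hvc j) (Nat.one_div_pos_of_nat (n := j))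
  set z : E n → ℝ := fun x => 1 - Real.smoothTransition (2 * (d x - ℓ) + 1) with hz
  have hzs : ContDiff ℝ ∞ z := contDiff_const.sub (Real.smoothTransition.contDiff.comp
    ((contDiff_const.mul (hd.sub contDiff_const)).add contDiff_const))
  have hz0 : ∀ x, 0 ≤ z x := fun x => sub_nonneg.2 (Real.smoothTransition.le_one _)
  have hz1 : ∀ x, z x ≤ 1 := fun x => sub_le_self _ (Real.smoothTransition.nonneg _)
  have hz2 : ∀ x, d x ≤ ℓ - 1 / 2 → z x = 1 := fun x hx => by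
    simp only [hz, Real.smoothTransition.zero_of_nonpos (show 2 * (d x - ℓ) + 1 ≤ 0 by linarith),
      sub_zero]
  have hz3 : ∀ x, d x ≤ ℓ - 1 / 2 → fgrad F z x = 0 := fun x hx =>
    fg_of_fderiv (IsLocalMax.fderiv_eq_zero (.of_forall fun y => (hz1 y).trans (hz2 x hx).ge))
  have hz4 : HasCompactSupport (fgrad F z) :=
    .intro (isCompact_closedBall 0 Λ) fun y hy => hz3 y (by
      rw [hdΛ y (le_of_lt (by simpa using hy))]; linarith)
  set σ : E n → ℝ := eta (2 * R) with hσ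
  have hσs : ContDiff ℝ ∞ σ := contDiff_eta _
  have iσ : Integrable σ (nu g) := hσs.continuous.integrable_of_hasCompactSupport c2
  have i1 : Integrable (fun x => ‖fgrad F σ x‖) (nu g) :=
    ((continuous_fg h (e1 _)).integrable_of_hasCompactSupport (hcs_fg c2)).norm
  have i2 : Integrable (fun x => ‖fgrad F z x‖) (nu g) :=
    ((continuous_fg h (smooth_one hzs)).integrable_of_hasCompactSupport hz4).norm
  set T : ℕ → E n → ℝ := fun j x =>
    ‖(z x * w j x) • fgrad F σ x + (1 + σ x * w j x) • fgrad F z x‖ with hT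
  have hTc : ∀ j, Continuous (T j) := fun j =>
    (((hzs.continuous.mul (hw j).continuous).smul (continuous_fg h (e1 _))).add
      ((continuous_const.add (hσs.continuous.mul (hw j).continuous)).smul
        (continuous_fg h (smooth_one hzs)))).norm
  have hwM : ∀ j x, |w j x| ≤ M + 1 := fun j x => by
    have h1 : 1 / ((j : ℝ) + 1) ≤ 1 := (div_le_one (by positivity)).2 (by simp)
    linarith [abs_sub_abs_le_abs_sub (w j x) (v j x), hwv j x, hvM j x]
  have hTb : ∀ j x, T j x ≤ (M + 1) * ‖fgrad F σ x‖ + (1 + (M + 1)) * ‖fgrad F z x‖ := fun j x => by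
    refine (norm_add_le _ _).trans ?_
    rw [norm_smul, norm_smul]
    gcongr
    · rw [norm_mul, Real.norm_of_nonneg (hz0 x)]
      exact (mul_le_of_le_one_left (norm_nonneg _) (hz1 x)).trans (hwM j x)
    · refine (norm_add_le _ _).trans (add_le_add (by simp) ?_)
      rw [norm_mul, Real.norm_of_nonneg (eta_nonneg _ x)]
      exact (mul_le_of_le_one_left (norm_nonneg _) (eta_le_one _ x)).trans (hwM j x)
  have iT := (i1.const_mul (M + 1)).add (i2.const_mul (1 + (M + 1)))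
  have hT0 : Tendsto (fun j => ∫ x, T j x ∂(nu g)) atTop (𝓝 0) := by
    rw [← integral_zero (E n) ℝ (μ := nu g)]
    refine tendsto_integral_of_dominated_convergence _ (fun j => (hTc j).aestronglyMeasurable) iT
      (fun j => .of_forall fun x => (Real.norm_of_nonneg (norm_nonneg _)).trans_le (hTb j x))
      (hvφ.mono fun x hx => ?_)
    have h1 : Tendsto (fun j => w j x) atTop (𝓝 (φ x - 1)) := by
      have := (squeeze_zero_norm (fun j => hwv j x) tendsto_one_div_add_atTop_nhds_zero_nat).add hx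
      simpa using this
    have h2 := (((h1.const_mul (z x)).smul_const (fgrad F σ x)).add
      (((h1.const_mul (σ x)).const_add 1).smul_const (fgrad F z x))).norm
    convert h2 using 2
    symm
    rw [norm_eq_zero]
    have h3 : (z x * (φ x - 1)) • fgrad F σ x = 0 := by
      rcases le_total ‖x‖ (2 * R) with h3 | h3
      · rw [fg_of_fderiv (fderiv_eta_of_le hR2 h3), smul_zero]
      · rw [hφ1 x (eta_eq_zero hR0 h3), sub_self, mul_zero, zero_smul]
    have h4 : (1 + σ x * (φ x - 1)) • fgrad F z x = 0 := by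
      rcases le_total (d x) (ℓ - 1 / 2) with h4 | h4
      · rw [hz3 x h4, smul_zero]
      · have h5 : ‖x‖ ≤ 2 * R := by
          by_contra h5
          rw [hdΛ x (by linarith)] at h4
          linarith
        rw [hφ0 x h4, hσ, eta_eq_one hR2 h5]; simp
    rw [h3, h4, add_zero]
  have hσ2 : MemLp σ 2 (nu g) := hσs.continuous.memLp_of_hasCompactSupport c2
  have hv2 : ∀ j, MemLp (fun x => fgrad F (v j) x - G x) 2 (nu g) := fun j =>
    ((continuous_fg h (hv1 j)).memLp_of_hasCompactSupport (hcs_fg (hvc j))).sub hφ.memG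
  have iS : ∀ j, Integrable (fun x => σ x * ‖fgrad F (v j) x - G x‖) (nu g) := fun j =>
    hσ2.integrable_mul (hv2 j).norm
  have hS0 : Tendsto (fun j => ∫ x, σ x * ‖fgrad F (v j) x - G x‖ ∂(nu g)) atTop (𝓝 0) := by
    refine tendsto_integral_of_L1' (f := fun _ => (0 : ℝ)) aestronglyMeasurable_const
      (.of_forall iS) ?_ |>.trans (by simp)
    refine tendsto_of_tendsto_of_tendsto_of_le_of_le tendsto_const_nhds
      (h := fun j => eLpNorm σ 2 (nu g) * eLpNorm (fun x => fgrad F (v j) x - G x) 2 (nu g))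
      (by simpa using ENNReal.Tendsto.const_mul hvG (Or.inr hσ2.eLpNorm_ne_top))
      (fun _ => zero_le) fun j => ?_
    have := eLpNorm_smul_le_mul_eLpNorm (p := 2) (q := 2) (r := 1) (hv2 j).norm.1 hσ2.1
    rw [eLpNorm_norm] at this
    exact le_trans (le_of_eq (by congr 1; ext x; simp)) this
  have hlim := ((hS0.add hT0).add
    (tendsto_one_div_add_atTop_nhds_zero_nat.mul_const (C₁ * ∫ x, σ x ∂(nu g)))).const_add
    (∫ x, ‖G x‖ ∂(nu g))
  simp only [add_zero, zero_mul] at hlim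
  refine ge_of_tendsto' hlim fun j => ?_
  have h1 := hA (fun x => z x * (1 + σ x * w j x))
    (hzs.mul (contDiff_const.add (hσs.mul (hw j))))
    (fun x hx => by
      simp [hz, Real.smoothTransition.one_of_one_le
        (show 1 ≤ 2 * (d x - ℓ) + 1 by linarith [show ℓ ≤ d x from hx])])
    ⟨2 * (2 * R), fun x hx => by
      rw [hz2 x (by rw [hdΛ x (by linarith)]; linarith), hσ, eta_eq_zero hR2 hx]; simp⟩
  simp only [← norm_fg h, ← int_nu h] at h1
  refine h1.trans ?_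
  have iTj : Integrable (T j) (nu g) := iT.mono' (hTc j).aestronglyMeasurable
    (.of_forall fun x => (Real.norm_of_nonneg (norm_nonneg _)).trans_le (hTb j x))
  have hI := (HI.of hG.norm).add (((HI.of (iS j)).add (HI.of iTj)).add
    (((HI.of iσ).cmul C₁).cmul (1 / ((j : ℝ) + 1))))
  refine le_trans (integral_mono_of_nonneg (.of_forall fun x => norm_nonneg _) hI.1
    (.of_forall fun x => ?_)) hI.2.le
  have d1 := smooth_diff hzs x
  have d2 := smooth_diff hσs x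
  have d3 := smooth_diff (hw j) x
  have d4 := (hv1 j).differentiable one_ne_zero x
  have h2 : ‖fgrad F (w j) x - fgrad F (v j) x‖ ≤ C₁ * (1 / ((j : ℝ) + 1)) := by
    rw [← fg_sub d3 d4]
    refine (hfg _ x).trans (mul_le_mul_of_nonneg_left ?_ hC₁.le)
    rw [fderiv_fun_sub d3 d4]; exact hwv' j x
  have h3 : ‖fgrad F (w j) x‖ ≤ ‖G x‖ + ‖fgrad F (v j) x - G x‖ + C₁ * (1 / ((j : ℝ) + 1)) := by
    linarith [norm_le_insert' (fgrad F (w j) x) (fgrad F (v j) x),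
      norm_le_insert' (fgrad F (v j) x) (G x)]
  have h4 := eta_nonneg (2 * R) x
  have h5 := eta_le_one (2 * R) x
  dsimp only
  rw [fg_mul d1 ((d2.fun_mul d3).const_add 1), fg_const_add, fg_mul d2 d3, smul_add, add_assoc,
    smul_smul, smul_smul]
  refine (norm_add_le _ _).trans ?_
  rw [norm_smul, Real.norm_of_nonneg (mul_nonneg (hz0 x) h4)]
  have h6 : z x * σ x * ‖fgrad F (w j) x‖ ≤ σ x * ‖fgrad F (w j) x‖ := by
    rw [mul_assoc]; exact mul_le_of_le_one_left (by positivity) (hz1 x)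
  nlinarith [mul_le_mul_of_nonneg_left h3 h4, mul_le_of_le_one_left (norm_nonneg (G x)) h5]

end Crest.Agent.N346.P2
end
end

-- ▼ part N346/P2/Shield
section

/-! Row 346, P2: the shield profile `shield : ShieldStmt` (helper14). -/

set_option autoImplicit false
open Set
open scoped ContDiff

noncomputable section
namespace Crest.Agent.N346.P2

theorem exists_deriv_smoothTransition_bound :
    ∃ C : ℝ, 1 ≤ C ∧ ∀ s, |deriv Real.smoothTransition s| ≤ C := by
  have hc : Continuous (deriv Real.smoothTransition) :=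
    (Real.smoothTransition.contDiff (n := 1)).continuous_deriv le_rfl
  obtain ⟨C, hC⟩ := (isCompact_Icc (a := (0 : ℝ)) (b := 1)).exists_bound_of_continuousOn
    hc.continuousOn
  refine ⟨max 1 C, le_max_left _ _, fun s => ?_⟩
  by_cases hs : s ∈ Icc (0 : ℝ) 1
  · exact (hC s hs).trans (le_max_right _ _)
  · have : deriv Real.smoothTransition s = 0 := by
      rcases not_and_or.1 hs with h | h
      · exact IsLocalMin.deriv_eq_zero (.of_forall fun y =>
          (Real.smoothTransition.zero_of_nonpos (not_le.1 h).le).le.trans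
            (Real.smoothTransition.nonneg y))
      · exact IsLocalMax.deriv_eq_zero (.of_forall fun y => (Real.smoothTransition.le_one y).trans
          (Real.smoothTransition.one_of_one_le (not_le.1 h).le).ge)
    rw [this, abs_zero]; positivity

theorem shield : ShieldStmt := by
  obtain ⟨Cs, hCs, hd⟩ := exists_deriv_smoothTransition_bound
  refine ⟨8 * Cs, by linarith, fun Λ hΛ s₀ Pm hPm => ?_⟩
  have hΛ0 : 0 < Λ := by linarith
  set T : ℝ := Real.log (1 + 2 * Λ) with hT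
  have hT0 : 0 < T := Real.log_pos (by linarith)
  have hlog := Real.log_nonneg hΛ
  have hT1 : T ≤ 2 * (1 + Real.log Λ) := by
    have h1 : T ≤ Real.log (3 * Λ) := Real.log_le_log (by linarith) (by linarith)
    rw [Real.log_mul (by norm_num) hΛ0.ne'] at h1
    linarith [Real.log_le_sub_one_of_pos (show (0 : ℝ) < 3 by norm_num)]
  have heT : Real.exp T = 1 + 2 * Λ := Real.exp_log (by linarith)
  set L : ℝ := 4 * Cs * T with hL
  have hL0 : 0 < L := by positivity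
  set pm : ℝ := Pm / (1 + Pm) with hpm
  have hpm0 : 0 ≤ pm := by positivity
  have hpm1 : pm < 1 := (div_lt_one (by positivity)).2 (by linarith)
  set e : ℝ → ℝ := fun s => Real.exp (T * Real.smoothTransition ((s - s₀) / L)) with he
  have he1 : ∀ s, 1 ≤ e s := fun s =>
    Real.one_le_exp (mul_nonneg hT0.le (Real.smoothTransition.nonneg _))
  have he2 : ∀ s, e s ≤ 1 + 2 * Λ := fun s => by
    rw [← heT]
    exact Real.exp_le_exp.2 (mul_le_of_le_one_right hT0.le (Real.smoothTransition.le_one _))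
  set ψ : ℝ → ℝ := fun s => pm * ((e s - 1) / (2 * Λ)) with hψ
  have hψ0 : ∀ s, 0 ≤ ψ s := fun s => mul_nonneg hpm0 (div_nonneg (by linarith [he1 s]) (by linarith))
  have hψ1 : ∀ s, ψ s ≤ pm := fun s =>
    mul_le_of_le_one_right hpm0 ((div_le_one (by linarith)).2 (by linarith [he2 s]))
  have hψ2 : ∀ s, 0 < 1 - ψ s := fun s => by linarith [hψ1 s]
  have hψc : ContDiff ℝ ∞ ψ := contDiff_const.mul (((Real.contDiff_exp.comp (contDiff_const.mul
    (Real.smoothTransition.contDiff.comp ((contDiff_id.sub contDiff_const).div_const L)))).sub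
    contDiff_const).div_const _)
  have hPm' : pm / (1 - pm) = Pm := by rw [hpm]; field_simp; ring
  refine ⟨fun s => ψ s / (1 - ψ s), hψc.div (contDiff_const.sub hψc) fun s => (hψ2 s).ne',
    fun s hs => ?_, fun s hs => ?_, fun s => div_nonneg (hψ0 s) (hψ2 s).le, fun s => ?_,
    fun s t ht => ?_⟩
  · simp [hψ, he, Real.smoothTransition.zero_of_nonpos
      (div_nonpos_of_nonpos_of_nonneg (sub_nonpos.2 hs) hL0.le)]
  · have h1 : Real.smoothTransition ((s - s₀) / L) = 1 :=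
      Real.smoothTransition.one_of_one_le ((one_le_div hL0).2 (by nlinarith))
    have h2 : ψ s = pm := by
      simp only [hψ, he, h1, mul_one, heT, add_sub_cancel_left]
      rw [div_self (by linarith), mul_one]
    simp only [h2, hPm']
  · rw [← hPm']
    exact div_le_div₀ hpm0 (hψ1 s) (by linarith) (by linarith [hψ1 s])
  · have h1 : HasDerivAt ψ (pm * (e s * (T * (deriv Real.smoothTransition ((s - s₀) / L) * (1 / L)))
        / (2 * Λ))) s :=
      ((((((Real.smoothTransition.contDiff (n := 1)).differentiable one_ne_zero _).hasDerivAt.comp s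
        (((hasDerivAt_id s).sub_const s₀).div_const L)).const_mul T).exp.sub_const 1).div_const
        (2 * Λ)).const_mul pm
    have h2 := (h1.div (h1.const_sub 1) (hψ2 s).ne').deriv
    have h3 : |T * (deriv Real.smoothTransition ((s - s₀) / L) * (1 / L))| ≤ 1 / 4 := by
      rw [abs_mul, abs_mul, abs_of_pos hT0, abs_of_pos (by positivity : 0 < 1 / L)]
      calc _ ≤ T * (Cs * (1 / L)) := by gcongr; exact hd _
        _ = _ := by rw [hL]; field_simp
    generalize T * (deriv Real.smoothTransition ((s - s₀) / L) * (1 / L)) = r at h1 h2 h3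
    have h4 : |pm * (e s * r / (2 * Λ))| ≤ ψ s / 4 + Λ⁻¹ / 8 := by
      have := he1 s
      rw [abs_mul, abs_of_nonneg hpm0, abs_div, abs_mul, abs_of_nonneg (by linarith : 0 ≤ e s),
        abs_of_pos (by linarith : 0 < 2 * Λ)]
      calc _ ≤ pm * (e s * (1 / 4) / (2 * Λ)) := by gcongr
        _ = ψ s / 4 + pm * (Λ⁻¹ / 8) := by simp only [hψ]; field_simp; ring
        _ ≤ ψ s / 4 + 1 * (Λ⁻¹ / 8) := by gcongr
        _ = _ := by ring
    generalize pm * (e s * r / (2 * Λ)) = D at h2 h4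
    have h5 := hψ2 s
    have h6 := hψ0 s
    obtain ⟨P, hP⟩ : ∃ P, P = ψ s / (1 - ψ s) := ⟨_, rfl⟩
    have hP0 : 0 ≤ P := hP ▸ div_nonneg h6 h5.le
    have h7 : deriv (fun s => ψ s / (1 - ψ s)) s = D * (1 + P) ^ 2 := by
      refine h2.trans ?_
      rw [hP]; field_simp; ring
    have h8 : ψ s * (1 + P) = P := by rw [hP]; field_simp; ring
    have hΛ1 : Λ⁻¹ ≤ 1 := inv_le_one_of_one_le₀ hΛ
    have hΛ2 : 0 < Λ⁻¹ := by positivity
    change _ ≤ t ^ 2 / 4 + Λ⁻¹ / 4 + (ψ s / (1 - ψ s)) ^ 2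
    rw [h7, ← hP, abs_mul, abs_of_nonneg (sq_nonneg (1 + P))]
    have h9 : |D| * (1 + P) ^ 2 ≤ P * (1 + P) / 4 + Λ⁻¹ / 8 * (2 + 2 * P ^ 2) := by
      calc _ ≤ (ψ s / 4 + Λ⁻¹ / 8) * (1 + P) ^ 2 := by gcongr
        _ = ψ s * (1 + P) * (1 + P) / 4 + Λ⁻¹ / 8 * (1 + P) ^ 2 := by ring
        _ ≤ _ := by rw [h8]; gcongr; nlinarith [sq_nonneg (1 - P)]
    have h10 := mul_le_mul_of_nonneg_right h9 ht.1
    nlinarith [sq_nonneg (t - P / 2), mul_le_mul_of_nonneg_left ht.2 (sq_nonneg P),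
      mul_le_mul_of_nonneg_left ht.2 (show 0 ≤ Λ⁻¹ / 8 * (2 + 2 * P ^ 2) by positivity),
      mul_le_mul_of_nonneg_right hΛ1 (sq_nonneg P)]

end Crest.Agent.N346.P2
end
end

-- ▼ part N346/P2/NeckB
section

/-!
Row 346, P2k (helper30), part 1: frame algebra, the volume measure, smooth members of the class and
integration by parts against a vector density.
-/

set_option autoImplicit false
open MeasureTheory Filter Topology Set Matrix
open scoped ContDiff ENNReal InnerProductSpace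
open Crest.GeometryTopology.CoordMetric
open Crest.MathPhysics.ExteriorData

noncomputable section
namespace Crest.Agent.N346.P2.NK
open Crest.Agent.N346.Bs

variable {n : ℕ} {g F : MetricField n}

theorem inner_eq (v w : E n) : ⟪v, w⟫_ℝ = ∑ a, v a * w a := by
  simp [PiLp.inner_apply, mul_comm]

theorem frame_inv (h : Fr g F) (x : E n) : F x * (F x)ᵀ = (g x)⁻¹ := by
  have h1 : (g x * F x) * (F x)ᵀ = 1 := by
    rw [mul_eq_one_comm, ← Matrix.mul_assoc]; exact h.orth x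
  exact (inv_eq_right_inv (by rw [← Matrix.mul_assoc]; exact h1)).symm

theorem fgrad_eq (u : E n → ℝ) (x : E n) :
    (fgrad F u x).ofLp = (F x)ᵀ *ᵥ fun i => pderiv i u x := by
  ext a; simp [fgrad, mulVec, dotProduct]

theorem fvec_eq (EE : VectorField n) (x : E n) :
    (fvec g F EE x).ofLp = (volDensity g x)⁻¹ • ((F x)ᵀ *ᵥ (g x *ᵥ EE x)) := by
  ext a
  simp only [fvec, mulVec, dotProduct, Pi.smul_apply, smul_eq_mul, transpose_apply,
    Finset.mul_sum, div_eq_inv_mul, mul_assoc]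

theorem frame_dot (h : Fr g F) (x : E n) (v w : Fin n → ℝ) :
    ((F x)ᵀ *ᵥ v) ⬝ᵥ ((F x)ᵀ *ᵥ w) = v ⬝ᵥ (g x)⁻¹ *ᵥ w := by
  rw [mulVec_transpose, ← dotProduct_mulVec, mulVec_mulVec, frame_inv h]

theorem norm_fgrad_sq (h : Fr g F) (u : E n → ℝ) (x : E n) :
    ‖fgrad F u x‖ ^ 2 = gradSq g u x := by
  rw [norm_sq_eq, gradSq, gradDot_eq, qb_eq_dot, ← frame_dot h, ← fgrad_eq]; rfl

theorem norm_fgrad (h : Fr g F) (u : E n → ℝ) (x : E n) :
    ‖fgrad F u x‖ = √(gradSq g u x) := by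
  rw [← norm_fgrad_sq h, Real.sqrt_sq (norm_nonneg _)]

theorem inv_mulVec (h : Fr g F) (x : E n) (v : Fin n → ℝ) : (g x)⁻¹ *ᵥ (g x *ᵥ v) = v := by
  rw [mulVec_mulVec, nonsing_inv_mul _ (det_pos h.riem x).ne'.isUnit, one_mulVec]

theorem norm_fvec_sq (h : Fr g F) (EE : VectorField n) (x : E n) :
    ‖fvec g F EE x‖ ^ 2 = eSq g EE x := by
  have e : ‖fvec g F EE x‖ ^ 2 = (fvec g F EE x).ofLp ⬝ᵥ (fvec g F EE x).ofLp := norm_sq_eq _
  rw [e, fvec_eq, smul_dotProduct, dotProduct_smul, frame_dot h, inv_mulVec h, dotProduct_comm,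
    ← qb_eq_dot, eSq, ← volDensity_sq h.riem x]
  simp only [smul_eq_mul]
  rw [show vecNormSq g EE x = qb (g x) (EE x) (EE x) from rfl]
  field_simp

theorem inner_fgrad_fvec (h : Fr g F) (u : E n → ℝ) (EE : VectorField n) (x : E n) :
    ⟪fvec g F EE x, fgrad F u x⟫_ℝ * volDensity g x = ∑ i, pderiv i u x * EE x i := by
  have e : ⟪fvec g F EE x, fgrad F u x⟫_ℝ = (fgrad F u x).ofLp ⬝ᵥ (fvec g F EE x).ofLp := by
    rw [real_inner_comm, inner_eq]; rfl
  rw [e, fvec_eq, fgrad_eq, dotProduct_smul, frame_dot h, inv_mulVec h, smul_eq_mul]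
  have := (volDensity_pos h.riem x).ne'
  field_simp
  rfl

theorem fgrad_of_pd {u v : E n → ℝ} {c : ℝ} {x : E n} (hu : ∀ i, pderiv i u x = c * pderiv i v x) :
    fgrad F u x = c • fgrad F v x := by
  ext a
  simp only [fgrad, hu, PiLp.smul_apply, smul_eq_mul, Finset.mul_sum]
  exact Finset.sum_congr rfl fun i _ => by ring

theorem continuous_fgrad (h : Fr g F) {u : E n → ℝ} (hu : ContDiff ℝ 1 u) :
    Continuous (fgrad F u) :=
  (PiLp.continuous_toLp 2 _).comp (continuous_pi fun a => continuous_finsetSum _ fun i _ =>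
    (h.smooth i a).continuous.mul (continuous_pd hu i))

theorem continuous_fvec (h : Fr g F) {EE : VectorField n} (hE : ∀ i, Continuous fun x => EE x i) :
    Continuous (fvec g F EE) :=
  (PiLp.continuous_toLp 2 _).comp (continuous_pi fun a => (continuous_finsetSum _ fun i _ =>
    continuous_finsetSum _ fun j _ =>
      ((h.smooth i a).continuous.mul (contDiff_g h.riem i j).continuous).mul (hE j)).div
    (contDiff_volDensity h.riem).continuous fun x => (volDensity_pos h.riem x).ne')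

theorem hcs_fgrad {u : E n → ℝ} {c : ℝ} (hc : HasCompactSupport fun x => u x - c) :
    HasCompactSupport (fgrad F u) := by
  refine .intro hc fun x hx => ?_
  have := fun i => pd_of_notMem hx i
  simp only [pd_sub_const] at this
  ext a; simp [fgrad, this]

/-! ### the measure -/

theorem meas_dens (h : Fr g F) : Measurable fun x => ENNReal.ofReal (volDensity g x) :=
  (contDiff_volDensity h.riem).continuous.measurable.ennreal_ofReal

theorem integral_nu (h : Fr g F) (f : E n → ℝ) :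
    ∫ x, f x ∂(nu g) = ∫ x, f x * volDensity g x := by
  rw [nu, integral_withDensity_eq_integral_toReal_smul (meas_dens h)
    (ae_of_all _ fun _ => ENNReal.ofReal_lt_top)]
  simp only [ENNReal.toReal_ofReal (volDensity_pos h.riem _).le, smul_eq_mul, mul_comm]

theorem vol_bdd (h : Fr g F) : ∃ M : ℝ, ∀ x, volDensity g x ≤ M := by
  obtain ⟨Λ, hΛ, -, h2⟩ := h.bd
  exact ⟨√(Λ ^ n), fun x => Real.sqrt_le_sqrt (det_le h.riem (by linarith) (h2 x))⟩

theorem integrable_nu (h : Fr g F) {V : Type*} [NormedAddCommGroup V] [NormedSpace ℝ V]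
    {f : E n → V} (hf : Integrable f) : Integrable f (nu g) := by
  obtain ⟨M, hM⟩ := vol_bdd h
  have h1 : nu g ≤ ENNReal.ofReal M • (volume : Measure (E n)) := by
    rw [nu, ← withDensity_const]
    exact withDensity_mono (ae_of_all _ fun x => ENNReal.ofReal_le_ofReal (hM x))
  exact (hf.smul_measure ENNReal.ofReal_ne_top).mono_measure h1

theorem ae_of_nu (h : Fr g F) {p : E n → Prop} (hp : ∀ᵐ x ∂(nu g), p x) : ∀ᵐ x, p x := by
  have := (ae_withDensity_iff (meas_dens h)).1 hp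
  filter_upwards [this] with x hx
  exact hx (by simpa using volDensity_pos h.riem x)

theorem int_cs (h : Fr g F) {V : Type*} [NormedAddCommGroup V] [NormedSpace ℝ V]
    {f : E n → V} (hf : Continuous f) (hc : HasCompactSupport f) : Integrable f (nu g) :=
  integrable_nu h (hf.integrable_of_hasCompactSupport hc)

theorem memLp_cs (h : Fr g F) {f : E n → E n} (hf : Continuous f) (hc : HasCompactSupport f) :
    MemLp f 2 (nu g) := by
  rw [memLp_two_iff_integrable_sq_norm hf.aestronglyMeasurable]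
  exact int_cs h (hf.norm.pow 2) (hc.comp_left (g := fun v : E n => ‖v‖ ^ 2) (by simp))

theorem of_contDiff (h : Fr g F) {u : E n → ℝ} {c : ℝ} (hu : ContDiff ℝ 1 u)
    (hc : HasCompactSupport fun x => u x - c) : DD g F u c (fgrad F u) := by
  have hu' : ContDiff ℝ 1 fun x => u x - c := hu.sub contDiff_const
  obtain ⟨M, hM⟩ := hu'.continuous.bounded_above_of_compact_support hc
  refine ⟨hu.continuous.measurable, ⟨M + |c|, fun x => ?_⟩,
    memLp_cs h (continuous_fgrad h hu) (hcs_fgrad hc), fun _ x => u x - c, M, fun _ => hu',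
    fun _ => hc, fun _ x => hM x, ae_of_all _ fun _ => tendsto_const_nhds, ?_⟩
  · have := abs_add_le (u x - c) c
    have h2 : |u x - c| ≤ M := hM x
    rw [sub_add_cancel] at this; linarith
  · have : ∀ x, fgrad F (fun x => u x - c) x - fgrad F u x = 0 := fun x => by
      rw [fgrad_of_pd (v := u) (c := 1) fun i => by rw [pd_sub_const, one_mul], one_smul, sub_self]
    simp [this]

/-- integration by parts in the class -/
theorem dd_ibp (h : Fr g F) {u : E n → ℝ} {c : ℝ} {G : E n → E n} (hu : DD g F u c G)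
    {V : VectorField n} (hV : ∀ i, ContDiff ℝ 1 fun x => V x i) (h2 : MemLp (fvec g F V) 2 (nu g))
    (hd : Integrable (divE V)) :
    ∫ x, ⟪fvec g F V x, G x⟫_ℝ ∂(nu g) = -∫ x, (u x - c) * divE V x := by
  obtain ⟨v, M, hv, hc, hM, hae, hL⟩ := hu.approx
  have hvm : ∀ j, MemLp (fgrad F (v j)) 2 (nu g) := fun j =>
    memLp_cs h (continuous_fgrad h (hv j)) (hcs_fgrad (c := 0) (by simpa using hc j))
  have e : ∀ j, ∫ x, ⟪fvec g F V x, fgrad F (v j) x⟫_ℝ ∂(nu g) = -∫ x, v j x * divE V x := by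
    intro j
    rw [integral_nu h, ibp_divE (hv j) (hc j) hV, neg_neg]
    simp only [inner_fgrad_fvec h]
  have t1 : Tendsto (fun j => -∫ x, v j x * divE V x) atTop (𝓝 (-∫ x, (u x - c) * divE V x)) := by
    refine (tendsto_integral_of_dominated_convergence (fun x => M * ‖divE V x‖)
      (fun j => (hv j).continuous.aestronglyMeasurable.mul hd.1) (hd.norm.const_mul M)
      (fun j => ae_of_all _ fun x => ?_) ?_).neg
    · rw [Pi.mul_apply, norm_mul]; exact mul_le_mul_of_nonneg_right (hM j x) (norm_nonneg _)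
    · filter_upwards [ae_of_nu h hae] with x hx using hx.mul_const _
  have t2 : Tendsto (fun j => ∫ x, ⟪fvec g F V x, fgrad F (v j) x⟫_ℝ ∂(nu g)) atTop
      (𝓝 (∫ x, ⟪fvec g F V x, G x⟫_ℝ ∂(nu g))) := by
    have h3 : Tendsto (fun j => (hvm j).toLp _) atTop (𝓝 (hu.memG.toLp _)) :=
      (Lp.tendsto_Lp_iff_tendsto_eLpNorm'' _ hvm _ hu.memG).2 hL
    have h4 := (tendsto_const_nhds (x := h2.toLp _)).inner (𝕜 := ℝ) h3
    have e2 : ∀ {H : E n → E n} (hH : MemLp H 2 (nu g)),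
        ⟪h2.toLp _, hH.toLp _⟫_ℝ = ∫ x, ⟪fvec g F V x, H x⟫_ℝ ∂(nu g) := fun hH => by
      rw [L2.inner_def]
      refine integral_congr_ae ?_
      filter_upwards [h2.coeFn_toLp, hH.coeFn_toLp] with x h1 h2
      rw [h1, h2]
    simpa only [e2] using h4
  simp only [e] at t2
  exact tendsto_nhds_unique t2 t1

theorem continuous_scalarCurv (hg : IsRiemannianOn g Set.univ) : Continuous (scalarCurv g) := by
  have h1 : ∀ k i j, ContDiff ℝ ∞ fun x => christoffel g x k i j := fun k i j =>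
    contDiff_const.mul (ContDiff.sum fun l _ => (contDiff_inv hg k l).mul
      (((contDiff_pd (contDiff_g hg j l) i).add (contDiff_pd (contDiff_g hg i l) j)).sub
        (contDiff_pd (contDiff_g hg i j) l)))
  have h2 : ∀ i j, ContDiff ℝ ∞ fun x => ricci g x i j := fun i j =>
    (((ContDiff.sum fun k _ => contDiff_pd (h1 k i j) k).sub
      (contDiff_pd (ContDiff.sum fun k _ => h1 k k i) j)).add
      (ContDiff.sum fun k _ => ContDiff.sum fun l _ => (h1 k k l).mul (h1 l i j))).sub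
      (ContDiff.sum fun k _ => ContDiff.sum fun l _ => (h1 k j l).mul (h1 l k i))
  exact (ContDiff.sum fun i _ => ContDiff.sum fun j _ =>
    (contDiff_inv hg i j).mul (h2 i j)).continuous

end Crest.Agent.N346.P2.NK

end
end

-- ▼ part N346/P2/NeckC

/-!
Row 346, P2k (helper30), part 2: `neck : ShieldStmt → NeckStmt`.
-/

set_option autoImplicit false
open MeasureTheory Filter Topology Set Matrix
open scoped ContDiff ENNReal InnerProductSpace
open Crest.GeometryTopology.CoordMetric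
open Crest.MathPhysics.ExteriorData

noncomputable section
namespace Crest.Agent.N346.P2
namespace NK
open Crest.Agent.N346.Bs

/-! ### one-dimensional cut-offs -/

theorem sg_deriv_zero {s : ℝ} (h : s ≤ 0 ∨ 1 ≤ s) : deriv Real.smoothTransition s = 0 := by
  rcases h with h | h
  · exact IsLocalMin.deriv_eq_zero (.of_forall fun y =>
      (Real.smoothTransition.zero_of_nonpos h).le.trans (Real.smoothTransition.nonneg y))
  · exact IsLocalMax.deriv_eq_zero (.of_forall fun y =>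
      (Real.smoothTransition.le_one y).trans (Real.smoothTransition.one_of_one_le h).ge)

theorem sg_c1 : ContDiff ℝ 1 Real.smoothTransition := Real.smoothTransition.contDiff (n := 1)

theorem sg_has (s : ℝ) : HasDerivAt Real.smoothTransition (deriv Real.smoothTransition s) s :=
  (sg_c1.differentiable one_ne_zero s).hasDerivAt

theorem exists_Cs : ∃ Cs : ℝ, 0 ≤ Cs ∧ ∀ s, |deriv Real.smoothTransition s| ≤ Cs := by
  obtain ⟨M, hM⟩ := (sg_c1.continuous_deriv le_rfl).bounded_above_of_compact_support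
    (HasCompactSupport.intro (isCompact_Icc (a := (0 : ℝ)) (b := 1)) fun s hs => sg_deriv_zero (by
      by_contra h; push Not at h; exact hs ⟨h.1.le, h.2.le⟩))
  exact ⟨M, (norm_nonneg _).trans (hM 0), hM⟩

theorem sg_aff (p q s : ℝ) : HasDerivAt (fun s => Real.smoothTransition (p * s + q))
    (deriv Real.smoothTransition (p * s + q) * p) s := by
  have := (sg_has (p * s + q)).comp s (((hasDerivAt_id' s).const_mul p).add_const q)
  simpa [Function.comp_def] using this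

theorem sg_aff_c1 (p q : ℝ) : ContDiff ℝ 1 fun s => Real.smoothTransition (p * s + q) :=
  sg_c1.comp ((contDiff_const.mul contDiff_id).add contDiff_const)

theorem prof1 : ∃ C₁ : ℝ, 0 ≤ C₁ ∧ ∀ ℓ : ℝ, 0 < ℓ → ∃ th th0 : ℝ → ℝ,
    ContDiff ℝ 1 th ∧ ContDiff ℝ 1 th0 ∧ th 0 = 1 ∧ th0 0 = 0 ∧ (∀ s, th s ∈ Icc (0 : ℝ) 1) ∧
    (∀ s, 2 * ℓ / 3 ≤ s → th s = 0) ∧
    (∀ s, deriv th s ^ 2 ≤ 4 * (C₁ / ℓ) ^ 2 * (th s * (1 - th s))) ∧
    (∀ s, th s ≠ 1 → th0 s = 1) ∧ (∀ s, deriv th0 s ^ 2 ≤ (C₁ / ℓ) ^ 2) ∧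
    ∀ s, 2 * ℓ / 3 ≤ s → deriv th0 s = 0 := by
  obtain ⟨Cs, hCs, hb⟩ := exists_Cs
  refine ⟨6 * Cs, by positivity, fun ℓ hℓ => ⟨fun s => Real.cos (Real.pi / 2 *
    Real.smoothTransition (3 / ℓ * s + -1)) ^ 2, fun s => Real.smoothTransition (3 / ℓ * s + 0),
    (Real.contDiff_cos.comp (contDiff_const.mul (sg_aff_c1 _ _))).pow 2, sg_aff_c1 _ _, ?_, ?_,
    fun s => ⟨sq_nonneg _, Real.cos_sq_le_one _⟩, fun s hs => ?_, fun s => ?_, fun s hs => ?_,
    fun s => ?_, fun s hs => ?_⟩⟩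
  · simp [Real.smoothTransition.zero_of_nonpos]
  · simp
  · have : 1 ≤ 3 / ℓ * s + -1 := by
      have : 3 / ℓ * (2 * ℓ / 3) ≤ 3 / ℓ * s := by gcongr
      have e : 3 / ℓ * (2 * ℓ / 3) = 2 := by field_simp
      linarith
    simp [Real.smoothTransition.one_of_one_le this]
  · have h := (((sg_aff (3 / ℓ) (-1) s).const_mul (Real.pi / 2)).cos.pow 2).deriv
    have h' : deriv (fun s => Real.cos (Real.pi / 2 *
        Real.smoothTransition (3 / ℓ * s + -1)) ^ 2) s = _ := h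
    rw [h']
    set y := Real.pi / 2 * Real.smoothTransition (3 / ℓ * s + -1)
    set z := deriv Real.smoothTransition (3 / ℓ * s + -1)
    have hz : z ^ 2 ≤ Cs ^ 2 := by rw [← sq_abs]; exact pow_le_pow_left₀ (abs_nonneg _) (hb _) 2
    have hp : Real.pi ^ 2 ≤ 16 := by nlinarith [Real.pi_le_four, Real.pi_pos]
    have h3 : Real.pi ^ 2 * z ^ 2 ≤ 16 * Cs ^ 2 := mul_le_mul hp hz (sq_nonneg _) (by norm_num)
    rw [← Real.sin_sq]
    have e1 : (((2 : ℕ) : ℝ) * Real.cos y ^ (2 - 1) * (-Real.sin y * (Real.pi / 2 * (z * (3 / ℓ))))) ^ 2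
        = (9 / ℓ ^ 2 * (Real.cos y ^ 2 * Real.sin y ^ 2)) * (Real.pi ^ 2 * z ^ 2) := by
      push_cast; field_simp; ring
    have e2 : 4 * (6 * Cs / ℓ) ^ 2 * (Real.cos y ^ 2 * Real.sin y ^ 2)
        = (9 / ℓ ^ 2 * (Real.cos y ^ 2 * Real.sin y ^ 2)) * (16 * Cs ^ 2) := by
      field_simp; ring
    rw [e1, e2]
    exact mul_le_mul_of_nonneg_left h3 (by positivity)
  · refine Real.smoothTransition.one_of_one_le ?_
    by_contra h
    apply hs
    simp [Real.smoothTransition.zero_of_nonpos (show 3 / ℓ * s + -1 ≤ 0 by linarith)]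
  · rw [(sg_aff _ _ s).deriv]
    set z := deriv Real.smoothTransition (3 / ℓ * s + 0)
    have hz : z ^ 2 ≤ Cs ^ 2 := by rw [← sq_abs]; exact pow_le_pow_left₀ (abs_nonneg _) (hb _) 2
    have e1 : (z * (3 / ℓ)) ^ 2 = 9 / ℓ ^ 2 * z ^ 2 := by field_simp; ring
    have e2 : (6 * Cs / ℓ) ^ 2 = 9 / ℓ ^ 2 * (4 * Cs ^ 2) := by field_simp; ring
    rw [e1, e2]
    exact mul_le_mul_of_nonneg_left (by nlinarith) (by positivity)
  · have : 1 ≤ 3 / ℓ * s + 0 := by
      have : 3 / ℓ * (2 * ℓ / 3) ≤ 3 / ℓ * s := by gcongr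
      have e : 3 / ℓ * (2 * ℓ / 3) = 2 := by field_simp
      linarith
    rw [(sg_aff _ _ s).deriv, sg_deriv_zero (.inr this), zero_mul]

theorem prof2 : ∃ C₂ : ℝ, 0 ≤ C₂ ∧ ∀ ℓ : ℝ, ∃ th : ℝ → ℝ, ContDiff ℝ 1 th ∧
    (∀ s, th s ∈ Icc (0 : ℝ) 1) ∧ (∀ s, s ≤ ℓ - 1 → th s = 1 ∧ deriv th s = 0) ∧
    (∀ s, ℓ - 1 / 2 ≤ s → th s = 0) ∧ ∀ s, |deriv th s| ≤ C₂ := by
  obtain ⟨Cs, hCs, hb⟩ := exists_Cs
  refine ⟨2 * Cs, by positivity, fun ℓ => ⟨fun s => Real.smoothTransition (-2 * s + (2 * ℓ - 1)),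
    sg_aff_c1 _ _, fun s => ⟨Real.smoothTransition.nonneg _, Real.smoothTransition.le_one _⟩,
    fun s hs => ⟨Real.smoothTransition.one_of_one_le (by linarith), ?_⟩,
    fun s hs => Real.smoothTransition.zero_of_nonpos (by linarith), fun s => ?_⟩⟩
  · rw [(sg_aff _ _ s).deriv, sg_deriv_zero (.inr (by linarith)), zero_mul]
  · rw [(sg_aff _ _ s).deriv, abs_mul, mul_comm]
    have := hb (-2 * s + (2 * ℓ - 1))
    rw [abs_neg, abs_two]; linarith

/-! ### facts on the neck data -/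

variable {n : ℕ} {g F : MetricField n} {η Λ ℓ m A Q : ℝ} {d U : E n → ℝ} {EE : VectorField n}

theorem eSq_nonneg (hF : Fr g F) (x : E n) : 0 ≤ eSq g EE x := by
  rw [← norm_fvec_sq hF]; positivity

theorem eSq_le (h : N346.Neck n η Λ ℓ m A Q g d U EE) (hΛ : 1 ≤ Λ) :
    ∃ B : ℝ, 0 ≤ B ∧ ∀ x, eSq g EE x ≤ B * (1 + ‖x‖) ^ (-(2 * (n : ℝ) - 2)) := by
  obtain ⟨C, hC⟩ := h.EE_decay
  refine ⟨Λ ^ n * (Λ * (n * C ^ 2)), by positivity, fun x => ?_⟩
  have h1 : vecNormSq g EE x ≤ Λ * ‖(WithLp.toLp 2 (EE x) : E n)‖ ^ 2 := h.g_hi x (WithLp.toLp 2 (EE x))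
  have h2 : ‖(WithLp.toLp 2 (EE x) : E n)‖ ^ 2 ≤ n * C ^ 2 * (1 + ‖x‖) ^ (-(2 * (n : ℝ) - 2)) := by
    rw [norm_sq_eq]
    have e : (1 + ‖x‖) ^ (-(2 * (n : ℝ) - 2)) = ((1 + ‖x‖) ^ (1 - (n : ℝ))) ^ 2 := by
      rw [← Real.rpow_natCast, ← Real.rpow_mul (by positivity)]; congr 1; push_cast; ring
    calc ∑ i, EE x i * EE x i ≤ ∑ _i : Fin n, (C * (1 + ‖x‖) ^ (1 - (n : ℝ))) ^ 2 :=
          Finset.sum_le_sum fun i _ => by
            rw [← sq, ← sq_abs]; exact pow_le_pow_left₀ (abs_nonneg _) (hC x i) 2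
      _ = _ := by rw [e]; simp; ring
  have h3 : (Λ⁻¹) ^ n ≤ (g x).det := le_det h.riem (by positivity) (h.g_lo x)
  have h4 : 0 < (Λ⁻¹) ^ n := by positivity
  have h5 : vecNormSq g EE x ≤ Λ * (n * C ^ 2 * (1 + ‖x‖) ^ (-(2 * (n : ℝ) - 2))) :=
    h1.trans (by gcongr)
  calc eSq g EE x ≤ Λ * (n * C ^ 2 * (1 + ‖x‖) ^ (-(2 * (n : ℝ) - 2))) / (Λ⁻¹) ^ n := by
        unfold eSq; gcongr
    _ = _ := by rw [inv_pow, div_inv_eq_mul]; ring

theorem cont_eSq (h : N346.Neck n η Λ ℓ m A Q g d U EE) (hF : Fr g F) : Continuous (eSq g EE) := by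
  rw [← funext (norm_fvec_sq hF EE)]
  exact (continuous_fvec hF fun i => (h.EE_smooth i).continuous).norm.pow 2

theorem int_eSq (hn : 3 ≤ n) (h : N346.Neck n η Λ ℓ m A Q g d U EE) (hF : Fr g F) (hΛ : 1 ≤ Λ) :
    Integrable (eSq g EE) (nu g) := by
  obtain ⟨B, hB, hb⟩ := eSq_le h hΛ
  have h3 : (3 : ℝ) ≤ n := by exact_mod_cast hn
  refine integrable_nu hF (((integrable_one_add_norm (E := E n) (μ := volume)
    (r := 2 * (n : ℝ) - 2) (by simp; linarith)).const_mul B).mono'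
    (cont_eSq h hF).aestronglyMeasurable (ae_of_all _ fun x => ?_))
  rw [Real.norm_of_nonneg (eSq_nonneg hF x)]; exact hb x

theorem bdd_eSq (hn : 3 ≤ n) (h : N346.Neck n η Λ ℓ m A Q g d U EE) (hΛ : 1 ≤ Λ) :
    ∃ B : ℝ, ∀ x, eSq g EE x ≤ B := by
  obtain ⟨B, hB, hb⟩ := eSq_le h hΛ
  have h3 : (3 : ℝ) ≤ n := by exact_mod_cast hn
  exact ⟨B, fun x => (hb x).trans (mul_le_of_le_one_right hB
    (Real.rpow_le_one_of_one_le_of_nonpos (by simp) (by linarith)))⟩

theorem fgrad_d (h : N346.Neck n η Λ ℓ m A Q g d U EE) {φ : ℝ → ℝ} (hφ : ContDiff ℝ 1 φ) (x : E n) :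
    fgrad F (fun y => φ (d y)) x = deriv φ (d x) • fgrad F d x :=
  fgrad_of_pd (pd_comp (hφ.differentiable one_ne_zero _).hasDerivAt (smooth_diff h.d_smooth x))

theorem hcs_d (h : N346.Neck n η Λ ℓ m A Q g d U EE) (φ : ℝ → ℝ) :
    HasCompactSupport fun x => φ (d x) - φ 0 :=
  hasCompactSupport_of_far (R := Λ) fun y hy => by rw [h.d_far y hy.le, sub_self]

theorem dd_d (h : N346.Neck n η Λ ℓ m A Q g d U EE) (hF : Fr g F) {φ : ℝ → ℝ}
    (hφ : ContDiff ℝ 1 φ) : DD g F (fun y => φ (d y)) (φ 0) (fgrad F fun y => φ (d y)) :=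
  of_contDiff hF (hφ.comp (smooth_one h.d_smooth)) (hcs_d h φ)

theorem norm_sq_d (h : N346.Neck n η Λ ℓ m A Q g d U EE) (hF : Fr g F) {φ : ℝ → ℝ}
    (hφ : ContDiff ℝ 1 φ) (x : E n) :
    ‖fgrad F (fun y => φ (d y)) x‖ ^ 2 = deriv φ (d x) ^ 2 * gradSq g d x := by
  rw [fgrad_d h hφ, norm_smul, mul_pow, norm_fgrad_sq hF, Real.norm_eq_abs, sq_abs]

theorem norm_d (h : N346.Neck n η Λ ℓ m A Q g d U EE) (hF : Fr g F) {φ : ℝ → ℝ}
    (hφ : ContDiff ℝ 1 φ) (x : E n) :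
    ‖fgrad F (fun y => φ (d y)) x‖ = |deriv φ (d x)| * √(gradSq g d x) := by
  rw [fgrad_d h hφ, norm_smul, norm_fgrad hF, Real.norm_eq_abs]

theorem gradSq_zero (h : N346.Neck n η Λ ℓ m A Q g d U EE) {x : E n} (hx : d x = 0) :
    gradSq g d x = 0 := by
  have : fderiv ℝ d x = 0 := IsLocalMin.fderiv_eq_zero (.of_forall fun y => hx ▸ h.d_nonneg y)
  exact gradDot_of_zero fun i => by simp [pderiv, this]

theorem far_of_d (h : N346.Neck n η Λ ℓ m A Q g d U EE) {x : E n} (hx : d x ≠ 0) : ‖x‖ ≤ Λ := by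
  by_contra h1; exact hx (h.d_far x (not_le.1 h1).le)

theorem int_divE (h : N346.Neck n η Λ ℓ m A Q g d U EE) (hℓ : 0 < ℓ) : Integrable (divE EE) :=
  (contDiff_divE h.EE_smooth).continuous.integrable_of_hasCompactSupport
    (hasCompactSupport_of_far (R := Λ) fun y hy => h.EE_div y (by rw [h.d_far y hy.le]; exact hℓ))

theorem flux_eq' (hn : 3 ≤ n) (h : N346.Neck n η Λ ℓ m A Q g d U EE) (hF : Fr g F) (hΛ : 1 ≤ Λ)
    (hℓ : 0 < ℓ) {u : E n → ℝ} {c : ℝ} {G : E n → E n} (hu : DD g F u c G)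
    (h0 : ∀ x, ℓ ≤ d x → u x = 0) :
    ∫ x, ⟪fvec g F EE x, G x⟫_ℝ ∂(nu g) = c * (unitSphereArea n * Q) := by
  have h2 : MemLp (fvec g F EE) 2 (nu g) := by
    rw [memLp_two_iff_integrable_sq_norm
      (continuous_fvec hF fun i => (h.EE_smooth i).continuous).aestronglyMeasurable]
    simpa only [norm_fvec_sq hF] using int_eSq hn h hF hΛ
  rw [dd_ibp hF hu (fun i => smooth_one (h.EE_smooth i)) h2 (int_divE h hℓ), ← h.charge,
    ← integral_const_mul, ← integral_neg]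
  refine integral_congr_ae (ae_of_all _ fun x => ?_)
  rcases lt_or_ge (d x) ℓ with hx | hx
  · simp [h.EE_div x hx]
  · simp [h0 x hx]

end NK
open NK Crest.Agent.N346.Bs

theorem neck : ShieldStmt → NeckStmt := by
  rintro ⟨C', hC', hsh⟩
  obtain ⟨C₁, hC₁, hp1⟩ := prof1
  obtain ⟨C₂, hC₂, hp2⟩ := prof2
  refine ⟨3 * (C' + 1) + 4 * C₁, by linarith, ?_⟩
  intro n hn η τ₀ Λ ℓ m A Q g F d U EE h hF hη hτ hτ1 hΛ hℓ 𝒟 hD
  set C := 3 * (C' + 1) + 4 * C₁ with hC
  have hlog : 0 ≤ Real.log Λ := Real.log_nonneg hΛ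
  have hℓ1 : 2 * ℓ / 3 + C' * (1 + Real.log Λ) ≤ ℓ - 1 := by nlinarith
  have hℓ3 : 2 * ℓ / 3 ≤ ℓ - 1 := by nlinarith
  have hℓ0 : 0 < ℓ := by linarith
  have h3 : (3 : ℝ) ≤ n := by exact_mod_cast hn
  have ha0 : 0 < aa n := by unfold aa; exact one_div_pos.2 (by linarith)
  have ha1 : aa n ≤ 1 := by unfold aa; exact (div_le_one (by linarith)).2 (by linarith)
  set k := 1 + aa n + τ₀ with hk
  have hk0 : 0 < k := by linarith
  have hk3 : k ≤ 3 := by linarith
  set ce := (1 - η) / (2 * k) with hce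
  have hce0 : 0 ≤ ce := div_nonneg (by linarith) (by linarith)
  set W₁ : E n → ℝ := fun x => ce * eSq g EE x + gradSq g d x / (4 * k) with hW₁
  have hgs := gradSq_nonneg h.riem d
  have hes := fun x => eSq_nonneg (EE := EE) hF x
  have hW₁0 : ∀ x, 0 ≤ W₁ x := fun x => by have := hgs x; have := hes x; positivity
  have cgs : Continuous (gradSq g d) := (contDiff_gradSq h.riem h.d_smooth).continuous
  have cW₁ : Continuous W₁ := (continuous_const.mul (cont_eSq h hF)).add (cgs.div_const _)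
  have iW₁ : Integrable W₁ (nu g) := ((int_eSq hn h hF hΛ).const_mul ce).add
    ((int_cs hF cgs (hasCompactSupport_of_far (R := Λ) fun y hy =>
      gradSq_zero h (h.d_far y hy.le))).div_const _)
  have hΛ0 : 0 < Λ := by linarith
  have u0D : DD g F (fun x => 1 - eta Λ x) 1 (fgrad F fun x => 1 - eta Λ x) :=
    of_contDiff hF (contDiff_const.sub (smooth_one (contDiff_eta Λ)))
      (hasCompactSupport_of_far (R := 2 * Λ) fun y hy => by simp [eta_eq_zero hΛ0 hy.le])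
  refine ⟨fun x => 1 - eta Λ x, fgrad F fun x => 1 - eta Λ x,
    Qf (nu g) W₁ (fun x => 1 - eta Λ x) (fgrad F fun x => 1 - eta Λ x), hD ▸ u0D,
    fun x => ⟨by linarith [eta_le_one Λ x], by linarith [eta_nonneg Λ x]⟩, fun s hs => ?_⟩
  set K := C₂ / s with hK
  have hK0 : 0 ≤ K := by positivity
  obtain ⟨B, hB⟩ := (isCompact_closedBall (0 : E n) Λ).exists_bound_of_continuousOn
    (continuous_scalarCurv h.riem).continuousOn
  have hB0 : 0 ≤ B := (norm_nonneg _).trans (hB 0 (by simpa using hΛ0.le))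
  obtain ⟨PP, cPP, PP0, PPm, PPnn, PPle, PPd⟩ := hsh Λ hΛ (2 * ℓ / 3) (√(k * K + B / 4))
    (Real.sqrt_nonneg _)
  have cPP1 : ContDiff ℝ 1 PP := cPP.of_le (by simp)
  obtain ⟨th, th0, cth, cth0, th_0, th0_0, thm, thz, thd, th01, th0d, th0z⟩ := hp1 ℓ hℓ0
  obtain ⟨th2, cth2, th2m, th2o, th2z, th2d⟩ := hp2 ℓ
  set W : E n → ℝ := fun x => if d x < 2 * ℓ / 3 then W₁ x else if ℓ - 1 ≤ d x then K else 0
    with hW
  have hWa : ∀ x, d x < 2 * ℓ / 3 → W x = W₁ x := fun x hx => if_pos hx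
  have hWb : ∀ x, ℓ - 1 ≤ d x → W x = K := fun x hx => by
    simp only [hW]; rw [if_neg (by linarith), if_pos hx]
  have hWc : ∀ x, 2 * ℓ / 3 ≤ d x → d x < ℓ - 1 → W x = 0 := fun x hx hx' => by
    simp only [hW]; rw [if_neg (by linarith), if_neg (by linarith)]
  have hW0 : ∀ x, 0 ≤ W x := fun x => by
    simp only [hW]; split_ifs
    exacts [hW₁0 x, hK0, le_rfl]
  have cd : Continuous d := h.d_smooth.continuous
  have m1 : MeasurableSet {x | d x < 2 * ℓ / 3} := (isOpen_lt cd continuous_const).measurableSet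
  have m2 : MeasurableSet {x | ℓ - 1 ≤ d x} := (isClosed_le continuous_const cd).measurableSet
  have mW : Measurable W :=
    Measurable.ite m1 cW₁.measurable (Measurable.ite m2 measurable_const measurable_const)
  have hWle : ∀ x, W x ≤ W₁ x + K * eta Λ x := fun x => by
    have := hW₁0 x
    have := mul_nonneg hK0 (eta_nonneg Λ x)
    simp only [hW]; split_ifs with h1 h2
    · linarith
    · rw [eta_eq_one hΛ0 (far_of_d h (by linarith))]; linarith
    · linarith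
  have hC1 : 12 * (C₁ / ℓ) ^ 2 ≤ (C / ℓ) ^ 2 := by
    rw [div_pow, div_pow, ← mul_div_assoc]
    gcongr
    nlinarith
  have hgW : ∀ x, d x < 2 * ℓ / 3 → gradSq g d x ≤ 12 * W x := fun x hx => by
    rw [hWa x hx]
    have h1 : gradSq g d x / 12 ≤ gradSq g d x / (4 * k) :=
      div_le_div_of_nonneg_left (hgs x) (by linarith) (by linarith)
    have := mul_nonneg hce0 (hes x)
    simp only [hW₁]; linarith
  have PP00 : PP 0 = 0 := PP0 0 (by linarith)
  have hPc : HasCompactSupport fun x => PP (d x) := by simpa [PP00] using hcs_d h PP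
  have θD : DD g F (fun y => th (d y)) 1 (fgrad F fun y => th (d y)) := th_0 ▸ dd_d h hF cth
  have dθz : ∀ x, 2 * ℓ / 3 ≤ d x → (fgrad F fun y => th (d y)) x = 0 := fun x hx => by
    have := thd (d x)
    rw [thz _ hx, zero_mul, mul_zero] at this
    rw [fgrad_d h cth, pow_eq_zero_iff (two_ne_zero) |>.1 (le_antisymm this (sq_nonneg _)), zero_smul]
  refine ⟨{ W := W
            ρ := fun x => scalarCurv g x / 4
            P := fun x => PP (d x)
            θ := fun x => th (d x)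
            θ₀ := fun x => th0 (d x)
            e := fun x => if d x < 2 * ℓ / 3 then √ce • fvec g F EE x else 0
            dP := fgrad F fun y => PP (d y)
            dθ := fgrad F fun y => th (d y)
            dθ₀ := fgrad F fun y => th0 (d y)
            W_meas := mW
            W_nonneg := hW0
            W_bdd := ?_
            W_int := ?_
            e_meas := ?_
            e_le := fun x => ?_
            P_D := hD ▸ (PP00 ▸ dd_d h hF cPP1)
            P_nonneg := fun x => PPnn _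
            P_int := int_cs hF (cPP.continuous.comp cd) hPc
            dP_int := int_cs hF (continuous_fgrad hF (cPP1.comp (smooth_one h.d_smooth)))
              (hcs_fgrad (hcs_d h PP))
            curv := fun x => ?_
            θ_D := hD ▸ θD
            θ_mem := fun x => thm _
            dθ_le := fun x => ?_
            θ_P := fun x => ?_
            θ₀_D := hD ▸ (th0_0 ▸ dd_d h hF cth0)
            θ₀_one := fun x hx => th01 _ hx
            dθ₀_le := fun x => ?_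
            flux := fun {u c G} hu => ?_ }, rfl, ?_,
    fun y => th2 (d y), fgrad F fun y => th2 (d y),
    hD ▸ ((th2o 0 (by linarith)).1 ▸ dd_d h hF cth2), fun x => th2m _, fun x => ?_,
    fun x hx => th2z _ hx, fun x hx => ?_⟩
  · obtain ⟨M, hM⟩ := bdd_eSq hn h hΛ
    refine ⟨ce * M + 1 / (4 * k) + K, fun x => (hWle x).trans ?_⟩
    have h1 := hM x
    have h2 := h.d_lip x
    have h4 := eta_le_one Λ x
    simp only [hW₁]
    gcongr
    exact mul_le_of_le_one_right hK0 h4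
  · refine (iW₁.add ((int_cs hF (contDiff_eta Λ).continuous
      (hasCompactSupport_eta hΛ0)).const_mul K)).mono' mW.aestronglyMeasurable
      (ae_of_all _ fun x => ?_)
    rw [Real.norm_of_nonneg (hW0 x)]; exact hWle x
  · exact (Measurable.ite m1 ((continuous_fvec hF fun i =>
      (h.EE_smooth i).continuous).const_smul √ce).measurable measurable_const).aestronglyMeasurable
  · split_ifs with hx
    · rw [hWa x hx, norm_smul, mul_pow, norm_fvec_sq hF, Real.norm_eq_abs, sq_abs,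
        Real.sq_sqrt hce0]
      have := hgs x
      simp only [hW₁]
      exact le_add_of_nonneg_right (by positivity)
    · simpa using hW0 x
  · rw [norm_d h hF cPP1]
    have hΛi : 0 < Λ⁻¹ := inv_pos.2 hΛ0
    rcases lt_or_ge (d x) (2 * ℓ / 3) with hx | hx
    · have e1 : deriv PP (d x) = 0 := IsLocalMin.deriv_eq_zero (.of_forall fun y => by
        rw [PP0 _ hx.le]; exact PPnn y)
      have e2 : k * W₁ x = (2 * (1 - η) * eSq g EE x + gradSq g d x) / 4 := by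
        simp only [hW₁, hce]; field_simp; ring
      rw [hWa x hx, e1, PP0 _ hx.le, e2]
      rcases (h.d_nonneg x).eq_or_lt with h0 | h0
      · have := h.R_out x (by linarith)
        rw [gradSq_zero h h0.symm]; simp; linarith
      · have := h.R_neck x h0 (by linarith)
        simp; linarith
    rcases lt_or_ge (d x) (ℓ - 1) with hx' | hx'
    · have h1 := h.R_neck x (by linarith) (by linarith)
      have h2 := PPd (d x) √(gradSq g d x) ⟨Real.sqrt_nonneg _, Real.sqrt_le_one.2 (h.d_lip x)⟩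
      rw [Real.sq_sqrt (hgs x)] at h2
      have h4 : 0 ≤ 2 * (1 - η) * eSq g EE x := mul_nonneg (by linarith) (hes x)
      rw [hWc x hx hx']; linarith
    · have e0 := PPm (d x) (by linarith)
      have e1 : deriv PP (d x) = 0 := IsLocalMax.deriv_eq_zero (.of_forall fun y => by
        rw [e0]; exact PPle y)
      have h1 := (abs_le.1 (hB x (by simpa using far_of_d h (x := x) (by linarith)))).1
      rw [hWb x hx', e1, e0, Real.sq_sqrt (by positivity)]
      simp; linarith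
  · rcases lt_or_ge (d x) (2 * ℓ / 3) with hx | hx
    · rw [norm_sq_d h hF cth]
      have h1 : 0 ≤ th (d x) * (1 - th (d x)) := mul_nonneg (thm _).1 (by linarith [(thm (d x)).2])
      calc deriv th (d x) ^ 2 * gradSq g d x
          ≤ (4 * (C₁ / ℓ) ^ 2 * (th (d x) * (1 - th (d x)))) * (12 * W x) :=
            mul_le_mul (thd _) (hgW x hx) (hgs x) (by positivity)
        _ = 4 * (12 * (C₁ / ℓ) ^ 2) * (th (d x) * (1 - th (d x))) * W x := by ring
        _ ≤ _ := by have := hW0 x; gcongr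
    · simp [dθz x hx, thz _ hx]
  · rcases le_total (d x) (2 * ℓ / 3) with hx | hx
    · simp [PP0 _ hx]
    · simp [thz _ hx]
  · rw [norm_sq_d h hF cth0]
    rcases lt_or_ge (d x) (2 * ℓ / 3) with hx | hx
    · calc deriv th0 (d x) ^ 2 * gradSq g d x ≤ (C₁ / ℓ) ^ 2 * (12 * W x) :=
            mul_le_mul (th0d _) (hgW x hx) (hgs x) (by positivity)
        _ = (12 * (C₁ / ℓ) ^ 2) * W x := by ring
        _ ≤ _ := by have := hW0 x; gcongr
    · have := hW0 x
      rw [th0z _ hx]; simp; positivity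
  · have h1 := 𝒟.mul (hD ▸ θD) hu
    rw [hD, one_mul] at h1
    have h2 := flux_eq' hn h hF hΛ hℓ0 h1 fun x hx => by rw [thz _ (by linarith), zero_mul]
    have e : c * qq n η τ₀ Q = √ce * (c * (unitSphereArea n * Q)) := by
      simp only [qq, hce, hk]; ring
    rw [e, ← h2, ← integral_const_mul]
    refine integral_congr_ae (ae_of_all _ fun x => ?_)
    simp only
    split_ifs with hx
    · rw [real_inner_smul_left]
    · simp [dθz x (not_lt.1 hx), thz _ (not_lt.1 hx)]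
  · refine le_of_eq (integral_congr_ae (ae_of_all _ fun x => ?_))
    simp only
    rcases le_total ‖x‖ Λ with hx | hx
    · simp [eta_eq_one hΛ0 hx]
    · rw [hWa x (by rw [h.d_far x hx]; linarith)]
  · simp only
    rw [norm_d h hF cth2]
    rcases lt_or_ge (d x) (ℓ - 1) with hx | hx
    · have := hW0 x
      rw [(th2o _ hx.le).2]; simp; positivity
    · rw [hWb x hx, hK, mul_div_cancel₀ _ hs.ne']
      exact (mul_le_of_le_one_right (abs_nonneg _) (Real.sqrt_le_one.2 (h.d_lip x))).trans (th2d _)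
  · have : d x = 0 := h.d_far x (by simpa using (not_le.1 (by simpa using hx)).le)
    exact (th2o _ (by rw [this]; linarith)).1

end Crest.Agent.N346.P2

end
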