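import Crest.Agent.N346.P2.Abs

-- ▼ part N346/P2/Prof
section

/-! Row 346, P2a: the one-dimensional profiles, as splines of truncated powers (helper20). -/

set_option autoImplicit false
open Set

noncomputable section
namespace Crest.Agent.N346.P2
namespace Prf

/-- truncated power -/
def tp (k : ℕ) (x : ℝ) : ℝ := max x 0 ^ k

theorem tp_nonneg (k : ℕ) (x : ℝ) : 0 ≤ tp k x := pow_nonneg (le_max_right _ _) k

theorem tp_of_nonneg (k : ℕ) {x : ℝ} (h : 0 ≤ x) : tp k x = x ^ k := by rw [tp, max_eq_left h]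

theorem tp_of_nonpos (k : ℕ) {x : ℝ} (h : x ≤ 0) : tp (k + 1) x = 0 := by
  rw [tp, max_eq_right h, zero_pow k.succ_ne_zero]

@[fun_prop] theorem continuous_tp (k : ℕ) : Continuous (tp k) := by unfold tp; fun_prop

theorem hasDerivAt_tp (k : ℕ) (x : ℝ) :
    HasDerivAt (tp (k + 2)) (((k : ℝ) + 2) * tp (k + 1) x) x := by
  rcases lt_trichotomy x 0 with h | rfl | h
  · rw [tp_of_nonpos k h.le, mul_zero]
    refine (hasDerivAt_const x (0 : ℝ)).congr_of_eventuallyEq ?_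
    filter_upwards [Iio_mem_nhds h] with y hy using tp_of_nonpos (k + 1) (le_of_lt hy)
  · rw [tp_of_nonpos k le_rfl, mul_zero, hasDerivAt_iff_tendsto_slope_zero]
    have h1 := ((continuous_tp (k + 1)).tendsto 0).mono_left
      (nhdsWithin_le_nhds (s := {(0 : ℝ)}ᶜ))
    rw [tp_of_nonpos k le_rfl] at h1
    refine h1.congr' ?_
    filter_upwards [self_mem_nhdsWithin] with t ht
    have ht' : t ≠ 0 := ht
    rw [zero_add, tp_of_nonpos (k + 1) le_rfl, sub_zero, smul_eq_mul]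
    rcases le_total t 0 with h | h
    · rw [tp_of_nonpos k h, tp_of_nonpos (k + 1) h, mul_zero]
    · rw [tp_of_nonneg _ h, tp_of_nonneg _ h]; field_simp; ring
  · rw [tp_of_nonneg _ h.le]
    refine ((hasDerivAt_pow (k + 2) x).congr_deriv (by push_cast; rfl)).congr_of_eventuallyEq ?_
    filter_upwards [Ioi_mem_nhds h] with y hy using tp_of_nonneg _ (le_of_lt hy)

theorem hasDerivAt_tp_aff (k : ℕ) (a b x : ℝ) :
    HasDerivAt (fun s => tp (k + 2) (a * s + b)) (((k : ℝ) + 2) * tp (k + 1) (a * x + b) * a) x := by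
  have h : HasDerivAt (fun s => a * s + b) a x := by
    simpa using ((hasDerivAt_id x).const_mul a).add_const b
  exact (hasDerivAt_tp k (a * x + b)).comp x h

theorem mvt {f f' : ℝ → ℝ} (hf : ∀ t, HasDerivAt f (f' t) t) (h0 : f 0 = 0) {r C : ℝ}
    (hC : ∀ t, |t| ≤ r → |f' t| ≤ C) {t : ℝ} (ht : |t| ≤ r) : |f t| ≤ C * r := by
  have hr : 0 ≤ r := (abs_nonneg _).trans ht
  have := (convex_Icc (-r) r).norm_image_sub_le_of_norm_hasDerivWithin_le (f := f) (f' := f')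
    (C := C) (x := 0) (y := t) (fun x _ => (hf x).hasDerivWithinAt)
    (fun x hx => hC x (abs_le.2 hx)) ⟨by linarith, hr⟩ (abs_le.1 ht)
  rw [h0, sub_zero, sub_zero, Real.norm_eq_abs, Real.norm_eq_abs] at this
  exact this.trans (mul_le_mul_of_nonneg_left ht ((abs_nonneg _).trans (hC 0 (by simpa using hr))))

theorem taylor3 {F F₁ F₂ F₃ : ℝ → ℝ} (h₁ : ∀ t, HasDerivAt F (F₁ t) t)
    (h₂ : ∀ t, HasDerivAt F₁ (F₂ t) t) (h₃ : ∀ t, HasDerivAt F₂ (F₃ t) t) (hc : Continuous F₃) :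
    ∃ K : ℝ, ∀ s ∈ Icc (0 : ℝ) 1, ∀ h : ℝ, |h| ≤ 1 →
      |F (s + h) - F s - F₁ s * h - F₂ s / 2 * h ^ 2| ≤ K * |h| ^ 3 := by
  obtain ⟨K, hK⟩ := (isCompact_Icc (a := (-1 : ℝ)) (b := 2)).exists_bound_of_continuousOn
    hc.continuousOn
  refine ⟨K, fun s hs h hh => ?_⟩
  have sh : ∀ {G G' : ℝ → ℝ}, (∀ t, HasDerivAt G (G' t) t) → ∀ t,
      HasDerivAt (fun t => G (s + t)) (G' (s + t)) t := fun hG t => (hG (s + t)).comp_const_add s t
  have a3 : ∀ t, |t| ≤ |h| → |F₂ (s + t) - F₂ s| ≤ K * |h| := fun t ht =>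
    mvt (fun t => (sh h₃ t).sub_const (F₂ s)) (by simp) (fun u hu => hK _ (by
      have := abs_le.1 (hu.trans hh)
      constructor <;> linarith [hs.1, hs.2])) ht
  have a2 : ∀ t, |t| ≤ |h| → |F₁ (s + t) - F₁ s - F₂ s * t| ≤ K * |h| * |h| := fun t ht =>
    mvt (f := fun t => F₁ (s + t) - F₁ s - F₂ s * t) (fun t => by
      simpa using ((sh h₂ t).sub_const (F₁ s)).fun_sub ((hasDerivAt_id t).const_mul (F₂ s)))
      (by simp) a3 ht
  refine (mvt (f := fun t => F (s + t) - F s - F₁ s * t - F₂ s / 2 * t ^ 2) (fun t => ?_) (by simp) a2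
    le_rfl).trans_eq (by ring)
  refine ((((sh h₁ t).sub_const (F s)).fun_sub ((hasDerivAt_id t).const_mul (F₁ s))).fun_sub
    ((hasDerivAt_pow 2 t).const_mul (F₂ s / 2))).congr_deriv ?_
  push_cast; ring

/-- the spline of order `k` with knots `0, 1/2, 1` -/
def sp (k : ℕ) (v : ℝ) : ℝ := tp k v - 2 * tp k (v - 1 / 2) + tp k (v - 1)

theorem hasDerivAt_sp (k : ℕ) (a b x : ℝ) :
    HasDerivAt (fun s => sp (k + 2) (a * s + b)) (((k : ℝ) + 2) * sp (k + 1) (a * x + b) * a) x := by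
  simp only [sp, add_sub_assoc]
  refine (((hasDerivAt_tp_aff k a b x).fun_sub
    ((hasDerivAt_tp_aff k a (b - 1 / 2) x).const_mul 2)).fun_add
    (hasDerivAt_tp_aff k a (b - 1) x)).congr_deriv ?_
  ring

theorem sp_of_nonpos (k : ℕ) {v : ℝ} (h : v ≤ 0) : sp (k + 1) v = 0 := by
  rw [sp, tp_of_nonpos k h, tp_of_nonpos k (by linarith), tp_of_nonpos k (by linarith)]; ring

theorem sp_of_one_le {v : ℝ} (h : 1 ≤ v) :
    sp 1 v = 0 ∧ sp 2 v = 1 / 2 ∧ sp 3 v = 3 / 2 * (v - 1 / 2) := by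
  simp only [sp, tp_of_nonneg _ (by linarith : 0 ≤ v), tp_of_nonneg _ (by linarith : 0 ≤ v - 1 / 2),
    tp_of_nonneg _ (by linarith : 0 ≤ v - 1)]
  refine ⟨?_, ?_, ?_⟩ <;> ring

theorem sp_mid {v : ℝ} (h0 : 0 ≤ v) (h1 : v ≤ 1) :
    0 ≤ sp 1 v ∧ 0 ≤ sp 2 v ∧ sp 2 v ≤ 1 / 2 ∧ 0 ≤ sp 3 v ∧ 3 / 2 * (v - 1 / 2) ≤ sp 3 v ∧
      sp 3 v ≤ 3 * v * sp 2 v := by
  have e1 := tp_of_nonpos 0 (sub_nonpos.2 h1)
  have e2 := tp_of_nonpos 1 (sub_nonpos.2 h1)
  have e3 := tp_of_nonpos 2 (sub_nonpos.2 h1)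
  rcases le_total v (1 / 2) with h | h
  · simp only [sp, tp_of_nonneg _ h0, e1, e2, e3, tp_of_nonpos 0 (sub_nonpos.2 h),
      tp_of_nonpos 1 (sub_nonpos.2 h), tp_of_nonpos 2 (sub_nonpos.2 h)]
    refine ⟨?_, ?_, ?_, ?_, ?_, ?_⟩ <;> nlinarith [pow_nonneg h0 3, pow_nonneg h0 2]
  · simp only [sp, tp_of_nonneg _ h0, e1, e2, e3, tp_of_nonneg _ (sub_nonneg.2 h)]
    have a1 : 0 ≤ (1 - v) ^ 3 := pow_nonneg (by linarith) 3
    have a2 : (1 - v) ^ 2 ≤ 1 / 4 := by nlinarith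
    refine ⟨?_, ?_, ?_, ?_, ?_, ?_⟩ <;>
      nlinarith [sq_nonneg (1 - v), mul_nonneg h0 (sub_nonneg.2 a2)]

theorem sp_all (v : ℝ) : 0 ≤ sp 1 v ∧ 0 ≤ sp 2 v ∧ sp 2 v ≤ 1 / 2 ∧ 0 ≤ sp 3 v := by
  rcases le_total v 0 with h | h
  · simp [sp_of_nonpos 0 h, sp_of_nonpos 1 h, sp_of_nonpos 2 h]
  rcases le_total v 1 with h' | h'
  · obtain ⟨a, b, c, d, -⟩ := sp_mid h h'
    exact ⟨a, b, c, d⟩
  · obtain ⟨a, b, c⟩ := sp_of_one_le h'
    rw [a, b, c]
    refine ⟨le_rfl, by norm_num, le_rfl, by linarith⟩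

end Prf

open Prf in
theorem prof : ProfStmt := by
  refine ⟨12, by norm_num, fun ε hε hε' => ?_⟩
  have hct : 0 < 1 - 3 / 2 * ε := by linarith
  set κ := (1 - 3 / 2 * ε)⁻¹ with hκ
  have hκ0 : 0 < κ := by positivity
  have hκ1 : κ * (1 - 3 / 2 * ε) = 1 := inv_mul_cancel₀ hct.ne'
  have hκ2 : 1 ≤ κ := by nlinarith
  have hκ3 : κ ≤ 1 + 4 * ε := by nlinarith [mul_pos hε hε]
  set e := ε⁻¹ with he
  have he0 : 0 < e := by positivity
  have he1 : e * ε = 1 := inv_mul_cancel₀ hε.ne'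
  have hu : ∀ s, ε ≤ s → -e * s + 1 ≤ 0 := fun s hs => by nlinarith
  have hu1 : ∀ s ∈ Icc (0 : ℝ) 1, max (-e * s + 1) 0 ≤ 1 := fun s hs =>
    max_le (by nlinarith [hs.1]) zero_le_one
  have hv0 : ∀ s, s ≤ ε → e * s + -1 ≤ 0 := fun s hs => by nlinarith
  have hv1 : ∀ s, 2 * ε ≤ s → 1 ≤ e * s + -1 := fun s hs => by nlinarith
  have hv2 : ∀ s, ε ≤ s → 0 ≤ e * s + -1 := fun s hs => by nlinarith
  have hv3 : ∀ s, s ≤ 2 * ε → e * s + -1 ≤ 1 := fun s hs => by nlinarith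
  have hB1 : 2 * κ * sp 2 (e * 1 + -1) = κ := by
    rw [(sp_of_one_le (hv1 1 (by linarith))).2.1]; ring
  have hp : ∀ s, HasDerivAt (fun s => 1 - tp 4 (-e * s + 1)) (4 * e * tp 3 (-e * s + 1)) s :=
    fun s => ((hasDerivAt_tp_aff 2 (-e) 1 s).const_sub 1).congr_deriv (by push_cast; ring)
  have hp' : ∀ s, HasDerivAt (fun s => 4 * e * tp 3 (-e * s + 1))
      (-(12 * e ^ 2 * tp 2 (-e * s + 1))) s :=
    fun s => ((hasDerivAt_tp_aff 1 (-e) 1 s).const_mul _).congr_deriv (by push_cast; ring)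
  have hp'' : ∀ s, HasDerivAt (fun s => -(12 * e ^ 2 * tp 2 (-e * s + 1)))
      (24 * e ^ 3 * tp 1 (-e * s + 1)) s :=
    fun s => ((hasDerivAt_tp_aff 0 (-e) 1 s).const_mul _).fun_neg.congr_deriv (by push_cast; ring)
  have hBs : ∀ s, 2 * ε ≤ s → 2 / 3 * ε * κ * sp 3 (e * s + -1) = κ * (s - 3 / 2 * ε) := fun s hs => by
    rw [(sp_of_one_le (hv1 s hs)).2.2]
    linear_combination κ * s * he1
  refine ⟨{
    p := fun s => 1 - tp 4 (-e * s + 1)
    p' := fun s => 4 * e * tp 3 (-e * s + 1)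
    p'' := fun s => -(12 * e ^ 2 * tp 2 (-e * s + 1))
    hp := hp
    hp' := hp'
    cp'' := by fun_prop
    p_zero := by simp [tp]
    p_one := fun s hs => by simp only [tp_of_nonpos 3 (hu s hs), sub_zero]
    p'_zero := fun s hs => by simp only [tp_of_nonpos 2 (hu s hs), mul_zero]
    p''_zero := fun s hs => by simp only [tp_of_nonpos 1 (hu s hs), mul_zero, neg_zero]
    p'_nonneg := fun s => mul_nonneg (by positivity) (tp_nonneg _ _)
    p''_nonpos := fun s => neg_nonpos.2 (mul_nonneg (by positivity) (tp_nonneg _ _))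
    p_le_one := fun s => sub_le_self _ (tp_nonneg _ _)
    p'_le := fun s hs => by
      have : tp 3 (-e * s + 1) ≤ 1 := pow_le_one₀ (le_max_right _ _) (hu1 s hs)
      rw [div_eq_mul_inv, ← he]
      nlinarith
    p''_le := fun s hs => by
      have : tp 2 (-e * s + 1) ≤ 1 := pow_le_one₀ (le_max_right _ _) (hu1 s hs)
      rw [div_eq_mul_inv, ← inv_pow, ← he, neg_neg]
      nlinarith [sq_nonneg e]
    p'_le_p'' := fun s hs => by
      have h1 : tp 3 (-e * s + 1) ≤ tp 2 (-e * s + 1) :=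
        pow_le_pow_of_le_one (le_max_right _ _) (hu1 s hs) (by norm_num)
      have h2 : 12 * ε * - -(12 * e ^ 2 * tp 2 (-e * s + 1)) = 144 * e * tp 2 (-e * s + 1) := by
        linear_combination 144 * e * tp 2 (-e * s + 1) * he1
      rw [h2]
      nlinarith [mul_nonneg he0.le (tp_nonneg 2 (-e * s + 1))]
    le_p := fun s hs => by
      rcases le_total ε s with h | h
      · simp only [tp_of_nonpos 3 (hu s h), sub_zero, min_le_right]
      · refine (min_le_left _ _).trans ?_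
        have h0 : 0 ≤ -e * s + 1 := by nlinarith
        have h1 : (-e * s + 1) ^ 4 ≤ -e * s + 1 :=
          pow_le_of_le_one h0 (by nlinarith [hs.1]) (by norm_num)
        rw [tp_of_nonneg _ h0, div_eq_mul_inv, ← he]
        linarith
    mul_p'_le := fun s hs => by
      rcases le_total ε s with h | h
      · simp only [tp_of_nonpos 3 (hu s h), tp_of_nonpos 2 (hu s h)]; norm_num
      · have h0 : 0 ≤ -e * s + 1 := by nlinarith
        have h1 : -e * s + 1 ≤ 1 := by nlinarith [hs.1]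
        simp only [tp_of_nonneg _ h0]
        have h2 : s * (4 * e * (-e * s + 1) ^ 3) = 4 * (1 - (-e * s + 1)) * (-e * s + 1) ^ 3 := by
          ring
        rw [h2]
        generalize -e * s + 1 = u at h0 h1
        have h3 : u ^ 3 ≤ u ^ 2 := pow_le_pow_of_le_one h0 h1 (by norm_num)
        have h4 : u ^ 2 ≤ u := pow_le_of_le_one h0 h1 (by norm_num)
        nlinarith [mul_nonneg (sub_nonneg.2 h1)
          (by linarith : 0 ≤ 1 + u + u ^ 2 + u ^ 3 - 4 * u ^ 3)]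
    taylor := by
      obtain ⟨K, hK⟩ := taylor3 (fun s => (hp s).fun_mul (hp s))
        (fun s => ((hp' s).fun_mul (hp s)).fun_add ((hp s).fun_mul (hp' s)))
        (fun s => (((hp'' s).fun_mul (hp s)).fun_add ((hp' s).fun_mul (hp' s))).fun_add
          (((hp' s).fun_mul (hp' s)).fun_add ((hp s).fun_mul (hp'' s)))) (by fun_prop)
      refine ⟨K, fun s hs h hh => le_of_eq_of_le ?_ (hK s hs h hh)⟩
      congr 1; ring
    B := fun s => 2 / 3 * ε * κ * sp 3 (e * s + -1)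
    B' := fun s => 2 * κ * sp 2 (e * s + -1)
    B'' := fun s => 4 * κ * e * sp 1 (e * s + -1)
    hB := fun s => ((hasDerivAt_sp 1 e (-1) s).const_mul _).congr_deriv (by
      push_cast; linear_combination 2 * κ * sp 2 (e * s + -1) * he1)
    hB' := fun s => ((hasDerivAt_sp 0 e (-1) s).const_mul _).congr_deriv (by push_cast; ring)
    cB'' := by unfold sp; fun_prop
    B_zero := fun s hs => by simp only [sp_of_nonpos 2 (hv0 s hs), mul_zero]
    B'_zero := fun s hs => by simp only [sp_of_nonpos 1 (hv0 s hs), mul_zero]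
    B''_zero := fun s hs => by
      rcases hs with hs | hs
      · simp only [sp_of_nonpos 0 (hv0 s hs), mul_zero]
      · simp only [(sp_of_one_le (hv1 s hs)).1, mul_zero]
    B'_top := fun s hs => by
      simp only [(sp_of_one_le (hv1 s hs)).2.1, (sp_of_one_le (hv1 1 (by linarith))).2.1]
    B_one := by simp only [hBs 1 (by linarith), hκ1]
    B''_nonneg := fun s => mul_nonneg (by positivity) (sp_all _).1
    B'_nonneg := fun s => mul_nonneg (by positivity) (sp_all _).2.1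
    B'_le := fun s => by
      simp only [hB1]
      nlinarith [(sp_all (e * s + -1)).2.2.1]
    one_le_B'_one := by simp only [hB1, hκ2]
    B'_one_le := by simp only [hB1, hκ3]
    B_nonneg := fun s => mul_nonneg (by positivity) (sp_all _).2.2.2
    B_le := fun s hs => by
      rcases le_total s ε with h | h
      · simp only [sp_of_nonpos 2 (hv0 s h), mul_zero, hs.1]
      rcases le_total s (2 * ε) with h' | h'
      · obtain ⟨-, a1, a2, -, -, a3⟩ := sp_mid (hv2 s h) (hv3 s h')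
        have a4 : sp 3 (e * s + -1) ≤ 3 / 2 * (e * s + -1) := by nlinarith [hv2 s h]
        have a5 : ε * sp 3 (e * s + -1) ≤ 3 / 2 * (s - ε) := by nlinarith
        have a6 : κ * (s - ε) ≤ s := by nlinarith
        nlinarith
      · simp only [hBs s h']
        nlinarith [mul_nonneg (mul_nonneg hκ0.le hε.le) (sub_nonneg.2 hs.2)]
    sub_B_le := fun s hs => by
      rcases le_total s (2 * ε) with h' | h'
      · have : 0 ≤ 2 / 3 * ε * κ * sp 3 (e * s + -1) :=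
          mul_nonneg (by positivity) (sp_all _).2.2.2
        linarith
      · simp only [hBs s h']
        nlinarith
    tang_nonneg := fun s hs => by
      rcases le_total s ε with h | h
      · simp only [sp_of_nonpos 2 (hv0 s h), sp_of_nonpos 1 (hv0 s h)]; norm_num
      rcases le_total s (2 * ε) with h' | h'
      · obtain ⟨-, a1, a2, -, -, a3⟩ := sp_mid (hv2 s h) (hv3 s h')
        have a5 : ε * sp 3 (e * s + -1) ≤ 3 * (s - ε) * sp 2 (e * s + -1) := by
          refine (mul_le_mul_of_nonneg_left a3 hε.le).trans_eq ?_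
          linear_combination 3 * s * sp 2 (e * s + -1) * he1
        nlinarith [mul_le_mul_of_nonneg_left a5 hκ0.le, mul_nonneg (mul_pos hκ0 hε).le a1]
      · simp only [hBs s h', (sp_of_one_le (hv1 s h')).2.1]
        nlinarith
    tang_le := fun s hs => by
      rcases le_total s (2 * ε) with h' | h'
      · have a1 : 0 ≤ 2 / 3 * ε * κ * sp 3 (e * s + -1) :=
          mul_nonneg (by positivity) (sp_all _).2.2.2
        obtain ⟨-, a2, a3, -⟩ := sp_all (e * s + -1)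
        have a4 : 2 * κ * sp 2 (e * s + -1) ≤ 2 := by nlinarith
        nlinarith [hs.1, mul_le_mul_of_nonneg_left a4 hs.1]
      · simp only [hBs s h', (sp_of_one_le (hv1 s h')).2.1]
        nlinarith
    m := fun s => s - ε * (tp 2 (e / 2 * s + -1) - tp 2 (e / 2 * s + -2))
    m' := fun s => 1 - (tp 1 (e / 2 * s + -1) - tp 1 (e / 2 * s + -2))
    hm := fun s => ((hasDerivAt_id s).fun_sub (((hasDerivAt_tp_aff 0 (e / 2) (-1) s).fun_sub
      (hasDerivAt_tp_aff 0 (e / 2) (-2) s)).const_mul ε)).congr_deriv (by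
        push_cast
        linear_combination -(tp 1 (e / 2 * s + -1) - tp 1 (e / 2 * s + -2)) * he1)
    cm' := by fun_prop
    m'_one := fun s hs => by
      have h1 := hv3 s hs.2
      simp only [tp_of_nonpos 0 (by linarith : e / 2 * s + -1 ≤ 0),
        tp_of_nonpos 0 (by linarith : e / 2 * s + -2 ≤ 0), sub_zero]
    m'_nonneg := fun s => by
      simp only [tp, pow_one, sub_nonneg, sub_le_iff_le_add]
      exact max_le (by linarith [le_max_left (e / 2 * s + -2) 0])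
        (by linarith [le_max_right (e / 2 * s + -2) 0])
    m_nonneg := fun s hs => by
      have hs' : s = 2 * ε * (e / 2 * s + -1 + 1) := by linear_combination -s * he1
      have e2 : e / 2 * s + -2 = e / 2 * s + -1 - 1 := by ring
      simp only [e2]
      generalize e / 2 * s + -1 = w at hs'
      rcases le_total w 0 with h | h
      · simp only [tp_of_nonpos 1 h, tp_of_nonpos 1 (by linarith : w - 1 ≤ 0), sub_zero, mul_zero,
          hs.1]
      rcases le_total w 1 with h' | h'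
      · simp only [tp_of_nonneg _ h, tp_of_nonpos 1 (sub_nonpos.2 h')]
        nlinarith [mul_nonneg hε.le (mul_nonneg h (sub_nonneg.2 h'))]
      · simp only [tp_of_nonneg _ h, tp_of_nonneg _ (sub_nonneg.2 h')]
        nlinarith
    m_le := fun s hs => by
      have hs' : s = 2 * ε * (e / 2 * s + -1 + 1) := by linear_combination -s * he1
      have e2 : e / 2 * s + -2 = e / 2 * s + -1 - 1 := by ring
      simp only [e2]
      generalize e / 2 * s + -1 = w at hs'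
      rcases le_total w 0 with h | h
      · simp only [tp_of_nonpos 1 h, tp_of_nonpos 1 (by linarith : w - 1 ≤ 0), sub_zero, mul_zero]
        exact le_min le_rfl (by nlinarith)
      rcases le_total w 1 with h' | h'
      · simp only [tp_of_nonneg _ h, tp_of_nonpos 1 (sub_nonpos.2 h')]
        exact le_min (by nlinarith [mul_nonneg hε.le (sq_nonneg w)])
          (by nlinarith [mul_nonneg hε.le (sq_nonneg (1 - w))])
      · simp only [tp_of_nonneg _ h, tp_of_nonneg _ (sub_nonneg.2 h')]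
        exact le_min (by nlinarith) (by nlinarith) }⟩

end Crest.Agent.N346.P2
end
end

-- ▼ part N346/P2/Var

/-!
Row 346, P2: first and second variation of the phase-field functional at a minimiser.
-/

set_option autoImplicit false
open MeasureTheory Set Filter Topology
open scoped InnerProductSpace

noncomputable section
namespace Crest.Agent.N346.P2

namespace Var

/-- Second-order necessary condition with a cubic error. -/
lemma second_order {f f' : ℝ → ℝ} {c C : ℝ} (hf : ∀ᶠ t in 𝓝 (0 : ℝ), HasDerivAt f (f' t) t)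
    (h0 : f' 0 = 0) (hf' : HasDerivAt f' c 0)
    (hmin : ∀ᶠ t in 𝓝 (0 : ℝ), f 0 ≤ f t + C * |t| ^ 3) : 0 ≤ c := by
  by_contra hc
  push Not at hc
  have hk : HasDerivAt (fun t => f' t + C * (3 * t ^ 2)) c 0 := by
    have := hf'.fun_add (((hasDerivAt_pow 2 (0 : ℝ)).const_mul 3).const_mul C)
    simpa using this
  have hs := (hasDerivAt_iff_tendsto_slope_zero.1 hk).eventually (gt_mem_nhds hc)
  rw [eventually_nhdsWithin_iff] at hs
  obtain ⟨δ, hδ, hall⟩ := Metric.eventually_nhds_iff.1 (hf.and (hmin.and hs))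
  have hin : ∀ t ∈ Icc (0 : ℝ) (δ / 2), dist t 0 < δ := by
    intro t ht
    rw [Real.dist_eq, sub_zero, abs_of_nonneg ht.1]
    linarith [ht.2]
  have hd : ∀ t ∈ Icc (0 : ℝ) (δ / 2),
      HasDerivAt (fun t => f t + C * t ^ 3) (f' t + C * (3 * t ^ 2)) t := by
    intro t ht
    have := (hall (hin t ht)).1.fun_add ((hasDerivAt_pow 3 t).const_mul C)
    simpa using this
  obtain ⟨ξ, hξ, hξe⟩ := exists_hasDerivAt_eq_slope (fun t => f t + C * t ^ 3)
    (fun t => f' t + C * (3 * t ^ 2)) (half_pos hδ)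
    (fun t ht => (hd t ht).continuousAt.continuousWithinAt)
    (fun t ht => hd t (Ioo_subset_Icc_self ht))
  have h1 := (hall (hin (δ / 2) ⟨(half_pos hδ).le, le_rfl⟩)).2.1
  rw [abs_of_pos (half_pos hδ)] at h1
  have h2 := (hall (hin ξ (Ioo_subset_Icc_self hξ))).2.2 (ne_of_gt hξ.1)
  simp only [zero_add, h0, smul_eq_mul] at h2
  have h3 : 0 ≤ f' ξ + C * (3 * ξ ^ 2) := by
    rw [hξe]
    apply div_nonneg _ (by linarith [half_pos hδ])
    simpa using h1
  have h4 : 0 ≤ ξ⁻¹ * (f' ξ + C * (3 * ξ ^ 2) - C * (3 * 0 ^ 2)) := by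
    apply mul_nonneg (inv_nonneg.2 hξ.1.le)
    simpa using h3
  simp only [ne_eq, OfNat.ofNat_ne_zero, not_false_eq_true, zero_pow, mul_zero, sub_zero] at h2 h4
  linarith

/-- First-order necessary condition with a cubic error. -/
lemma first_order {f : ℝ → ℝ} {c C : ℝ} (hf : HasDerivAt f c 0)
    (hmin : ∀ᶠ t in 𝓝 (0 : ℝ), f 0 ≤ f t + C * |t| ^ 3) : c = 0 := by
  have ha : HasDerivAt (fun t : ℝ => |t| ^ 3) 0 0 := by
    rw [hasDerivAt_iff_isLittleO_nhds_zero]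
    simp only [zero_add, abs_zero, ne_eq, OfNat.ofNat_ne_zero, not_false_eq_true, zero_pow,
      sub_zero, smul_zero]
    have h := Asymptotics.isLittleO_pow_id (𝕜 := ℝ) (n := 3) (by norm_num)
    rw [← Asymptotics.isLittleO_norm_left] at h
    simpa using h
  have hl : IsLocalMin (fun t => f t + C * |t| ^ 3) 0 := by
    filter_upwards [hmin] with t ht
    simpa using ht
  simpa using hl.hasDerivAt_eq_zero (hf.add (ha.const_mul C))

variable {X : Type} [MeasurableSpace X] {V : Type} [NormedAddCommGroup V] [InnerProductSpace ℝ V]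
  {ν : Measure X}

lemma int_mul {w f : X → ℝ} (hw : Integrable w ν) (hf : Measurable f) {M : ℝ}
    (hM : ∀ x, |f x| ≤ M) : Integrable (fun x => w x * f x) ν :=
  hw.mul_bdd hf.aestronglyMeasurable (ae_of_all _ fun x => by simpa using hM x)

lemma int_inner {G H : X → V} (hG : MemLp G 2 ν) (hH : MemLp H 2 ν) :
    Integrable (fun x => ⟪G x, H x⟫_ℝ) ν := by
  refine Integrable.mono' (MemLp.integrable_mul hG.norm hH.norm) (hG.1.inner hH.1)
    (ae_of_all _ fun x => ?_)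
  simpa using abs_real_inner_le_norm (G x) (H x)

lemma int_sq {G : X → V} (hG : MemLp G 2 ν) : Integrable (fun x => ‖G x‖ ^ 2) ν := by
  simpa using int_inner hG hG

lemma int_lin {f g : X → ℝ} (hf : Integrable f ν) (hg : Integrable g ν) (a : ℝ) :
    Integrable (fun x => f x + a * g x) ν := hf.add (hg.const_mul a)

lemma integral_lin {f g : X → ℝ} (hf : Integrable f ν) (hg : Integrable g ν) (a : ℝ) :
    ∫ x, f x ∂ν + a * ∫ x, g x ∂ν = ∫ x, (f x + a * g x) ∂ν := by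
  rw [integral_add hf (hg.const_mul a), integral_const_mul]

omit [MeasurableSpace X] in
lemma bdd_comp {F : ℝ → ℝ} (hF : Continuous F) {u : X → ℝ} {M : ℝ} (hu : ∀ x, |u x| ≤ M) :
    ∃ M' : ℝ, ∀ x, |F (u x)| ≤ M' := by
  obtain ⟨M', hM'⟩ := (isCompact_Icc (a := -M) (b := M)).exists_bound_of_continuousOn
    hF.continuousOn
  exact ⟨M', fun x => by simpa using hM' _ (abs_le.1 (hu x))⟩

/-- `w · F(u) · v` is integrable for `w` integrable, `u, v` bounded, `F` continuous. -/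
lemma int_comp {w u v : X → ℝ} (hw : Integrable w ν) {F : ℝ → ℝ} (hF : Continuous F)
    (hu : Measurable u) (hub : ∃ M, ∀ x, |u x| ≤ M) (hv : Measurable v)
    (hvb : ∃ M, ∀ x, |v x| ≤ M) : Integrable (fun x => w x * F (u x) * v x) ν := by
  obtain ⟨M, hM⟩ := hub
  obtain ⟨M', hM'⟩ := bdd_comp hF hM
  obtain ⟨M'', hM''⟩ := hvb
  exact int_mul (int_mul hw (hF.measurable.comp hu) hM') hv hM''

omit [MeasurableSpace X] in
lemma sq_bdd {v : X → ℝ} (hvb : ∃ M, ∀ x, |v x| ≤ M) : ∃ M, ∀ x, |v x ^ 2| ≤ M := by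
  obtain ⟨M, hM⟩ := hvb
  exact bdd_comp (F := fun s => s ^ 2) (by fun_prop) hM

lemma trunc_sq_le (s : ℝ) : max 0 (min s 1) ^ 2 ≤ s ^ 2 := by
  rcases le_total s 0 with h | h
  · rw [max_eq_left ((min_le_left _ _).trans h)]
    nlinarith
  · rw [max_eq_right (le_min h zero_le_one)]
    exact pow_le_pow_left₀ (le_min h zero_le_one) (min_le_left _ _) 2

lemma p_trunc_le {ε C0 : ℝ} (pr : Prof ε C0) (hε : ε ≤ 1) (s : ℝ) :
    pr.p (max 0 (min s 1)) ^ 2 ≤ pr.p s ^ 2 := by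
  rcases le_total s 0 with h | h
  · rw [max_eq_left ((min_le_left _ _).trans h), pr.p_zero]
    nlinarith [sq_nonneg (pr.p s)]
  · rw [max_eq_right (le_min h zero_le_one)]
    rcases le_total s 1 with h1 | h1
    · rw [min_eq_left h1]
    · rw [min_eq_right h1, pr.p_one 1 hε, pr.p_one s (hε.trans h1)]

/-- The one-variable inequality obtained by testing with the truncation of `b + t z`. -/
lemma key (𝒟 : DClass ν V) {W : X → ℝ} {ε C0 : ℝ} (pr : Prof ε C0) {σ b : X → ℝ} {gb : X → V}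
    {Gf : ℝ → ℝ} {κ : ℝ} (hε : ε ≤ 1) (hW0 : ∀ x, 0 ≤ W x) (hWi : Integrable W ν)
    (hσm : Measurable σ) (hσ : ∀ x, σ x ∈ Icc (0 : ℝ) 1) (hσi : Integrable σ ν)
    (hb : 𝒟.D b 1 gb) (hb1 : ∀ x, b x ∈ Icc (0 : ℝ) 1) (hG : Monotone Gf) (hκ : 0 < κ)
    (hmin : ∀ u G, 𝒟.D u 1 G → (∀ x, u x ∈ Icc (0 : ℝ) 1) →
      Gf (Qf ν W b gb) - κ * ∫ x, σ x ^ 2 * (1 - pr.p (b x) ^ 2) ∂ν
        ≤ Gf (Qf ν W u G) - κ * ∫ x, σ x ^ 2 * (1 - pr.p (u x) ^ 2) ∂ν)
    {z : X → ℝ} {G : X → V} (hz : 𝒟.D z 0 G) :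
    ∃ C : ℝ, ∀ᶠ t in 𝓝 (0 : ℝ), Gf (Qf ν W b gb) ≤
      Gf (Qf ν W b gb + t * (2 * ∫ x, (⟪gb x, G x⟫_ℝ + W x * b x * z x) ∂ν)
          + t ^ 2 * ∫ x, (‖G x‖ ^ 2 + W x * z x ^ 2) ∂ν)
        + κ * (t * (∫ x, σ x ^ 2 * (2 * (pr.p (b x) * pr.p' (b x))) * z x ∂ν)
          + t ^ 2 * ∫ x, σ x ^ 2 * (pr.p' (b x) ^ 2 + pr.p (b x) * pr.p'' (b x)) * z x ^ 2 ∂ν)
        + C * |t| ^ 3 := by
  obtain ⟨C3, hC3⟩ := pr.taylor
  obtain ⟨M, hM⟩ := 𝒟.bdd hz
  have cp : Continuous pr.p := continuous_iff_continuousAt.2 fun s => (pr.hp s).continuousAt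
  have cp' : Continuous pr.p' := continuous_iff_continuousAt.2 fun s => (pr.hp' s).continuousAt
  have cp'' := pr.cp''
  have hσb : ∀ x, |σ x| ≤ 1 := fun x => abs_le.2 ⟨by linarith [(hσ x).1], (hσ x).2⟩
  have hσ2 : Integrable (fun x => σ x ^ 2) ν := by
    simpa [pow_two] using int_mul hσi hσm hσb
  have hbm := 𝒟.meas hb
  have hzm := 𝒟.meas hz
  have hbb := 𝒟.bdd hb
  have hzb := 𝒟.bdd hz
  refine ⟨κ * (|C3| * |M| ^ 3 * ∫ x, σ x ^ 2 ∂ν), ?_⟩
  have hsm : ∀ᶠ t in 𝓝 (0 : ℝ), |t| * |M| < 1 := by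
    have : Tendsto (fun t : ℝ => |t| * |M|) (𝓝 0) (𝓝 (|0| * |M|)) :=
      (continuous_abs.mul continuous_const).tendsto 0
    exact this.eventually (gt_mem_nhds (by simp))
  filter_upwards [hsm] with t ht
  have hv : 𝒟.D (fun x => b x + t * z x) 1 (fun x => gb x + t • G x) := by
    simpa using 𝒟.add hb (𝒟.smul t hz)
  obtain ⟨G', hu, hG'⟩ := 𝒟.trunc hv
  have h1 := hmin _ _ hu fun x =>
    ⟨le_max_left _ _, max_le zero_le_one (min_le_right _ _)⟩
  have iW : ∀ {u c H}, 𝒟.D u c H → Integrable (fun x => W x * u x ^ 2) ν := fun h => by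
    obtain ⟨M', hM'⟩ := sq_bdd (𝒟.bdd h)
    exact int_mul hWi ((𝒟.meas h).pow_const 2) hM'
  have iV : ∀ {u c H}, 𝒟.D u c H →
      Integrable (fun x => σ x ^ 2 * (1 - pr.p (u x) ^ 2)) ν := fun h => by
    obtain ⟨M', hM'⟩ := 𝒟.bdd h
    obtain ⟨M'', hM''⟩ := bdd_comp (F := fun s => 1 - pr.p s ^ 2) (by fun_prop) hM'
    exact int_mul hσ2 ((show Continuous fun s => 1 - pr.p s ^ 2 by fun_prop).measurable.comp
      (𝒟.meas h)) hM''
  -- the energy
  have hQ1 : Qf ν W (fun x => max 0 (min (b x + t * z x) 1)) G'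
      ≤ Qf ν W (fun x => b x + t * z x) (fun x => gb x + t • G x) := by
    refine integral_mono ((int_sq (𝒟.memG hu)).add (iW hu)) ((int_sq (𝒟.memG hv)).add (iW hv))
      fun x => ?_
    exact add_le_add (pow_le_pow_left₀ (norm_nonneg _) (hG' x) 2)
      (mul_le_mul_of_nonneg_left (trunc_sq_le _) (hW0 x))
  have iB : Integrable (fun x => ⟪gb x, G x⟫_ℝ + W x * b x * z x) ν :=
    (int_inner (𝒟.memG hb) (𝒟.memG hz)).add
      (int_comp hWi (F := fun s => s) continuous_id hbm hbb hzm hzb)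
  have iI : Integrable (fun x => ‖gb x‖ ^ 2 + W x * b x ^ 2) ν :=
    (int_sq (𝒟.memG hb)).add (iW hb)
  have iZ : Integrable (fun x => ‖G x‖ ^ 2 + W x * z x ^ 2) ν :=
    (int_sq (𝒟.memG hz)).add (iW hz)
  have hQ2 : Qf ν W (fun x => b x + t * z x) (fun x => gb x + t • G x)
      = Qf ν W b gb + t * (2 * ∫ x, (⟪gb x, G x⟫_ℝ + W x * b x * z x) ∂ν)
          + t ^ 2 * ∫ x, (‖G x‖ ^ 2 + W x * z x ^ 2) ∂ν := by
    unfold Qf
    rw [← mul_assoc, integral_lin iI iB, integral_lin (int_lin iI iB _) iZ]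
    refine integral_congr_ae (ae_of_all _ fun x => ?_)
    simp only
    rw [norm_add_sq_real, real_inner_smul_right, norm_smul, mul_pow, Real.norm_eq_abs, sq_abs]
    ring
  -- the volume
  have i1 : Integrable (fun x => σ x ^ 2 * (2 * (pr.p (b x) * pr.p' (b x))) * z x) ν :=
    int_comp hσ2 (F := fun s => 2 * (pr.p s * pr.p' s)) (by fun_prop) hbm hbb hzm hzb
  have i2 : Integrable
      (fun x => σ x ^ 2 * (pr.p' (b x) ^ 2 + pr.p (b x) * pr.p'' (b x)) * z x ^ 2) ν :=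
    int_comp hσ2 (F := fun s => pr.p' s ^ 2 + pr.p s * pr.p'' s) (by fun_prop) hbm hbb
      (hzm.pow_const 2) (sq_bdd hzb)
  have hV : ∫ x, σ x ^ 2 * (1 - pr.p (b x) ^ 2) ∂ν
      ≤ ∫ x, σ x ^ 2 * (1 - pr.p (max 0 (min (b x + t * z x) 1)) ^ 2) ∂ν
        + t * (∫ x, σ x ^ 2 * (2 * (pr.p (b x) * pr.p' (b x))) * z x ∂ν)
        + t ^ 2 * (∫ x, σ x ^ 2 * (pr.p' (b x) ^ 2 + pr.p (b x) * pr.p'' (b x)) * z x ^ 2 ∂ν)
        + |C3| * |M| ^ 3 * |t| ^ 3 * ∫ x, σ x ^ 2 ∂ν := by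
    rw [integral_lin (iV hu) i1, integral_lin (int_lin (iV hu) i1 _) i2,
      integral_lin (int_lin (int_lin (iV hu) i1 _) i2 _) hσ2]
    refine integral_mono (iV hb) (int_lin (int_lin (int_lin (iV hu) i1 _) i2 _) hσ2 _) fun x => ?_
    simp only
    have hz1 : |t * z x| ≤ |t| * |M| := by
      rw [abs_mul]
      exact mul_le_mul_of_nonneg_left ((hM x).trans (le_abs_self M)) (abs_nonneg t)
    have ht1 := (abs_le.1 (hC3 (b x) (hb1 x) (t * z x) (hz1.trans ht.le))).2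
    have ht2 : C3 * |t * z x| ^ 3 ≤ |C3| * |M| ^ 3 * |t| ^ 3 := by
      calc C3 * |t * z x| ^ 3 ≤ |C3| * |t * z x| ^ 3 := by gcongr; exact le_abs_self _
        _ ≤ |C3| * (|t| * |M|) ^ 3 := by gcongr
        _ = _ := by ring
    have ht3 := p_trunc_le pr hε (b x + t * z x)
    have hs := sq_nonneg (σ x)
    have : σ x ^ 2 * (pr.p (max 0 (min (b x + t * z x) 1)) ^ 2 - pr.p (b x) ^ 2
        - 2 * pr.p (b x) * pr.p' (b x) * (t * z x)
        - (pr.p' (b x) ^ 2 + pr.p (b x) * pr.p'' (b x)) * (t * z x) ^ 2)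
        ≤ σ x ^ 2 * (|C3| * |M| ^ 3 * |t| ^ 3) :=
      mul_le_mul_of_nonneg_left (by linarith) hs
    nlinarith [this]
  have h2 := hG (hQ1.trans hQ2.le)
  have h3 := mul_le_mul_of_nonneg_left hV hκ.le
  nlinarith [h1, h2, h3]

end Var

open Var in
/-- First and second variation at a minimiser. -/
theorem var : VarStmt := by
  intro X _ V _ _ ν 𝒟 W ε C0 pr σ dσ b gb Gf κ g₁ hε0 hε hWm hW0 hWb hWi hσD hσ hσi hdσ hb hb1
    hfin hG hκ hg₁ hGd hmin
  have hε1 : ε ≤ 1 := by linarith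
  have hσm := 𝒟.meas hσD
  have hΛ : Real.sqrt (κ / g₁) ^ 2 = κ / g₁ := Real.sq_sqrt (div_pos hκ hg₁).le
  have cp : Continuous pr.p := continuous_iff_continuousAt.2 fun s => (pr.hp s).continuousAt
  have cp' : Continuous pr.p' := continuous_iff_continuousAt.2 fun s => (pr.hp' s).continuousAt
  have cp'' := pr.cp''
  have hσb : ∀ x, |σ x| ≤ 1 := fun x => abs_le.2 ⟨by linarith [(hσ x).1], (hσ x).2⟩
  have hσ2 : Integrable (fun x => σ x ^ 2) ν := by
    simpa [pow_two] using int_mul hσi hσm hσb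
  -- the polynomial path
  have hpath : ∀ I B Q t : ℝ, HasDerivAt (fun t : ℝ => I + t * (2 * B) + t ^ 2 * Q)
      (2 * B + 2 * t * Q) t := fun I B Q t => by
    have := (((hasDerivAt_id' t).mul_const (2 * B)).const_add I).fun_add
      ((hasDerivAt_pow 2 t).mul_const Q)
    simpa using this
  have hpol : ∀ A B t : ℝ, HasDerivAt (fun t : ℝ => κ * (t * A + t ^ 2 * B))
      (κ * (A + 2 * t * B)) t := fun A B t => by
    have := (((hasDerivAt_id' t).mul_const A).fun_add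
      ((hasDerivAt_pow 2 t).mul_const B)).const_mul κ
    simpa using this
  -- first order
  have hfirst : ∀ {z : X → ℝ} {G : X → V}, 𝒟.D z 0 G →
      g₁ * (2 * ∫ x, (⟪gb x, G x⟫_ℝ + W x * b x * z x) ∂ν)
        + κ * ∫ x, σ x ^ 2 * (2 * (pr.p (b x) * pr.p' (b x))) * z x ∂ν = 0 := by
    intro z G hz
    obtain ⟨C, hC⟩ := key 𝒟 pr hε1 hW0 hWi hσm hσ hσi hb hb1 hG hκ hmin hz
    set I := Qf ν W b gb
    set B := ∫ x, (⟪gb x, G x⟫_ℝ + W x * b x * z x) ∂ν
    set Q := ∫ x, (‖G x‖ ^ 2 + W x * z x ^ 2) ∂ν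
    set A₁ := ∫ x, σ x ^ 2 * (2 * (pr.p (b x) * pr.p' (b x))) * z x ∂ν
    set A₂ := ∫ x, σ x ^ 2 * (pr.p' (b x) ^ 2 + pr.p (b x) * pr.p'' (b x)) * z x ^ 2 ∂ν
    have hGd' : HasDerivAt Gf g₁ (I + 0 * (2 * B) + 0 ^ 2 * Q) := by simpa using hGd
    have hd := (hGd'.comp 0 (hpath I B Q 0)).add (hpol A₁ A₂ 0)
    have := first_order (C := C) hd (by
      filter_upwards [hC] with t ht
      simpa using ht)
    simpa using this
  refine ⟨⟨Real.sqrt (κ / g₁), σ, dσ, b, gb, Real.sqrt_pos.2 (div_pos hκ hg₁), hσD, hσ, hσi, hdσ,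
    hb, hb1, hfin, ?_⟩, rfl, rfl, rfl, rfl, rfl, ?_⟩
  · intro z G hz
    have h1 := hfirst hz
    have iB : Integrable (fun x => ⟪gb x, G x⟫_ℝ + W x * b x * z x) ν :=
      (int_inner (𝒟.memG hb) (𝒟.memG hz)).add
        (int_comp hWi (F := fun s => s) continuous_id (𝒟.meas hb) (𝒟.bdd hb) (𝒟.meas hz)
          (𝒟.bdd hz))
    have i1 : Integrable (fun x => σ x ^ 2 * (2 * (pr.p (b x) * pr.p' (b x))) * z x) ν :=
      int_comp hσ2 (F := fun s => 2 * (pr.p s * pr.p' s)) (by fun_prop) (𝒟.meas hb) (𝒟.bdd hb)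
        (𝒟.meas hz) (𝒟.bdd hz)
    have h2 : ∫ x, (⟪gb x, G x⟫_ℝ + (W x * b x
          + Real.sqrt (κ / g₁) ^ 2 * σ x ^ 2 * (pr.p (b x) * pr.p' (b x))) * z x) ∂ν
        = (∫ x, (⟪gb x, G x⟫_ℝ + W x * b x * z x) ∂ν) + κ / g₁ / 2
          * ∫ x, σ x ^ 2 * (2 * (pr.p (b x) * pr.p' (b x))) * z x ∂ν := by
      rw [integral_lin iB i1, hΛ]
      refine integral_congr_ae (ae_of_all _ fun x => ?_)
      simp only
      ring
    rw [h2]
    generalize ∫ x, (⟪gb x, G x⟫_ℝ + W x * b x * z x) ∂ν = B at h1 ⊢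
    generalize ∫ x, σ x ^ 2 * (2 * (pr.p (b x) * pr.p' (b x))) * z x ∂ν = A at h1 ⊢
    field_simp
    linarith
  · intro G' g₂ hG' hG'' z G hz
    have h1 := hfirst hz
    obtain ⟨C, hC⟩ := key 𝒟 pr hε1 hW0 hWi hσm hσ hσi hb hb1 hG hκ hmin hz
    have iZ : Integrable (fun x => ‖G x‖ ^ 2 + W x * z x ^ 2) ν := by
      obtain ⟨M', hM'⟩ := sq_bdd (𝒟.bdd hz)
      exact (int_sq (𝒟.memG hz)).add (int_mul hWi ((𝒟.meas hz).pow_const 2) hM')
    have i2 : Integrable
        (fun x => σ x ^ 2 * (pr.p' (b x) ^ 2 + pr.p (b x) * pr.p'' (b x)) * z x ^ 2) ν :=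
      int_comp hσ2 (F := fun s => pr.p' s ^ 2 + pr.p s * pr.p'' s) (by fun_prop) (𝒟.meas hb)
        (𝒟.bdd hb) ((𝒟.meas hz).pow_const 2) (sq_bdd (𝒟.bdd hz))
    have e1 : ∫ x, 2 * Real.sqrt (κ / g₁) ^ 2 * σ x ^ 2 * (pr.p (b x) * pr.p' (b x)) * z x ∂ν
        = κ / g₁ * ∫ x, σ x ^ 2 * (2 * (pr.p (b x) * pr.p' (b x))) * z x ∂ν := by
      rw [← integral_const_mul, hΛ]
      refine integral_congr_ae (ae_of_all _ fun x => ?_)
      simp only
      ring
    have e2 : ∫ x, (‖G x‖ ^ 2 + W x * z x ^ 2 + Real.sqrt (κ / g₁) ^ 2 * σ x ^ 2 *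
          (pr.p' (b x) ^ 2 + pr.p (b x) * pr.p'' (b x)) * z x ^ 2) ∂ν
        = (∫ x, (‖G x‖ ^ 2 + W x * z x ^ 2) ∂ν) + κ / g₁ *
          ∫ x, σ x ^ 2 * (pr.p' (b x) ^ 2 + pr.p (b x) * pr.p'' (b x)) * z x ^ 2 ∂ν := by
      rw [integral_lin iZ i2, hΛ]
      refine integral_congr_ae (ae_of_all _ fun x => ?_)
      simp only
      ring
    simp only [Crit.xf]
    rw [e1, e2]
    set I := Qf ν W b gb
    set B := ∫ x, (⟪gb x, G x⟫_ℝ + W x * b x * z x) ∂ν
    set Q := ∫ x, (‖G x‖ ^ 2 + W x * z x ^ 2) ∂ν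
    set A₁ := ∫ x, σ x ^ 2 * (2 * (pr.p (b x) * pr.p' (b x))) * z x ∂ν
    set A₂ := ∫ x, σ x ^ 2 * (pr.p' (b x) ^ 2 + pr.p (b x) * pr.p'' (b x)) * z x ^ 2 ∂ν
    have hI : I + 0 * (2 * B) + 0 ^ 2 * Q = I := by simp
    have hg : G' I = g₁ := hG'.self_of_nhds.unique hGd
    have hten : Tendsto (fun t : ℝ => I + t * (2 * B) + t ^ 2 * Q) (𝓝 0) (𝓝 I) := by
      have := (hpath I B Q 0).continuousAt.tendsto
      rwa [hI] at this
    have hG2 : HasDerivAt G' g₂ (I + 0 * (2 * B) + 0 ^ 2 * Q) := by rwa [hI]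
    have hlin : ∀ A B : ℝ, HasDerivAt (fun t : ℝ => A + 2 * t * B) (2 * B) 0 := fun A B => by
      have := ((((hasDerivAt_id' (0 : ℝ)).const_mul 2).mul_const B).const_add A)
      simpa using this
    have h2 := second_order (C := C)
      (f := fun t => Gf (I + t * (2 * B) + t ^ 2 * Q) + κ * (t * A₁ + t ^ 2 * A₂))
      (f' := fun t => G' (I + t * (2 * B) + t ^ 2 * Q) * (2 * B + 2 * t * Q)
        + κ * (A₁ + 2 * t * A₂))
      (by
        filter_upwards [hten.eventually hG'] with t ht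
        exact (ht.comp t (hpath I B Q t)).add (hpol A₁ A₂ t))
      (by simpa [hg] using h1)
      (((hG2.comp 0 (hpath I B Q 0)).mul (hlin (2 * B) Q)).add ((hlin A₁ A₂).const_mul κ))
      (by
        filter_upwards [hC] with t ht
        simpa using ht)
    simp only [Function.comp, hI] at h2
    simp only [hg, mul_zero, zero_mul, add_zero] at h2
    have h3 : κ / g₁ * A₁ = -(2 * B) := by
      field_simp
      linarith
    rw [h3]
    have h4 : -(g₂ / (2 * g₁)) * (-(2 * B)) ^ 2 = (-(g₂ * (2 * B) * (2 * B))) / (2 * g₁) := by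
      ring
    have h5 : Q + κ / g₁ * A₂ = (g₁ * (2 * Q) + κ * (2 * A₂)) / (2 * g₁) := by
      field_simp
    rw [h4, h5]
    exact div_le_div_of_nonneg_right (by linarith) (by positivity)

end Crest.Agent.N346.P2
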