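import Crest.Agent.N346.P2.Basic
import Mathlib

-- ▼ part N346/P2/Core1
section

/-! Row 346, P2, main estimate, part 1: the cut function `β = B(b)`, the measure `nu`,
the Barta substitution and the Hardy type bounds (L2, L3, L7 of the notes). -/

set_option autoImplicit false
set_option linter.unusedSectionVars false
open MeasureTheory Set
open scoped InnerProductSpace

noncomputable section
namespace Crest.Agent.N346.P2

variable {X : Type} [MeasurableSpace X] {V : Type} [NormedAddCommGroup V] [InnerProductSpace ℝ V]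
  {ν : Measure X}

theorem two_inner_le (A B : V) (y r : ℝ) (hr : 0 < r) :
    |2 * y * ⟪A, B⟫_ℝ| ≤ r * (y ^ 2 * ‖B‖ ^ 2) + ‖A‖ ^ 2 / r := by
  have h1 := abs_real_inner_le_norm A B
  have h2 : |2 * y * ⟪A, B⟫_ℝ| ≤ 2 * |y| * (‖A‖ * ‖B‖) := by
    rw [abs_mul, abs_mul, abs_two]
    exact mul_le_mul_of_nonneg_left h1 (by positivity)
  have h3 : 2 * |y| * (‖A‖ * ‖B‖) ≤ r * (y ^ 2 * ‖B‖ ^ 2) + ‖A‖ ^ 2 / r := by
    rw [← sub_nonneg, ← sq_abs y]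
    have : r * (|y| ^ 2 * ‖B‖ ^ 2) + ‖A‖ ^ 2 / r - 2 * |y| * (‖A‖ * ‖B‖)
        = (r * |y| * ‖B‖ - ‖A‖) ^ 2 / r := by field_simp; ring
    rw [this]; positivity
  exact h2.trans h3

theorem inner_sq_le (A B : V) : ⟪A, B⟫_ℝ ^ 2 ≤ ‖A‖ ^ 2 * ‖B‖ ^ 2 := by
  have h1 := abs_real_inner_le_norm A B
  have := mul_self_le_mul_self (abs_nonneg _) h1
  rw [abs_mul_abs_self] at this
  nlinarith

/-- small parameters -/
structure Par (ε δ : ℝ) : Prop where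
  ε_pos : 0 < ε
  ε_le : ε ≤ 1 / 8
  δ_pos : 0 < δ
  δ_le : δ ≤ 1

theorem Prof.B'_mul_p' {ε C0 : ℝ} (pr : Prof ε C0) (s : ℝ) : pr.B' s * pr.p' s = 0 := by
  rcases le_total s ε with h | h
  · rw [pr.B'_zero s h, zero_mul]
  · rw [pr.p'_zero s h, mul_zero]

namespace Crit
variable {𝒟 : DClass ν V} {W : X → ℝ} {ε C0 : ℝ} {pr : Prof ε C0} (c : Crit 𝒟 W pr)

def β (x : X) : ℝ := pr.B (c.b x)
def v (x : X) : V := pr.B' (c.b x) • c.gb x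
def nu (x : X) : ℝ :=
  pr.B'' (c.b x) * ‖c.gb x‖ ^ 2 + W x * (c.b x * pr.B' (c.b x) - pr.B (c.b x))
def Φt : ℝ := pr.B' 1 * c.Φ
def chi (x : X) : ℝ := if c.b x < ε then 1 else 0
def P1 (δ : ℝ) (x : X) : ℝ := pr.p (c.b x) + δ
def eta (δ : ℝ) (z : X → ℝ) (x : X) : ℝ := z x / c.P1 δ x
def w (δ : ℝ) (z : X → ℝ) (G : X → V) (x : X) : V :=
  G x - (z x * pr.p' (c.b x) / c.P1 δ x) • c.gb x
def J (δ : ℝ) (z : X → ℝ) (G : X → V) : ℝ := ∫ x, ‖c.w δ z G x‖ ^ 2 ∂ν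
def M : ℝ := ∫ x, c.nu x ∂ν
def Qt : ℝ := ∫ x, (‖c.v x‖ ^ 2 + W x * c.β x ^ 2) ∂ν
def Z (z : X → ℝ) : ℝ := ∫ x, c.chi x * z x ^ 2 ∂ν

theorem β_D : 𝒟.D c.β 1 c.v := by
  have := 𝒟.comp pr.B pr.B' 0 1 c.b_D c.b_mem ⟨zero_le_one, le_rfl⟩ (fun s _ => pr.hB s)
    pr.cB'.continuousOn
  rwa [pr.B_one] at this
theorem β_mem (x : X) : c.β x ∈ Icc (0 : ℝ) 1 := pr.B_mem (c.b_mem x)
theorem β_le (x : X) : c.β x ≤ c.b x := pr.B_le _ (c.b_mem x)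
theorem bd_β : Bd c.β := DClass.bd c.β_D
theorem v2 : MemLp c.v 2 ν := 𝒟.memG c.β_D
theorem nu_nonneg (hW : WOK ν W) (x : X) : 0 ≤ c.nu x := by
  have := pr.B''_nonneg (c.b x)
  have := pr.tang_nonneg _ (c.b_mem x)
  have := hW.nonneg x
  unfold nu; positivity
theorem int_nu (hW : WOK ν W) : Integrable c.nu ν := by
  have h1 := c.int_g2 (c.bdb' pr.cB'')
  have h2 := ((c.bd_b.mul (c.bdb' pr.cB')).sub (c.bdb' pr.cB)).int hW.int
  exact (h1.add h2).congr (ae_of_all _ fun x => by simp only [nu, Pi.add_apply]; ring)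
theorem hiM (hW : WOK ν W) : HI ν c.nu c.M := ⟨c.int_nu hW, rfl⟩
theorem hiQt (hW : WOK ν W) : HI ν (fun x => ‖c.v x‖ ^ 2 + W x * c.β x ^ 2) c.Qt :=
  ⟨(int_normsq c.v2).add ((c.bd_β.sq.int hW.int).congr
    (ae_of_all _ fun x => by simp only []; ring)), rfl⟩

/-- Euler–Lagrange equation of the cut function. -/
theorem ELt (hW : WOK ν W) {h : X → ℝ} {k : ℝ} {G : X → V} (hh : 𝒟.D h k G) :
    HI ν (fun x => ⟪c.v x, G x⟫_ℝ + h x * (c.nu x + W x * c.β x)) (k * c.Φt) := by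
  have := c.div hW hh pr.B' pr.B'' (fun s _ => pr.hB' s) pr.cB''.continuousOn
  rw [mul_assoc] at this
  refine this.congr fun x => ?_
  have h0 := pr.B'_mul_p' (c.b x)
  simp only [v, nu, β, N, inner_smul_right, real_inner_comm (G x)]
  linear_combination (-(h x * c.Λ ^ 2 * c.σ x ^ 2 * pr.p (c.b x))) * h0

theorem bd_chi : Bd c.chi := by
  refine ⟨Measurable.ite (measurableSet_lt c.b_meas measurable_const) measurable_const
    measurable_const, 1, fun x => ?_⟩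
  unfold chi; split_ifs <;> simp
theorem chi_eq : c.chi = {x | c.b x < ε}.indicator (fun _ => (1 : ℝ)) := by
  funext x; simp [chi, indicator]
theorem hiChi : HI ν c.chi (ν {x | c.b x < ε}).toReal := by
  have hs : MeasurableSet {x | c.b x < ε} := measurableSet_lt c.b_meas measurable_const
  rw [chi_eq]
  refine ⟨(integrable_indicator_iff hs).2 (integrableOn_const c.fin), ?_⟩
  rw [integral_indicator hs]; simp [Measure.real]
theorem hiZ {z : X → ℝ} (hz : Bd z) : HI ν (fun x => c.chi x * z x ^ 2) (c.Z z) :=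
  ⟨(hz.sq.int c.hiChi.1).congr (ae_of_all _ fun x => by simp only []; ring), rfl⟩
theorem Z_eq (z : X → ℝ) : c.Z z = ∫ x in {x | c.b x < ε}, z x ^ 2 ∂ν := by
  have hs : MeasurableSet {x | c.b x < ε} := measurableSet_lt c.b_meas measurable_const
  rw [← integral_indicator hs, Z]
  congr 1; funext x; by_cases hx : c.b x < ε <;> simp [chi, indicator, hx]

variable {δ : ℝ}
theorem P1_pos (h : Par ε δ) (x : X) : 0 < c.P1 δ x :=
  add_pos_of_nonneg_of_pos (pr.p_nonneg h.ε_pos (c.b_mem x)) h.δ_pos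
theorem P1_le (h : Par ε δ) (x : X) : c.P1 δ x ≤ 2 := by
  have := pr.p_le_one (c.b x); have := h.δ_le; unfold P1; linarith
theorem bd_P1 : Bd (c.P1 δ) := (c.bdb' pr.cp).add (Bd.const δ)
theorem bd_inv (h : Par ε δ) : Bd (fun x => (c.P1 δ x)⁻¹) :=
  c.bdb (m := fun s => (pr.p s + δ)⁻¹) ((pr.cp.add continuous_const).continuousOn.inv₀
    fun _ hs => (add_pos_of_nonneg_of_pos (pr.p_nonneg h.ε_pos hs) h.δ_pos).ne')
theorem bd_div (h : Par ε δ) {u : X → ℝ} (hu : Bd u) : Bd (fun x => u x / c.P1 δ x) := by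
  simpa [div_eq_mul_inv] using hu.mul (c.bd_inv h)
theorem bd_eta (h : Par ε δ) {z : X → ℝ} (hz : Bd z) : Bd (c.eta δ z) := c.bd_div h hz

variable {z : X → ℝ} {G : X → V}
theorem w2 (h : Par ε δ) (hz : 𝒟.D z 0 G) : MemLp (c.w δ z G) 2 ν :=
  (𝒟.memG hz).sub ((c.bd_div h ((DClass.bd hz).mul (c.bdb' pr.cp'))).smul_memLp c.gb2)
theorem hiJ (h : Par ε δ) (hz : 𝒟.D z 0 G) : HI ν (fun x => ‖c.w δ z G x‖ ^ 2) (c.J δ z G) :=
  ⟨int_normsq (c.w2 h hz), rfl⟩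
theorem J_nonneg : 0 ≤ c.J δ z G := integral_nonneg fun _ => sq_nonneg _
theorem inner_w (x : X) : ⟪c.w δ z G x, c.gb x⟫_ℝ
    = ⟪G x, c.gb x⟫_ℝ - z x * pr.p' (c.b x) / c.P1 δ x * ‖c.gb x‖ ^ 2 := by
  simp only [w, inner_sub_left, inner_smul_left, RCLike.conj_to_real, real_inner_self_eq_norm_sq]
theorem normsq_w (x : X) : ‖c.w δ z G x‖ ^ 2 = ‖G x‖ ^ 2
    - 2 * (z x * pr.p' (c.b x) / c.P1 δ x) * ⟪G x, c.gb x⟫_ℝ
    + (z x * pr.p' (c.b x) / c.P1 δ x) ^ 2 * ‖c.gb x‖ ^ 2 := by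
  simp only [w, norm_sub_sq_real, inner_smul_right, norm_smul, mul_pow, Real.norm_eq_abs, sq_abs]
  ring
theorem inner_v_w (x : X) : ⟪c.v x, c.w δ z G x⟫_ℝ = ⟪c.v x, G x⟫_ℝ := by
  have h0 := pr.B'_mul_p' (c.b x)
  simp only [w, v, inner_sub_right, inner_smul_left, inner_smul_right, RCLike.conj_to_real,
    real_inner_self_eq_norm_sq]
  linear_combination (-(z x / c.P1 δ x * ‖c.gb x‖ ^ 2)) * h0
theorem w_eq {x : X} (hx : ε ≤ c.b x) : c.w δ z G x = G x := by simp [w, pr.p'_zero _ hx]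

theorem sq_D (hz : 𝒟.D z 0 G) : 𝒟.D (fun x => z x * z x) 0 (fun x => z x • G x + z x • G x) := by
  simpa using 𝒟.mul hz hz

/-- L2 (Barta). -/
theorem barta (hW : WOK ν W) (h : Par ε δ) (hz : 𝒟.D z 0 G) :
    HI ν (fun x => ‖G x‖ ^ 2 + z x ^ 2 * (pr.p'' (c.b x) * ‖c.gb x‖ ^ 2
      + pr.p' (c.b x) * c.N x) / c.P1 δ x) (c.J δ z G) := by
  have hpos : ∀ s ∈ Icc (0 : ℝ) 1, pr.p s + δ ≠ 0 := fun s hs =>
    (add_pos_of_nonneg_of_pos (pr.p_nonneg h.ε_pos hs) h.δ_pos).ne'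
  have := c.div hW (sq_D hz) (fun s => pr.p' s / (pr.p s + δ))
    (fun s => (pr.p'' s * (pr.p s + δ) - pr.p' s * pr.p' s) / (pr.p s + δ) ^ 2)
    (fun s hs => (pr.hp' s).div ((pr.hp s).add_const δ) (hpos s hs))
    (((pr.cp''.mul (pr.cp.add continuous_const)).sub (pr.cp'.mul pr.cp')).continuousOn.div
      ((pr.cp.add continuous_const).pow 2).continuousOn fun s hs => pow_ne_zero 2 (hpos s hs))
  have h2 := (c.hiJ h hz).add this
  simp only [zero_mul, add_zero] at h2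
  refine h2.congr fun x => ?_
  have hp := (c.P1_pos h x).ne'
  rw [normsq_w]
  simp only [inner_add_left, inner_smul_left, RCLike.conj_to_real]
  unfold P1 at hp ⊢
  field_simp
  ring

/-- The divergence lemma for `η² m₀(b)`, `η = z / P₁`. -/
theorem div_eta (hW : WOK ν W) (h : Par ε δ) (hz : 𝒟.D z 0 G) (m m' : ℝ → ℝ)
    (hm : ∀ s, HasDerivAt m (m' s) s) (hc : Continuous m') :
    HI ν (fun x => c.eta δ z x ^ 2 * (m' (c.b x) * ‖c.gb x‖ ^ 2 + m (c.b x) * c.N x)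
      + m (c.b x) / c.P1 δ x * (2 * c.eta δ z x * ⟪c.w δ z G x, c.gb x⟫_ℝ)) 0 := by
  have hpos : ∀ s ∈ Icc (0 : ℝ) 1, pr.p s + δ ≠ 0 := fun s hs =>
    (add_pos_of_nonneg_of_pos (pr.p_nonneg h.ε_pos hs) h.δ_pos).ne'
  have cm : Continuous m := continuous_iff_continuousAt.2 fun s => (hm s).continuousAt
  have cP : Continuous fun s => pr.p s + δ := pr.cp.add continuous_const
  have := c.div hW (sq_D hz) (fun s => m s / ((pr.p s + δ) * (pr.p s + δ)))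
    (fun s => (m' s * ((pr.p s + δ) * (pr.p s + δ))
      - m s * (pr.p' s * (pr.p s + δ) + (pr.p s + δ) * pr.p' s))
        / ((pr.p s + δ) * (pr.p s + δ)) ^ 2)
    (fun s hs => (hm s).div (((pr.hp s).add_const δ).mul ((pr.hp s).add_const δ))
      (mul_ne_zero (hpos s hs) (hpos s hs)))
    (((hc.mul (cP.mul cP)).sub (cm.mul ((pr.cp'.mul cP).add (cP.mul pr.cp')))).continuousOn.div
      ((cP.mul cP).pow 2).continuousOn fun s hs =>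
        pow_ne_zero 2 (mul_ne_zero (hpos s hs) (hpos s hs)))
  simp only [zero_mul] at this
  refine this.congr fun x => ?_
  have hp := (c.P1_pos h x).ne'
  rw [inner_w]
  simp only [inner_add_left, inner_smul_left, RCLike.conj_to_real, eta]
  unfold P1 at hp ⊢
  field_simp
  ring

theorem hi_eg (h : Par ε δ) (hz : 𝒟.D z 0 G) {u : X → ℝ} (hu : Bd u) :
    Integrable (fun x => u x * (c.eta δ z x ^ 2 * ‖c.gb x‖ ^ 2)) ν :=
  (c.int_g2 (hu.mul (c.bd_eta h (DClass.bd hz)).sq)).congr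
    (ae_of_all _ fun x => by simp only []; ring)

/-- `∫ η² g²` -/
def Eg (δ : ℝ) (z : X → ℝ) : ℝ := ∫ x, c.eta δ z x ^ 2 * ‖c.gb x‖ ^ 2 ∂ν
theorem hiEg (h : Par ε δ) (hz : 𝒟.D z 0 G) :
    HI ν (fun x => c.eta δ z x ^ 2 * ‖c.gb x‖ ^ 2) (c.Eg δ z) :=
  ⟨by simpa using c.hi_eg h hz (Bd.const 1), rfl⟩

theorem Eg_le (hW : WOK ν W) (h : Par ε δ) (hz : 𝒟.D z 0 G) : c.Eg δ z ≤ 4 * c.J δ z G := by
  have h1 := c.div_eta hW h hz (fun s => s) (fun _ => 1) (fun s => hasDerivAt_id s)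
    continuous_const
  have := (c.hiEg h hz).mono (h1.add (((c.hiEg h hz).cmul (1 / 2)).add
    ((c.hiJ h hz).cmul 2))) fun x => by
      have hp := c.P1_pos h x
      have hb := (c.b_mem x).1
      have hN := c.N_nonneg h.ε_pos hW x
      have h3 : c.b x / c.P1 δ x ≤ 1 := by
        rw [div_le_one hp]
        have := pr.self_le_p h.ε_pos (by linarith [h.ε_le]) (c.b_mem x)
        have := h.δ_pos
        unfold P1; linarith
      have h4 : 0 ≤ c.b x / c.P1 δ x := by positivity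
      have h5 := neg_abs_le (2 * c.eta δ z x * ⟪c.w δ z G x, c.gb x⟫_ℝ)
      have h6 := two_inner_le (c.w δ z G x) (c.gb x) (c.eta δ z x) (1 / 2) (by norm_num)
      have h7 := abs_nonneg (2 * c.eta δ z x * ⟪c.w δ z G x, c.gb x⟫_ℝ)
      have h8 : 0 ≤ c.eta δ z x ^ 2 * (c.b x * c.N x) := by positivity
      nlinarith
  linarith

/-- the general consequence of `div_eta` -/
theorem eta_le (hW : WOK ν W) (h : Par ε δ) (hz : 𝒟.D z 0 G) (m m' : ℝ → ℝ)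
    (hm : ∀ s, HasDerivAt m (m' s) s) (hc : Continuous m') {κ : ℝ} (hκ : 0 ≤ κ)
    (h0 : ∀ x, 0 ≤ m (c.b x)) (h1 : ∀ x, m (c.b x) ≤ κ * c.P1 δ x) {f : X → ℝ} {r : ℝ}
    (hf : HI ν f r) (hle : ∀ x, f x ≤ c.eta δ z x ^ 2 * (m' (c.b x) * ‖c.gb x‖ ^ 2)) :
    r ≤ 4 * κ * c.J δ z G := by
  have h2 := c.div_eta hW h hz m m' hm hc
  have := hf.mono (h2.add (((c.hiEg h hz).cmul (κ / 2)).add
    ((c.hiJ h hz).cmul (2 * κ)))) fun x => by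
      have hp := c.P1_pos h x
      have hN := c.N_nonneg h.ε_pos hW x
      have h3 : m (c.b x) / c.P1 δ x ≤ κ := by rw [div_le_iff₀ hp]; exact h1 x
      have hm0 := h0 x
      have h4 : 0 ≤ m (c.b x) / c.P1 δ x := by positivity
      have h5 := neg_abs_le (2 * c.eta δ z x * ⟪c.w δ z G x, c.gb x⟫_ℝ)
      have h6 := two_inner_le (c.w δ z G x) (c.gb x) (c.eta δ z x) (1 / 2) (by norm_num)
      have h7 := abs_nonneg (2 * c.eta δ z x * ⟪c.w δ z G x, c.gb x⟫_ℝ)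
      have h8 : 0 ≤ c.eta δ z x ^ 2 * (m (c.b x) * c.N x) := by positivity
      have h9 := hle x
      have h10 := mul_le_mul_of_nonneg_left h6 hκ
      have h11 := mul_le_mul_of_nonneg_left h5 h4
      have h12 := mul_le_mul_of_nonneg_right h3 h7
      nlinarith
  have h3 := c.Eg_le hW h hz
  nlinarith

/-- `∫ |G|² ≤ (2 + 8 C₀/ε) J`. -/
theorem G_le (hW : WOK ν W) (h : Par ε δ) (hz : 𝒟.D z 0 G) :
    ∫ x, ‖G x‖ ^ 2 ∂ν ≤ (2 + 8 * (C0 / ε)) * c.J δ z G := by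
  have h1 := HI.of (c.hi_eg h hz (c.bdb' pr.cp'))
  have h2 := c.eta_le hW h hz (fun s => pr.p s + δ) pr.p' (fun s => (pr.hp s).add_const δ) pr.cp'
    zero_le_one (fun x => (c.P1_pos h x).le) (fun x => by simp [P1]) h1
    (fun x => le_of_eq (by ring))
  have hC : 0 ≤ C0 / ε := (pr.p'_nonneg 0).trans (pr.p'_le 0 ⟨le_rfl, zero_le_one⟩)
  have := (HI.of (int_normsq (𝒟.memG hz))).mono (((c.hiJ h hz).cmul 2).add
    (h1.cmul (2 * (C0 / ε)))) fun x => by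
      have e : G x = c.w δ z G x + (z x * pr.p' (c.b x) / c.P1 δ x) • c.gb x := by simp [w]
      have h3 : ‖G x‖ ^ 2 ≤ 2 * ‖c.w δ z G x‖ ^ 2
          + 2 * ‖(z x * pr.p' (c.b x) / c.P1 δ x) • c.gb x‖ ^ 2 := by
        have := norm_add_le (c.w δ z G x) ((z x * pr.p' (c.b x) / c.P1 δ x) • c.gb x)
        rw [← e] at this
        have := mul_self_le_mul_self (norm_nonneg _) this
        nlinarith [sq_nonneg (‖c.w δ z G x‖ - ‖(z x * pr.p' (c.b x) / c.P1 δ x) • c.gb x‖)]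
      have h4 : ‖(z x * pr.p' (c.b x) / c.P1 δ x) • c.gb x‖ ^ 2
          = pr.p' (c.b x) * (pr.p' (c.b x) * (c.eta δ z x ^ 2 * ‖c.gb x‖ ^ 2)) := by
        rw [norm_smul, mul_pow, Real.norm_eq_abs, sq_abs, eta]; ring
      have h5 := pr.p'_le _ (c.b_mem x)
      have h6 := pr.p'_nonneg (c.b x)
      have h7 : 0 ≤ pr.p' (c.b x) * (c.eta δ z x ^ 2 * ‖c.gb x‖ ^ 2) := by positivity
      have := mul_le_mul_of_nonneg_right h5 h7
      linarith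
  nlinarith

theorem z_sq_le (h : Par ε δ) (x : X) : z x ^ 2 ≤ 4 * c.eta δ z x ^ 2 := by
  have hp := c.P1_pos h x
  have h2 := c.P1_le h x
  have : z x = c.P1 δ x * c.eta δ z x := by unfold eta; field_simp
  rw [this, mul_pow]
  exact mul_le_mul_of_nonneg_right (by nlinarith) (sq_nonneg _)

/-- `∫_{b ≤ 2ε} z² g² ≤ 64 ε J`. -/
theorem zg_le (hW : WOK ν W) (h : Par ε δ) (hz : 𝒟.D z 0 G) :
    ∫ x, pr.m' (c.b x) * z x ^ 2 * ‖c.gb x‖ ^ 2 ∂ν ≤ 64 * ε * c.J δ z G := by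
  have h1 := (HI.of (c.int_g2 ((c.bdb' pr.cm').mul (DClass.bd hz).sq))).cmul (1 / 4)
  have h2 := c.eta_le hW h hz pr.m pr.m' pr.hm pr.cm' (κ := 4 * ε) (by linarith [h.ε_pos])
    (fun x => pr.m_nonneg _ (c.b_mem x)) (fun x => by
      have := pr.m_le_p h.ε_pos (c.b_mem x)
      have := mul_pos h.ε_pos h.δ_pos
      unfold P1; nlinarith) h1 (fun x => by
      have h3 := c.z_sq_le (z := z) h x
      have h4 : 0 ≤ pr.m' (c.b x) * ‖c.gb x‖ ^ 2 := mul_nonneg (pr.m'_nonneg _) (sq_nonneg _)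
      nlinarith)
  linarith

/-- `∫_{b ≤ 2ε} g² ≤ 4 ε Φ`. -/
theorem mg_le (hW : WOK ν W) (hε : 0 < ε) :
    ∫ x, pr.m' (c.b x) * ‖c.gb x‖ ^ 2 ∂ν ≤ 4 * ε * c.Φ := by
  have h1 := c.div1 hW pr.m pr.m' (fun s _ => pr.hm s) pr.cm'.continuousOn
  have h2 := (HI.of (c.int_g2 (c.bdb' pr.cm'))).mono h1 fun x => by
    have := mul_nonneg (pr.m_nonneg _ (c.b_mem x)) (c.N_nonneg hε hW x)
    linarith
  have h3 := (pr.m_le 1 ⟨zero_le_one, le_rfl⟩).trans (min_le_right _ _)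
  have := mul_le_mul_of_nonneg_right h3 (c.Φ_nonneg hε hW)
  linarith

theorem v_sq_le (h : Par ε δ) (x : X) : ‖c.v x‖ ^ 2 ≤ 9 / 4 * ‖c.gb x‖ ^ 2 := by
  have h1 := pr.B'_nonneg (c.b x)
  have h2 := (pr.B'_le (c.b x)).trans pr.B'_one_le
  have h3 := h.ε_le
  rw [v, norm_smul, mul_pow, Real.norm_eq_abs, sq_abs]
  exact mul_le_mul_of_nonneg_right (by nlinarith) (sq_nonneg _)

/-- `∫ z² |v|² ≤ 36 J`. -/
theorem zv_le (hW : WOK ν W) (h : Par ε δ) (hz : 𝒟.D z 0 G) :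
    ∫ x, z x ^ 2 * ‖c.v x‖ ^ 2 ∂ν ≤ 36 * c.J δ z G := by
  have := (HI.of ((DClass.bd hz).sq.int (int_normsq c.v2))).mono ((c.hiEg h hz).cmul 9)
    fun x => by
      have := mul_le_mul (c.z_sq_le (z := z) h x) (c.v_sq_le h x) (sq_nonneg _) (by positivity)
      linarith
  linarith [c.Eg_le hW h hz]

/-- L7: `∫ z² ν ≤ 12 J`. -/
theorem znu_le (hW : WOK ν W) (h : Par ε δ) (hz : 𝒟.D z 0 G) :
    ∫ x, z x ^ 2 * c.nu x ∂ν ≤ 12 * c.J δ z G := by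
  have h1 := c.ELt hW (sq_D hz)
  have := (HI.of ((DClass.bd hz).sq.int (c.int_nu hW))).mono (h1.add
    (((HI.of ((DClass.bd hz).sq.int (int_normsq c.v2))).cmul (1 / 6)).add
      ((c.hiJ h hz).cmul 6))) fun x => by
      have h5 := neg_abs_le (2 * z x * ⟪c.w δ z G x, c.v x⟫_ℝ)
      have h6 := two_inner_le (c.w δ z G x) (c.v x) (z x) (1 / 6) (by norm_num)
      rw [real_inner_comm, inner_v_w] at h5 h6
      have h7 : 0 ≤ z x ^ 2 * (W x * c.β x) :=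
        mul_nonneg (sq_nonneg _) (mul_nonneg (hW.nonneg x) (c.β_mem x).1)
      simp only [inner_add_right, inner_smul_right]
      nlinarith
  linarith [c.zv_le hW h hz]

theorem Φ_le_Φt (hW : WOK ν W) (hε : 0 < ε) : c.Φ ≤ c.Φt := by
  have := mul_le_mul_of_nonneg_right pr.one_le_B'_one (c.Φ_nonneg hε hW)
  unfold Φt; linarith
theorem Φt_le (hW : WOK ν W) (hε : 0 < ε) : c.Φt ≤ (1 + 4 * ε) * c.Φ :=
  mul_le_mul_of_nonneg_right pr.B'_one_le (c.Φ_nonneg hε hW)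
theorem Φt_le_I (hW : WOK ν W) (h : Par ε δ) : c.Φt ≤ (1 + 6 * ε) * c.I := by
  have h1 := c.Φt_le hW h.ε_pos
  have h2 := c.Φ_le h.ε_pos hW
  have h3 := c.Φ_nonneg h.ε_pos hW
  have h4 := h.ε_pos
  have h5 := h.ε_le
  have h6 : (1 + 4 * ε) * c.Φ ≤ (1 + 6 * ε) * ((1 - ε) * c.Φ) := by
    rw [← mul_assoc]; exact mul_le_mul_of_nonneg_right (by nlinarith) h3
  nlinarith
theorem M_le (hW : WOK ν W) : c.M ≤ c.Φt := by
  have h1 := c.ELt hW (𝒟.const 1)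
  rw [one_mul] at h1
  exact (c.hiM hW).mono h1 fun x => by
    have := mul_nonneg (hW.nonneg x) (c.β_mem x).1
    simp only [inner_zero_right]; linarith

/-- pointwise: `β ν ≤ 2 ε ν + 4 ε W b` -/
theorem βnu_pt (hW : WOK ν W) (hε : 0 < ε) (x : X) :
    c.β x * c.nu x ≤ 2 * ε * c.nu x + 4 * ε * (W x * c.b x) := by
  have h1 := c.β_le x
  have h2 := (c.β_mem x).1
  have h3 := pr.tang_nonneg _ (c.b_mem x)
  have h4 := pr.tang_le _ (c.b_mem x)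
  have h5 := hW.nonneg x
  have h6 : c.β x * (W x * (c.b x * pr.B' (c.b x) - pr.B (c.b x))) ≤ 4 * ε * (W x * c.b x) := by
    have := mul_le_mul h1 (mul_le_mul_of_nonneg_left h4 h5) (mul_nonneg h5 h3) (h2.trans h1)
    linarith
  have h7 : 0 ≤ ε * (W x * (c.b x * pr.B' (c.b x) - pr.B (c.b x))) := by positivity
  have h8 : c.β x * (pr.B'' (c.b x) * ‖c.gb x‖ ^ 2) ≤ 2 * ε * (pr.B'' (c.b x) * ‖c.gb x‖ ^ 2) := by
    rcases le_total (c.b x) (2 * ε) with hb | hb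
    · exact mul_le_mul_of_nonneg_right (h1.trans hb)
        (mul_nonneg (pr.B''_nonneg _) (sq_nonneg _))
    · rw [pr.B''_zero _ (Or.inr hb)]; simp
  unfold nu; nlinarith

theorem Wb_le (hW : WOK ν W) (hε : 0 < ε) : ∫ x, W x * c.b x ∂ν ≤ c.Φ :=
  (HI.of ((c.bd_b.int hW.int).congr (ae_of_all _ fun x => mul_comm _ _))).mono (c.hiN hW)
    fun x => by
      have := pr.p_nonneg hε (c.b_mem x)
      have := pr.p'_nonneg (c.b x)
      have : 0 ≤ c.Λ ^ 2 * c.σ x ^ 2 * (pr.p (c.b x) * pr.p' (c.b x)) := by positivity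
      unfold N; linarith

theorem βnu_le (hW : WOK ν W) (h : Par ε δ) : ∫ x, c.β x * c.nu x ∂ν ≤ 7 * ε * c.Φ := by
  have h1 := (HI.of (c.bd_β.int (c.int_nu hW))).mono (((c.hiM hW).cmul (2 * ε)).add
    ((HI.of ((c.bd_b.int hW.int).congr (ae_of_all _ fun x => mul_comm _ _))).cmul (4 * ε)))
    (c.βnu_pt hW h.ε_pos)
  have h2 := c.Wb_le hW h.ε_pos
  have h3 := c.M_le hW
  have h4 := c.Φt_le hW h.ε_pos
  have h5 := c.Φ_nonneg h.ε_pos hW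
  have h6 := h.ε_pos
  have h7 := h.ε_le
  have h8 : c.M ≤ 3 / 2 * c.Φ := by nlinarith
  nlinarith

theorem Qt_eq (hW : WOK ν W) : c.Qt = c.Φt - ∫ x, c.β x * c.nu x ∂ν := by
  have h1 := c.ELt hW c.β_D
  rw [one_mul] at h1
  exact (c.hiQt hW).uniq (h1.sub (HI.of (c.bd_β.int (c.int_nu hW)))) fun x => by
    rw [real_inner_self_eq_norm_sq]; ring
theorem Qt_le (hW : WOK ν W) : c.Qt ≤ c.Φt := by
  have : 0 ≤ ∫ x, c.β x * c.nu x ∂ν :=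
    integral_nonneg fun x => mul_nonneg (c.β_mem x).1 (c.nu_nonneg hW x)
  rw [c.Qt_eq hW]; linarith
theorem le_Qt (hW : WOK ν W) (h : Par ε δ) : c.I - 7 * ε * c.Φ ≤ c.Qt := by
  have := c.βnu_le hW h
  have := c.I_le_Φ h.ε_pos hW
  have := c.Φ_le_Φt hW h.ε_pos
  rw [c.Qt_eq hW]; linarith

end Crit
end Crest.Agent.N346.P2
end
end

-- ▼ part N346/P2/Core2
section

/-! Row 346, P2, main estimate, part 2: comparison of the two linear functionals (L5),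
the projection inequality, the Bogomolny bound and the neck errors (L8). -/

set_option autoImplicit false
set_option linter.unusedSectionVars false
open MeasureTheory Set
open scoped InnerProductSpace

noncomputable section
namespace Crest.Agent.N346.P2

variable {X : Type} [MeasurableSpace X] {V : Type} [NormedAddCommGroup V] [InnerProductSpace ℝ V]
  {ν : Measure X}

theorem WOK.hi {W : X → ℝ} (hW : WOK ν W) {u : X → ℝ} (hu : Bd u) :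
    HI ν (fun x => W x * u x) (∫ x, W x * u x ∂ν) :=
  HI.of ((hu.int hW.int).congr (ae_of_all _ fun _ => mul_comm _ _))

theorem Prof.C0_nonneg {ε C0 : ℝ} (pr : Prof ε C0) : 0 ≤ C0 / ε :=
  (pr.p'_nonneg 0).trans (pr.p'_le 0 ⟨le_rfl, zero_le_one⟩)

namespace Crit
variable {𝒟 : DClass ν V} {W : X → ℝ} {ε C0 : ℝ} {pr : Prof ε C0} (c : Crit 𝒟 W pr)

def dm (δ : ℝ) (x : X) : ℝ := ‖c.gb x‖ - c.Λ * c.P1 δ x * c.σ x
def dp (δ : ℝ) (x : X) : ℝ := ‖c.gb x‖ + c.Λ * c.P1 δ x * c.σ x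
def Dz (δ : ℝ) (z : X → ℝ) : ℝ :=
  ∫ x, -pr.p'' (c.b x) / c.P1 δ x * z x ^ 2 * c.dm δ x ^ 2 ∂ν
def H (δ : ℝ) (z : X → ℝ) (G : X → V) : ℝ :=
  ∫ x, (‖c.w δ z G x‖ ^ 2 + W x * ((1 - c.chi x) * z x ^ 2)) ∂ν
def x1 (z : X → ℝ) : ℝ := ∫ x, z x * c.nu x ∂ν
def vol : ℝ := (ν {x | c.b x < ε}).toReal

variable {δ : ℝ} {z : X → ℝ} {G : X → V}

theorem σ2 : MemLp (fun x => c.Λ * c.P1 δ x * c.σ x) 2 ν :=
  ((c.bd_P1.cmul c.Λ).mul c.bd_σ).memLp_two ((c.bd_P1.cmul c.Λ).int c.σ_int)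
theorem dm2 : MemLp (c.dm δ) 2 ν := c.gb2.norm.sub c.σ2
theorem dp2 : MemLp (c.dp δ) 2 ν := c.gb2.norm.add c.σ2
theorem hiDz (h : Par ε δ) (hz : Bd z) :
    HI ν (fun x => -pr.p'' (c.b x) / c.P1 δ x * z x ^ 2 * c.dm δ x ^ 2) (c.Dz δ z) :=
  ⟨((c.bd_div h (c.bdb' pr.cp'').neg).mul hz.sq).int c.dm2.integrable_sq, rfl⟩
theorem Dz_nonneg (h : Par ε δ) (hz : Bd z) : 0 ≤ c.Dz δ z := (c.hiDz h hz).nonneg fun x => by
  have := c.P1_pos h x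
  have : 0 ≤ -pr.p'' (c.b x) := neg_nonneg.2 (pr.p''_nonpos _)
  positivity
theorem hiH (hW : WOK ν W) (h : Par ε δ) (hz : 𝒟.D z 0 G) :
    HI ν (fun x => ‖c.w δ z G x‖ ^ 2 + W x * ((1 - c.chi x) * z x ^ 2)) (c.H δ z G) :=
  ⟨(c.hiJ h hz).1.add (hW.hi (((Bd.const 1).sub c.bd_chi).mul (DClass.bd hz).sq)).1, rfl⟩
theorem chi_mem (x : X) : 0 ≤ c.chi x ∧ c.chi x ≤ 1 := by unfold chi; split_ifs <;> simp
theorem J_le_H (hW : WOK ν W) (h : Par ε δ) (hz : 𝒟.D z 0 G) : c.J δ z G ≤ c.H δ z G :=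
  (c.hiJ h hz).mono (c.hiH hW h hz) fun x => by
    have := hW.nonneg x
    have : 0 ≤ 1 - c.chi x := sub_nonneg.2 (c.chi_mem x).2
    have : 0 ≤ W x * ((1 - c.chi x) * z x ^ 2) := by positivity
    linarith
theorem hix1 (hW : WOK ν W) (hz : Bd z) : HI ν (fun x => z x * c.nu x) (c.x1 z) :=
  ⟨hz.int (c.int_nu hW), rfl⟩
theorem hixf (hz : Bd z) :
    HI ν (fun x => 2 * c.Λ ^ 2 * c.σ x ^ 2 * (pr.p (c.b x) * pr.p' (c.b x)) * z x) (c.xf z) :=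
  ⟨(c.int_σ2 ((((c.bdb' pr.cp).mul (c.bdb' pr.cp')).mul hz).cmul (2 * c.Λ ^ 2))).congr
    (ae_of_all _ fun x => by simp only []; ring), rfl⟩
theorem Z_nonneg (hz : Bd z) : 0 ≤ c.Z z := (c.hiZ hz).nonneg fun x =>
  mul_nonneg (c.chi_mem x).1 (sq_nonneg _)
theorem p'_le_chi (x : X) : pr.p' (c.b x) ≤ C0 / ε * c.chi x := by
  unfold chi; split_ifs with hx
  · simpa using pr.p'_le _ (c.b_mem x)
  · simp [pr.p'_zero _ (not_lt.1 hx)]
theorem p''_le_chi (x : X) : -pr.p'' (c.b x) ≤ C0 / ε ^ 2 * c.chi x := by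
  unfold chi; split_ifs with hx
  · simpa using pr.p''_le _ (c.b_mem x)
  · simp [pr.p''_zero _ (not_lt.1 hx)]
theorem σ_sq_le (x : X) : c.σ x ^ 2 ≤ 1 := by
  have := c.σ_mem x; nlinarith [this.1, this.2]

theorem gv_le (hW : WOK ν W) (h : Par ε δ) : ∫ x, ‖c.gb x - c.v x‖ ^ 2 ∂ν ≤ 6 * ε * c.Φ := by
  have h1 := (HI.of (int_normsq (c.gb2.sub c.v2))).mono
    ((HI.of (c.int_g2 (c.bdb' pr.cm'))).add ((c.hiI hW).cmul (16 * ε ^ 2))) fun x => by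
      have e : c.gb x - c.v x = (1 - pr.B' (c.b x)) • c.gb x := by simp [v, sub_smul]
      have h2 : (1 - pr.B' (c.b x)) ^ 2 ≤ pr.m' (c.b x) + 16 * ε ^ 2 := by
        have a1 := pr.B'_nonneg (c.b x)
        have a2 := pr.B'_le (c.b x)
        have a3 := pr.B'_one_le
        have a4 := pr.one_le_B'_one
        have a5 := h.ε_le
        have a6 := h.ε_pos
        rcases le_total (c.b x) (2 * ε) with hb | hb
        · rw [pr.m'_one _ ⟨(c.b_mem x).1, hb⟩]; nlinarith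
        · have := pr.m'_nonneg (c.b x)
          rw [pr.B'_top _ hb]; nlinarith
      simp only [Pi.sub_apply]
      rw [e, norm_smul, mul_pow, Real.norm_eq_abs, sq_abs]
      have := mul_le_mul_of_nonneg_right h2 (sq_nonneg ‖c.gb x‖)
      have : 0 ≤ ε ^ 2 * (W x * c.b x ^ 2) :=
        mul_nonneg (sq_nonneg _) (mul_nonneg (hW.nonneg x) (sq_nonneg _))
      nlinarith
  simp only [Pi.sub_apply] at h1
  have h2 := c.mg_le hW h.ε_pos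
  have h3 := c.I_le_Φ h.ε_pos hW
  have h4 := c.Φ_nonneg h.ε_pos hW
  have h5 := h.ε_pos
  have h6 := h.ε_le
  have : ε ^ 2 * c.I ≤ ε ^ 2 * c.Φ := by gcongr
  have : ε ^ 2 * c.Φ ≤ ε / 8 * c.Φ := by gcongr; nlinarith
  linarith

theorem Wbβ_le (hW : WOK ν W) (hε : 0 < ε) :
    ∫ x, W x * (c.b x - c.β x) ^ 2 ∂ν ≤ 4 * ε * c.Φ := by
  have h1 := (hW.hi (c.bd_b.sub c.bd_β).sq).mono ((hW.hi c.bd_b).cmul (4 * ε)) fun x => by
    have a1 := c.β_le x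
    have a2 := (c.β_mem x).1
    have a3 : c.b x - c.β x ≤ 4 * ε := pr.sub_B_le _ (c.b_mem x)
    have : (c.b x - c.β x) ^ 2 ≤ 4 * ε * c.b x := by nlinarith
    have := mul_le_mul_of_nonneg_left this (hW.nonneg x)
    linarith
  have := c.Wb_le hW hε
  nlinarith

theorem log_le (hW : WOK ν W) (h : Par ε δ) :
    ∫ x, pr.p' (c.b x) / c.P1 δ x * ‖c.gb x‖ ^ 2 ∂ν
      ≤ (Real.log (1 + δ) - Real.log δ) * c.Φ := by
  have hpos : ∀ s ∈ Icc (0 : ℝ) 1, pr.p s + δ ≠ 0 := fun s hs =>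
    (add_pos_of_nonneg_of_pos (pr.p_nonneg h.ε_pos hs) h.δ_pos).ne'
  have h1 := c.div1 hW (fun s => Real.log (pr.p s + δ) - Real.log (1 + δ))
    (fun s => pr.p' s / (pr.p s + δ))
    (fun s hs => (((pr.hp s).add_const δ).log (hpos s hs)).sub_const _)
    (pr.cp'.continuousOn.div (pr.cp.add continuous_const).continuousOn hpos)
  simp only [pr.p_one 1 (by linarith [h.ε_le]), sub_self, zero_mul] at h1
  have := (HI.of (c.int_g2 (c.bd_div h (c.bdb' pr.cp')))).mono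
    (h1.add ((c.hiN hW).cmul (Real.log (1 + δ) - Real.log δ))) fun x => by
      have a1 : Real.log δ ≤ Real.log (pr.p (c.b x) + δ) :=
        Real.log_le_log h.δ_pos (by linarith [pr.p_nonneg h.ε_pos (c.b_mem x)])
      have := mul_le_mul_of_nonneg_right a1 (c.N_nonneg h.ε_pos hW x)
      unfold P1; linarith
  linarith

theorem dp_le (hW : WOK ν W) (h : Par ε δ) :
    ∫ x, pr.p' (c.b x) / c.P1 δ x * c.dp δ x ^ 2 ∂ν ≤ 2 * ((Real.log (1 + δ) - Real.log δ) * c.Φ)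
      + 2 * c.Φ + 2 * (δ * c.Λ ^ 2 * (C0 / ε)) * c.vol := by
  have := (HI.of ((c.bd_div h (c.bdb' pr.cp')).int (c.dp2 (δ := δ)).integrable_sq)).mono
    ((((HI.of (c.int_g2 (c.bd_div h (c.bdb' pr.cp')))).cmul 2).add ((c.hiN hW).cmul 2)).add
      (c.hiChi.cmul (2 * (δ * c.Λ ^ 2 * (C0 / ε))))) fun x => by
      have hp := c.P1_pos h x
      have a1 := pr.p'_nonneg (c.b x)
      have a2 : c.dp δ x ^ 2 ≤ 2 * ‖c.gb x‖ ^ 2 + 2 * (c.Λ * c.P1 δ x * c.σ x) ^ 2 := by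
        unfold dp; nlinarith [sq_nonneg (‖c.gb x‖ - c.Λ * c.P1 δ x * c.σ x)]
      have a3 := mul_le_mul_of_nonneg_left a2 (div_nonneg a1 hp.le)
      have a4 : pr.p' (c.b x) / c.P1 δ x * (c.Λ * c.P1 δ x * c.σ x) ^ 2
          = c.Λ ^ 2 * c.σ x ^ 2 * (pr.p (c.b x) * pr.p' (c.b x))
            + δ * c.Λ ^ 2 * (c.σ x ^ 2 * pr.p' (c.b x)) := by
        field_simp; unfold P1; ring
      have a5 : c.σ x ^ 2 * pr.p' (c.b x) ≤ C0 / ε * c.chi x := by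
        have := mul_le_mul_of_nonneg_right (c.σ_sq_le x) a1
        linarith [c.p'_le_chi x]
      have a6 := mul_le_mul_of_nonneg_left a5 (mul_nonneg h.δ_pos.le (sq_nonneg c.Λ))
      have a7 := mul_nonneg (hW.nonneg x) (c.b_mem x).1
      unfold N; nlinarith
  unfold vol
  linarith [c.log_le hW h]

/-- L5. -/
theorem x1_sub_xf (hW : WOK ν W) (h : Par ε δ) (hz : 𝒟.D z 0 G) :
    (c.x1 z - c.xf z) ^ 2 ≤ 4 * (c.J δ z G * (6 * ε * c.Φ)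
      + (∫ x, W x * z x ^ 2 ∂ν) * (4 * ε * c.Φ)
      + c.Dz δ z * (C0 * ε * (2 * ((Real.log (1 + δ) - Real.log δ) * c.Φ)
        + 2 * c.Φ + 2 * (δ * c.Λ ^ 2 * (C0 / ε)) * c.vol))
      + c.Z z * ((δ * c.Λ ^ 2 * (C0 / ε)) ^ 2 * c.vol)) := by
  have bz := DClass.bd hz
  have i1 := HI.of (int_inner (c.w2 h hz) (c.gb2.sub c.v2))
  have i2 := hW.hi (bz.mul (c.bd_b.sub c.bd_β))
  have i3 := HI.of ((bz.mul (c.bd_div h (c.bdb' pr.cp'))).int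
    (MemLp.integrable_mul (c.dm2 (δ := δ)) (c.dp2 (δ := δ))))
  have i4 := HI.of (c.int_σ2 ((bz.mul (c.bdb' pr.cp')).cmul (δ * c.Λ ^ 2)))
  have e := ((c.hix1 hW bz).sub (c.hixf bz)).uniq
    ((((((c.ELt hW hz).sub (c.EL' hW hz)).add i1).add i2).add i3).add i4) fun x => by
      have hp := (c.P1_pos h x).ne'
      simp only [Pi.sub_apply, Pi.mul_apply, inner_sub_right]
      rw [inner_w, real_inner_comm (c.v x), inner_v_w, real_inner_comm (G x) (c.gb x)]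
      simp only [N, dm, dp]
      field_simp
      unfold P1; ring
  have b1 := (c.hiJ h hz).cs (HI.of (int_normsq (c.gb2.sub c.v2))) i1 (fun _ => sq_nonneg _)
    (fun _ => sq_nonneg _) fun x => inner_sq_le _ _
  have b2 := (hW.hi bz.sq).cs (hW.hi (c.bd_b.sub c.bd_β).sq) i2
    (fun x => mul_nonneg (hW.nonneg x) (sq_nonneg _))
    (fun x => mul_nonneg (hW.nonneg x) (sq_nonneg _)) fun x => le_of_eq (by ring)
  have hCε : 0 ≤ C0 * ε := by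
    have := mul_nonneg pr.C0_nonneg (sq_nonneg ε)
    have e2 : C0 / ε * ε ^ 2 = C0 * ε := by field_simp [h.ε_pos.ne']
    linarith
  have b3 := (c.hiDz h bz).cs ((HI.of ((c.bd_div h (c.bdb' pr.cp')).int
    (c.dp2 (δ := δ)).integrable_sq)).cmul (C0 * ε)) i3
    (fun x => by
      have := c.P1_pos h x
      have : 0 ≤ -pr.p'' (c.b x) := neg_nonneg.2 (pr.p''_nonpos _)
      positivity)
    (fun x => by
      have := c.P1_pos h x
      have := pr.p'_nonneg (c.b x)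
      positivity)
    fun x => by
      have hp := c.P1_pos h x
      have a1 := pr.p'_nonneg (c.b x)
      have a2 := mul_le_mul_of_nonneg_right (pr.p'_le_p'' _ (c.b_mem x)) a1
      have a3 : 0 ≤ (z x * c.dm δ x * c.dp δ x / c.P1 δ x) ^ 2 := sq_nonneg _
      have a4 := mul_le_mul_of_nonneg_right a2 a3
      simp only [Pi.mul_apply]
      calc _ = pr.p' (c.b x) * pr.p' (c.b x) * (z x * c.dm δ x * c.dp δ x / c.P1 δ x) ^ 2 := by
            field_simp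
        _ ≤ _ := a4
        _ = _ := by field_simp
  have b4 := (c.hiZ bz).cs (c.hiChi.cmul ((δ * c.Λ ^ 2 * (C0 / ε)) ^ 2)) i4
    (fun x => mul_nonneg (c.chi_mem x).1 (sq_nonneg _))
    (fun x => mul_nonneg (sq_nonneg _) (c.chi_mem x).1) fun x => by
      have a1 := pr.p'_nonneg (c.b x)
      have a5 : c.σ x ^ 2 * pr.p' (c.b x) ≤ C0 / ε * c.chi x := by
        have := mul_le_mul_of_nonneg_right (c.σ_sq_le x) a1
        linarith [c.p'_le_chi x]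
      have a6 := mul_self_le_mul_self (by positivity) a5
      have a7 := mul_le_mul_of_nonneg_left a6 (sq_nonneg (δ * c.Λ ^ 2 * z x))
      calc _ = (δ * c.Λ ^ 2 * z x) ^ 2
            * (c.σ x ^ 2 * pr.p' (c.b x) * (c.σ x ^ 2 * pr.p' (c.b x))) := by ring
        _ ≤ _ := a7
        _ = _ := by ring
  simp only [Pi.sub_apply] at b1 e
  have c1 := mul_le_mul_of_nonneg_left (c.gv_le hW h) (c.J_nonneg (δ := δ) (z := z) (G := G))
  have c2 := mul_le_mul_of_nonneg_left (c.Wbβ_le hW h.ε_pos)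
    ((hW.hi bz.sq).nonneg fun x => mul_nonneg (hW.nonneg x) (sq_nonneg _))
  have c3 := mul_le_mul_of_nonneg_left (mul_le_mul_of_nonneg_left (c.dp_le hW h) hCε)
    (c.Dz_nonneg h bz)
  have key : ∀ d1 d2 d3 d4 : ℝ, (d1 + d2 + d3 + d4) ^ 2 ≤ 4 * (d1 ^ 2 + d2 ^ 2 + d3 ^ 2 + d4 ^ 2) :=
    fun d1 d2 d3 d4 => by
      nlinarith [sq_nonneg (d1 - d2), sq_nonneg (d1 - d3), sq_nonneg (d1 - d4),
        sq_nonneg (d2 - d3), sq_nonneg (d2 - d4), sq_nonneg (d3 - d4)]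
  rw [e, zero_mul, zero_mul, sub_self, zero_add]
  refine (key _ _ _ _).trans ?_
  unfold vol at *
  linarith

end Crit

namespace Neck
variable {𝒟 : DClass ν V} {a q τ₀ ω : ℝ} (nk : Neck 𝒟 a q τ₀ ω)

theorem dθ2 : MemLp nk.dθ 2 ν := 𝒟.memG nk.θ_D
theorem bd_θ : Bd nk.θ := DClass.bd nk.θ_D
theorem hiFlux {h : X → ℝ} {k : ℝ} {G : X → V} (hh : 𝒟.D h k G) :
    HI ν (fun x => nk.θ x * ⟪nk.e x, G x⟫_ℝ + h x * ⟪nk.e x, nk.dθ x⟫_ℝ) (k * q) := by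
  have : HI ν (fun x => ⟪nk.e x, nk.θ x • G x + h x • nk.dθ x⟫_ℝ) (k * q) :=
    ⟨int_inner nk.e_memLp ((nk.bd_θ.smul_memLp (𝒟.memG hh)).add
      ((DClass.bd hh).smul_memLp nk.dθ2)), nk.flux hh⟩
  exact this.congr fun x => by simp only [inner_add_right, inner_smul_right]
theorem int_edθ {u : X → ℝ} (hu : Bd u) :
    Integrable (fun x => u x * ⟪nk.e x, nk.dθ x⟫_ℝ) ν := hu.int (int_inner nk.e_memLp nk.dθ2)
theorem edθ_sq (x : X) : ⟪nk.e x, nk.dθ x⟫_ℝ ^ 2 ≤ (ω * nk.W x) ^ 2 := by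
  have := mul_le_mul (nk.e_le x) (nk.dθ_sq_le x) (sq_nonneg _) (nk.W_nonneg x)
  have := inner_sq_le (nk.e x) (nk.dθ x)
  nlinarith
theorem edθ_abs (hω : 0 ≤ ω) (x : X) : |⟪nk.e x, nk.dθ x⟫_ℝ| ≤ ω * nk.W x :=
  abs_le_of_sq_le_sq' (nk.edθ_sq x) (mul_nonneg hω (nk.W_nonneg x)) |> abs_le.2
end Neck

namespace Crit
variable {𝒟 : DClass ν V} {a q τ₀ ω : ℝ} {nk : Neck 𝒟 a q τ₀ ω} {ε C0 : ℝ} {pr : Prof ε C0}
  (c : Crit 𝒟 nk.W pr) {δ : ℝ} {z : X → ℝ} {G : X → V}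

def r1 (z : X → ℝ) : ℝ := ∫ x, c.β x * z x * ⟪nk.e x, nk.dθ x⟫_ℝ ∂ν
def r2 : ℝ := ∫ x, c.β x * c.β x * ⟪nk.e x, nk.dθ x⟫_ℝ ∂ν
def bb : ℝ := ∫ x, nk.W x * c.b x ^ 2 ∂ν
def xd (z : X → ℝ) : ℝ := ∫ x, (1 - nk.θ x) * z x * c.nu x ∂ν

theorem Wβ_le : ∫ x, nk.W x * c.β x ^ 2 ∂ν ≤ c.bb :=
  (nk.wok.hi c.bd_β.sq).mono (nk.wok.hi c.bd_b.sq) fun x =>
    mul_le_mul_of_nonneg_left (pow_le_pow_left₀ (c.β_mem x).1 (c.β_le x) 2) (nk.W_nonneg x)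

theorem r1_sq (hz : Bd z) : c.r1 z ^ 2 ≤ ω ^ 2 * c.bb * ∫ x, nk.W x * z x ^ 2 ∂ν := by
  have := ((nk.wok.hi c.bd_β.sq).cmul (ω ^ 2)).cs (nk.wok.hi hz.sq)
    (HI.of (nk.int_edθ (c.bd_β.mul hz)))
    (fun x => mul_nonneg (sq_nonneg _) (mul_nonneg (nk.W_nonneg x) (sq_nonneg _)))
    (fun x => mul_nonneg (nk.W_nonneg x) (sq_nonneg _)) fun x => by
      have := mul_le_mul_of_nonneg_left (nk.edθ_sq x) (sq_nonneg (c.β x * z x))
      nlinarith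
  refine this.trans (mul_le_mul_of_nonneg_right
    (mul_le_mul_of_nonneg_left c.Wβ_le (sq_nonneg _)) ?_)
  exact (nk.wok.hi hz.sq).nonneg fun x => mul_nonneg (nk.W_nonneg x) (sq_nonneg _)

theorem r2_abs (hω : 0 ≤ ω) : |c.r2| ≤ ω * c.bb := by
  have h0 := mul_le_mul_of_nonneg_left c.Wβ_le hω
  have h1 := (HI.of (nk.int_edθ (c.bd_β.mul c.bd_β))).mono ((nk.wok.hi c.bd_β.sq).cmul ω)
    fun x => by
      have := mul_le_mul_of_nonneg_left (abs_le.1 (nk.edθ_abs hω x)).2 (mul_self_nonneg (c.β x))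
      nlinarith
  have h2 := ((nk.wok.hi c.bd_β.sq).cmul (-ω)).mono (HI.of (nk.int_edθ (c.bd_β.mul c.bd_β)))
    fun x => by
      have := mul_le_mul_of_nonneg_left (abs_le.1 (nk.edθ_abs hω x)).1 (mul_self_nonneg (c.β x))
      nlinarith
  unfold r2; rw [abs_le]; constructor <;> linarith

theorem zero_of_lt {x : X} (hx : c.b x < ε) : c.β x = 0 ∧ c.v x = 0 ∧ c.chi x = 1 :=
  ⟨pr.B_zero _ hx.le, by simp [v, pr.B'_zero _ hx.le], by simp [chi, hx]⟩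

/-- L8: the projection inequality. -/
theorem proj (h : Par ε δ) (hz : 𝒟.D z 0 G) (u u' : ℝ) :
    -2 * u * c.x1 z - 2 * u' * c.r1 z - (u ^ 2 + u' ^ 2) * c.Qt - 2 * u * u' * (q - c.r2)
      ≤ c.H δ z G := by
  have hW := nk.wok
  have bz := DClass.bd hz
  have f1 := (nk.hiFlux (𝒟.mul c.β_D hz)).sub (HI.of (nk.int_edθ (c.bd_β.mul bz)))
  have f2 := (nk.hiFlux (𝒟.mul c.β_D c.β_D)).sub (HI.of (nk.int_edθ (c.bd_β.mul c.bd_β)))
  have := ((((((c.ELt hW hz).sub (c.hix1 hW bz)).cmul (2 * u)).add (f1.cmul (2 * u'))).sub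
    ((c.hiQt hW).cmul (u ^ 2 + u' ^ 2))).sub (f2.cmul (2 * u * u'))).mono (c.hiH hW h hz)
    fun x => by
      simp only [inner_add_right, inner_smul_right]
      by_cases hx : c.b x < ε
      · obtain ⟨e1, e2, e3⟩ := c.zero_of_lt hx
        simp [e1, e2, e3]
      · have e3 : c.chi x = 0 := by simp [chi, hx]
        rw [c.w_eq (not_lt.1 hx), e3]
        have p1 := sq_nonneg ‖G x - u • c.v x - (u' * c.β x * nk.θ x) • nk.e x‖
        have p2 := sq_nonneg ‖((z x - u * c.β x) * nk.θ x) • nk.e x - u' • c.v x‖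
        have hθ : nk.θ x ^ 2 * ‖nk.e x‖ ^ 2 ≤ nk.W x := by
          have := nk.θ_mem x
          have t1 : nk.θ x ^ 2 ≤ 1 := by nlinarith [this.1, this.2]
          have := mul_le_mul_of_nonneg_right t1 (sq_nonneg ‖nk.e x‖)
          linarith [nk.e_le x]
        have p3 := mul_le_mul_of_nonneg_right hθ (sq_nonneg (z x - u * c.β x))
        have p4 := mul_le_mul_of_nonneg_right hθ (sq_nonneg (u' * c.β x))
        simp only [norm_sub_sq_real, inner_sub_left, inner_smul_left, inner_smul_right, norm_smul,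
          mul_pow, Real.norm_eq_abs, sq_abs, RCLike.conj_to_real] at p1 p2 p4
        rw [real_inner_comm (c.v x) (G x), real_inner_comm (nk.e x) (G x),
          real_inner_comm (nk.e x) (c.v x)] at p1
        nlinarith
  unfold r1 r2
  linarith

/-- The Bogomolny bound for the total mass of `nu`. -/
theorem bogo {T : ℝ} (hT0 : 0 ≤ T) (hT : T < 1) :
    Real.sqrt (1 - T ^ 2) * c.M ≤ c.Φt - T * (q - c.r2) := by
  have hW := nk.wok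
  have hpos : ∀ s : ℝ, 0 < T ^ 2 * s ^ 2 + (1 - T ^ 2) := fun s => by
    have : 0 < 1 - T ^ 2 := by nlinarith
    positivity
  have hj : ∀ s : ℝ, 0 < Real.sqrt (T ^ 2 * s ^ 2 + (1 - T ^ 2)) := fun s =>
    Real.sqrt_pos.2 (hpos s)
  have hD := 𝒟.comp (fun s => Real.sqrt (T ^ 2 * s ^ 2 + (1 - T ^ 2)))
    (fun s => T ^ 2 * s / Real.sqrt (T ^ 2 * s ^ 2 + (1 - T ^ 2))) 0 1 c.β_D c.β_mem
    ⟨zero_le_one, le_rfl⟩ (fun s _ => by
      have := ((((hasDerivAt_pow 2 s).const_mul (T ^ 2)).add_const (1 - T ^ 2)).sqrt (hpos s).ne')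
      convert this using 1
      have := (hj s).ne'
      field_simp; ring)
    (ContinuousOn.div (by fun_prop) (by fun_prop) fun s _ => (hj s).ne')
  have e1 : Real.sqrt (T ^ 2 * 1 ^ 2 + (1 - T ^ 2)) = 1 := by simp
  have h1 := c.ELt hW hD
  simp only [e1, one_mul] at h1
  have f2 := (nk.hiFlux (𝒟.mul c.β_D c.β_D)).sub (HI.of (nk.int_edθ (c.bd_β.mul c.bd_β)))
  have := (((c.hiM hW).cmul (Real.sqrt (1 - T ^ 2))).add (f2.cmul T)).mono h1 fun x => by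
    set j := Real.sqrt (T ^ 2 * c.β x ^ 2 + (1 - T ^ 2)) with hjdef
    have j0 : 0 < j := hj _
    have a1 : Real.sqrt (1 - T ^ 2) ≤ j := Real.sqrt_le_sqrt (by nlinarith [sq_nonneg (T * c.β x)])
    have a2 := mul_le_mul_of_nonneg_right a1 (c.nu_nonneg hW x)
    have a3 := (le_abs_self _).trans (two_inner_le (T • c.v x) (nk.e x) (nk.θ x) j j0)
    have hθ : nk.θ x ^ 2 * ‖nk.e x‖ ^ 2 ≤ nk.W x := by
      have := nk.θ_mem x
      have t1 : nk.θ x ^ 2 ≤ 1 := by nlinarith [this.1, this.2]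
      have := mul_le_mul_of_nonneg_right t1 (sq_nonneg ‖nk.e x‖)
      linarith [nk.e_le x]
    have a4 := mul_le_mul_of_nonneg_left hθ j0.le
    rw [inner_smul_left, norm_smul, mul_pow, Real.norm_eq_abs, sq_abs, real_inner_comm] at a3
    simp only [RCLike.conj_to_real] at a3
    have a5 := mul_le_mul_of_nonneg_left (a3.trans (add_le_add_left a4 _)) (c.β_mem x).1
    simp only [inner_add_right, inner_smul_right, real_inner_self_eq_norm_sq]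
    have e2 : T ^ 2 * c.β x / j * ‖c.v x‖ ^ 2 = c.β x * (T ^ 2 * ‖c.v x‖ ^ 2 / j) := by ring
    rw [e2]; nlinarith
  unfold r2; linarith

theorem cacc : ∫ x, nk.θ₀ x ^ 2 * (‖c.v x‖ ^ 2 + nk.W x * c.β x ^ 2) ∂ν ≤ 4 * ω ^ 2 * c.bb := by
  have hW := nk.wok
  have h1 := c.ELt hW (𝒟.mul (𝒟.mul nk.θ₀_D nk.θ₀_D) c.β_D)
  have := (HI.of ((DClass.bd nk.θ₀_D).sq.int (c.hiQt hW).1)).mono
    ((h1.cmul 2).add ((hW.hi c.bd_β.sq).cmul (4 * ω ^ 2))) fun x => by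
      have a1 := (neg_le_abs _).trans
        (two_inner_le (c.β x • nk.dθ₀ x) (c.v x) (nk.θ₀ x) (1 / 2) (by norm_num))
      rw [inner_smul_left, norm_smul, mul_pow, Real.norm_eq_abs, sq_abs, real_inner_comm] at a1
      simp only [RCLike.conj_to_real] at a1
      have a2 := mul_le_mul_of_nonneg_left (nk.dθ₀_le x) (sq_nonneg (c.β x))
      have a3 : 0 ≤ nk.θ₀ x ^ 2 * (c.β x * c.nu x) :=
        mul_nonneg (sq_nonneg _) (mul_nonneg (c.β_mem x).1 (c.nu_nonneg hW x))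
      have a4 : 0 ≤ nk.θ₀ x ^ 2 * (nk.W x * c.β x ^ 2) :=
        mul_nonneg (sq_nonneg _) (mul_nonneg (nk.W_nonneg x) (sq_nonneg _))
      simp only [inner_add_right, inner_smul_right, real_inner_self_eq_norm_sq]
      nlinarith
  have := mul_le_mul_of_nonneg_left c.Wβ_le (by positivity : 0 ≤ 4 * ω ^ 2)
  linarith

theorem xd_sq (h : Par ε δ) (hz : 𝒟.D z 0 G) (hω0 : 0 ≤ ω) (hω : ω ≤ 1) :
    c.xd z ^ 2 ≤ 16 * ω ^ 2 * c.bb * c.H δ z G := by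
  have hW := nk.wok
  have bz := DClass.bd hz
  have b1 : Bd fun x => 1 - nk.θ x := (Bd.const 1).sub nk.bd_θ
  have h1 := c.ELt hW (𝒟.mul (𝒟.add (𝒟.const 1) (𝒟.smul (-1) nk.θ_D)) hz)
  have i1 := HI.of (b1.int ((int_inner c.v2 (𝒟.memG hz)).add (hW.hi (c.bd_β.mul bz)).1))
  have i2 := HI.of (bz.int (int_inner c.v2 nk.dθ2))
  have iC := HI.of ((DClass.bd nk.θ₀_D).sq.int (c.hiQt hW).1)
  have e := (HI.of ((b1.mul bz).int (c.int_nu hW))).uniq ((h1.sub i1).add i2) fun x => by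
    simp only [inner_add_right, inner_smul_right, inner_zero_right, Pi.add_apply]; ring
  have n1 : ∀ x, 0 ≤ ‖c.w δ z G x‖ ^ 2 + nk.W x * ((1 - c.chi x) * z x ^ 2) := fun x => by
    have := hW.nonneg x
    have : 0 ≤ 1 - c.chi x := sub_nonneg.2 (c.chi_mem x).2
    positivity
  have n2 : ∀ x, 0 ≤ nk.θ₀ x ^ 2 * (‖c.v x‖ ^ 2 + nk.W x * c.β x ^ 2) := fun x => by
    have := hW.nonneg x
    positivity
  have c1 := (c.hiH hW h hz).cs iC i1 n1 n2 fun x => by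
    by_cases hθ : nk.θ x = 1
    · simpa [hθ] using mul_nonneg (n1 x) (n2 x)
    by_cases hx : c.b x < ε
    · obtain ⟨e1, e2, e3⟩ := c.zero_of_lt hx
      simp [e1, e2]
    have e3 : c.chi x = 0 := by simp [chi, hx]
    rw [c.w_eq (not_lt.1 hx), e3, nk.θ₀_one x hθ]
    have a1 := (le_abs_self _).trans (two_inner_le (c.β x • G x) (c.v x) (z x) 1 one_pos)
    rw [inner_smul_left, norm_smul, mul_pow, Real.norm_eq_abs, sq_abs, real_inner_comm] at a1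
    simp only [RCLike.conj_to_real] at a1
    have a2 := mul_le_mul_of_nonneg_left a1 (hW.nonneg x)
    have a3 := inner_sq_le (c.v x) (G x)
    have a4 : (1 - nk.θ x) ^ 2 ≤ 1 := by have := nk.θ_mem x; nlinarith [this.1, this.2]
    have a5 := mul_le_mul_of_nonneg_right a4
      (sq_nonneg (⟪c.v x, G x⟫_ℝ + nk.W x * (c.β x * z x)))
    simp only [Pi.add_apply]
    nlinarith
  have c2 := (c.hiH hW h hz).cs iC i2 n1 n2 fun x => by
    by_cases hθ : nk.θ x = 1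
    · have : ‖nk.dθ x‖ ^ 2 ≤ 0 := by simpa [hθ] using nk.dθ_le x
      have : nk.dθ x = 0 := by simpa using le_antisymm this (sq_nonneg _)
      simpa [this] using mul_nonneg (n1 x) (n2 x)
    by_cases hx : c.b x < ε
    · obtain ⟨e1, e2, e3⟩ := c.zero_of_lt hx
      simp [e1, e2]
    have e3 : c.chi x = 0 := by simp [chi, hx]
    rw [c.w_eq (not_lt.1 hx), e3, nk.θ₀_one x hθ]
    have a1 := inner_sq_le (c.v x) (nk.dθ x)
    have a0 := hW.nonneg x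
    have a2 : ‖nk.dθ x‖ ^ 2 ≤ nk.W x := by
      have := nk.dθ_sq_le x
      have : ω ^ 2 * nk.W x ≤ 1 * nk.W x := mul_le_mul_of_nonneg_right (by nlinarith) a0
      linarith
    have a3 := mul_le_mul_of_nonneg_left
      (a1.trans (mul_le_mul_of_nonneg_left a2 (sq_nonneg _))) (sq_nonneg (z x))
    have : 0 ≤ ‖G x‖ ^ 2 * (‖c.v x‖ ^ 2 + nk.W x * c.β x ^ 2) := by positivity
    have : 0 ≤ nk.W x * z x ^ 2 * (nk.W x * c.β x ^ 2) := by positivity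
    nlinarith
  have hH := (c.hiH hW h hz).nonneg n1
  have c3 := mul_le_mul_of_nonneg_left c.cacc hH
  unfold xd; rw [e]
  simp only [mul_zero, zero_mul, zero_sub]
  have key : ∀ d1 d2 : ℝ, (-d1 + d2) ^ 2 ≤ 2 * d1 ^ 2 + 2 * d2 ^ 2 := fun d1 d2 => by
    nlinarith [sq_nonneg (d1 + d2)]
  refine (key _ _).trans ?_
  linarith

end Crit
end Crest.Agent.N346.P2
end
end

-- ▼ part N346/P2/Core3
section

/-! Row 346, P2, main estimate, part 3: pairs; the lower bound for `K₀` (L4) and the bound for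
the antisymmetric part (L6). -/

set_option autoImplicit false
set_option linter.unusedSectionVars false
open MeasureTheory Set
open scoped InnerProductSpace

noncomputable section
namespace Crest.Agent.N346.P2

variable {X : Type} [MeasurableSpace X] {V : Type} [NormedAddCommGroup V] [InnerProductSpace ℝ V]
  {ν : Measure X}

theorem int_smul {u : X → ℝ} {G : X → V} (hu : MemLp u 2 ν) (hG : MemLp G 2 ν) :
    Integrable (fun x => u x • G x) ν :=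
  (MemLp.integrable_mul hu.norm hG.norm).mono' (hu.1.smul hG.1)
    (ae_of_all _ fun x => by simp [norm_smul])

theorem Bd.smul_int {u : X → ℝ} {G : X → V} (hu : Bd u) (hG : Integrable G ν) :
    Integrable (fun x => u x • G x) ν :=
  (hu.abs.int hG.norm).mono' (hu.1.aestronglyMeasurable.smul hG.1)
    (ae_of_all _ fun x => by simp [norm_smul])

/-- a bundled admissible pair -/
structure Pair (𝒟 : DClass ν V) (ρ : X → ℝ) where
  t : ℝ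
  Y₁ : X → ℝ
  Y₂ : X → ℝ
  G₁ : X → V
  G₂ : X → V
  is : IsPair 𝒟 ρ t Y₁ Y₂ G₁ G₂
  ht : t = 0 ∨ t = 1

namespace Pair
variable {𝒟 : DClass ν V} {ρ : X → ℝ} (P : Pair 𝒟 ρ)
theorem t_sq : P.t ^ 2 = P.t := by rcases P.ht with h | h <;> simp [h]
theorem t_nonneg : 0 ≤ P.t := by rcases P.ht with h | h <;> simp [h]
theorem t_le : P.t ≤ 1 := by rcases P.ht with h | h <;> simp [h]
def Yp (x : X) : ℝ := 1 / 2 * P.Y₁ x + 1 / 2 * P.Y₂ x
def Ym (x : X) : ℝ := 1 / 2 * P.Y₁ x + -(1 / 2) * P.Y₂ x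
def Gp (x : X) : V := (1 / 2 : ℝ) • P.G₁ x + (1 / 2 : ℝ) • P.G₂ x
def Gm (x : X) : V := (1 / 2 : ℝ) • P.G₁ x + (-(1 / 2) : ℝ) • P.G₂ x
theorem Yp_D : 𝒟.D P.Yp (P.t / 2) P.Gp := by
  have := 𝒟.add (𝒟.smul (1 / 2) P.is.d₁) (𝒟.smul (1 / 2) P.is.d₂)
  rwa [show 1 / 2 * P.t + 1 / 2 * 0 = P.t / 2 by ring] at this
theorem Ym_D : 𝒟.D P.Ym (P.t / 2) P.Gm := by
  have := 𝒟.add (𝒟.smul (1 / 2) P.is.d₁) (𝒟.smul (-(1 / 2)) P.is.d₂)
  rwa [show 1 / 2 * P.t + -(1 / 2) * 0 = P.t / 2 by ring] at this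
theorem Ym_sq_le (x : X) : P.Ym x ^ 2 ≤ P.Yp x ^ 2 := by
  have := mul_nonneg (P.is.nn₁ x) (P.is.nn₂ x)
  unfold Ym Yp; nlinarith
theorem bd_sq : Bd fun x => P.Y₁ x ^ 2 + P.Y₂ x ^ 2 :=
  (DClass.bd P.is.d₁).sq.add (DClass.bd P.is.d₂).sq
/-- `S = ∫ W (Y₁² + Y₂²)` -/
def S (W : X → ℝ) : ℝ := ∫ x, W x * (P.Y₁ x ^ 2 + P.Y₂ x ^ 2) ∂ν
theorem hiS {W : X → ℝ} (hW : WOK ν W) :
    HI ν (fun x => W x * (P.Y₁ x ^ 2 + P.Y₂ x ^ 2)) (P.S W) := hW.hi P.bd_sq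
theorem S_nonneg {W : X → ℝ} (hW : WOK ν W) : 0 ≤ P.S W :=
  (P.hiS hW).nonneg fun x => mul_nonneg (hW.nonneg x) (by positivity)
end Pair

namespace Crit
variable {𝒟 : DClass ν V} {a q τ₀ ω : ℝ} {nk : Neck 𝒟 a q τ₀ ω} {ε C0 : ℝ} {pr : Prof ε C0}
  (c : Crit 𝒟 nk.W pr) (P : Pair 𝒟 nk.ρ) {δ : ℝ}

def zf (x : X) : ℝ := P.Yp x + -(P.t / 2) * c.β x
def Gz (x : X) : V := P.Gp x + (-(P.t / 2)) • c.v x
def ξf (x : X) : ℝ := P.Ym x + -(P.t / 2) * c.β x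
def Gξ (x : X) : V := P.Gm x + (-(P.t / 2)) • c.v x
theorem z_D : 𝒟.D (c.zf P) 0 (c.Gz P) := by
  have := 𝒟.add P.Yp_D (𝒟.smul (-(P.t / 2)) c.β_D)
  rwa [show P.t / 2 + -(P.t / 2) * 1 = 0 by ring] at this
theorem ξ_D : 𝒟.D (c.ξf P) 0 (c.Gξ P) := by
  have := 𝒟.add P.Ym_D (𝒟.smul (-(P.t / 2)) c.β_D)
  rwa [show P.t / 2 + -(P.t / 2) * 1 = 0 by ring] at this
theorem G₁_eq (x : X) : P.G₁ x = c.Gz P x + c.Gξ P x + P.t • c.v x := by
  simp only [Gz, Gξ, Pair.Gp, Pair.Gm]; module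
theorem G₂_eq (x : X) : P.G₂ x = c.Gz P x - c.Gξ P x := by
  simp only [Gz, Gξ, Pair.Gp, Pair.Gm]; module
theorem Y₁_eq (x : X) : P.Y₁ x = c.zf P x + c.ξf P x + P.t * c.β x := by
  simp only [zf, ξf, Pair.Yp, Pair.Ym]; ring
theorem Y₂_eq (x : X) : P.Y₂ x = c.zf P x - c.ξf P x := by
  simp only [zf, ξf, Pair.Yp, Pair.Ym]; ring
theorem normsq_G (x : X) : ‖P.G₁ x‖ ^ 2 + ‖P.G₂ x‖ ^ 2 = 2 * ‖c.Gz P x‖ ^ 2 + 2 * ‖c.Gξ P x‖ ^ 2
    + 2 * P.t * ⟪c.v x, c.Gz P x⟫_ℝ + 2 * P.t * ⟪c.v x, c.Gξ P x⟫_ℝ + P.t * ‖c.v x‖ ^ 2 := by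
  rw [c.G₁_eq P x, c.G₂_eq P x]
  simp only [norm_add_sq_real, norm_sub_sq_real, inner_add_right, inner_smul_right, norm_smul,
    mul_pow, Real.norm_eq_abs, sq_abs, P.t_sq, real_inner_comm (c.v x)]
  ring

def Qξ : ℝ := ∫ x, (‖c.Gξ P x‖ ^ 2 + nk.W x * c.ξf P x ^ 2) ∂ν
def Fm : ℝ := ∫ x, c.f x ^ 2 * P.Ym x ^ 2 ∂ν
def Nm : ℝ := ∫ x, P.Ym x ^ 2 * c.nu x ∂ν
def K0 : ℝ := ∫ x, (‖P.G₁ x‖ ^ 2 + ‖P.G₂ x‖ ^ 2
  + (nk.ρ x + (c.f x + nk.P x) ^ 2) * (P.Y₁ x ^ 2 + P.Y₂ x ^ 2)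
  - 2 * ‖c.df x + nk.dP x‖ * P.Y₁ x * P.Y₂ x) ∂ν

theorem hiQξ : HI ν (fun x => ‖c.Gξ P x‖ ^ 2 + nk.W x * c.ξf P x ^ 2) (c.Qξ P) :=
  ⟨(int_normsq (𝒟.memG (c.ξ_D P))).add (nk.wok.hi (DClass.bd (c.ξ_D P)).sq).1, rfl⟩
theorem Qξ_nonneg : 0 ≤ c.Qξ P := (c.hiQξ P).nonneg fun x => by
  have := nk.W_nonneg x; positivity
theorem bd_f : Bd c.f := (c.bd_σ.cmul c.Λ).mul (c.bdb' pr.cp')
theorem f_nonneg (x : X) : 0 ≤ c.f x :=
  mul_nonneg (mul_nonneg c.Λ_pos.le (c.σ_mem x).1) (pr.p'_nonneg _)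
theorem int_f : Integrable c.f ν :=
  (((c.bdb' pr.cp').cmul c.Λ).int c.σ_int).congr (ae_of_all _ fun x => by simp only [f]; ring)
theorem int_df : Integrable c.df ν := by
  have h1 : MemLp (fun x => c.Λ * c.σ x * pr.p'' (c.b x)) 2 ν :=
    ((c.bd_σ.cmul c.Λ).mul (c.bdb' pr.cp'')).memLp_two
      ((((c.bdb' pr.cp'').cmul c.Λ).int c.σ_int).congr (ae_of_all _ fun x => by simp only []; ring))
  exact (int_smul h1 c.gb2).add (((c.bdb' pr.cp').cmul c.Λ).smul_int c.dσ_int)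
theorem hiFm : HI ν (fun x => c.f x ^ 2 * P.Ym x ^ 2) (c.Fm P) :=
  ⟨((c.bd_f.mul (DClass.bd P.Ym_D).sq).int c.int_f).congr
    (ae_of_all _ fun x => by simp only []; ring), rfl⟩
theorem Fm_nonneg : 0 ≤ c.Fm P := (c.hiFm P).nonneg fun x => by positivity
theorem hiNm : HI ν (fun x => P.Ym x ^ 2 * c.nu x) (c.Nm P) :=
  ⟨(DClass.bd P.Ym_D).sq.int (c.int_nu nk.wok), rfl⟩
theorem hiK0 : HI ν (fun x => ‖P.G₁ x‖ ^ 2 + ‖P.G₂ x‖ ^ 2
    + (nk.ρ x + (c.f x + nk.P x) ^ 2) * (P.Y₁ x ^ 2 + P.Y₂ x ^ 2)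
    - 2 * ‖c.df x + nk.dP x‖ * P.Y₁ x * P.Y₂ x) (c.K0 P) := by
  refine ⟨?_, rfl⟩
  have h1 := ((c.bd_f.add (DClass.bd nk.P_D)).mul P.bd_sq).int (c.int_f.add nk.P_int)
  have h2 := (((DClass.bd P.is.d₁).mul (DClass.bd P.is.d₂)).cmul 2).int
    (c.int_df.add nk.dP_int).norm
  exact (((((int_normsq (𝒟.memG P.is.d₁)).add (int_normsq (𝒟.memG P.is.d₂))).add P.is.int).add
    h1).sub h2).congr (ae_of_all _ fun x => by simp only [Pi.add_apply, Pi.sub_apply]; ring)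

theorem hiStab {z : X → ℝ} {G : X → V} (hz : 𝒟.D z 0 G) :
    Integrable (fun x => ‖G x‖ ^ 2 + nk.W x * z x ^ 2 + c.Λ ^ 2 * c.σ x ^ 2 *
      (pr.p' (c.b x) ^ 2 + pr.p (c.b x) * pr.p'' (c.b x)) * z x ^ 2) ν := by
  have bz := DClass.bd hz
  have h1 := c.int_σ2 ((((c.bdb' pr.cp').sq.add ((c.bdb' pr.cp).mul (c.bdb' pr.cp''))).mul
    bz.sq).cmul (c.Λ ^ 2))
  exact (((int_normsq (𝒟.memG hz)).add (nk.wok.hi bz.sq).1).add h1).congr
    (ae_of_all _ fun x => by simp only [Pi.add_apply]; ring)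

theorem ptD {ℓ : ℝ} (hℓ : ∀ x, ‖c.dσ x‖ ≤ ℓ) (x : X) :
    2 * c.f x ^ 2 * c.zf P x ^ 2 + 2 * (c.f x ^ 2 * P.Ym x ^ 2)
      - 2 * (c.Λ * c.σ x * -pr.p'' (c.b x) * ‖c.gb x‖) * c.zf P x ^ 2
      - 2 * (c.Λ * (C0 / ε) * ℓ) * (c.chi x * c.zf P x ^ 2)
    ≤ c.f x ^ 2 * (P.Y₁ x ^ 2 + P.Y₂ x ^ 2) - 2 * ‖c.df x‖ * P.Y₁ x * P.Y₂ x := by
  by_cases hx : c.b x < ε
  · obtain ⟨e1, e2, e3⟩ := c.zero_of_lt hx
    have y1 : P.Y₁ x = c.zf P x + P.Ym x := by simp only [zf, e1, Pair.Yp, Pair.Ym]; ring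
    have y2 : P.Y₂ x = c.zf P x - P.Ym x := by simp only [zf, e1, Pair.Yp, Pair.Ym]; ring
    have hΛ := c.Λ_pos.le
    have hσ := (c.σ_mem x).1
    have hp := pr.p'_nonneg (c.b x)
    have hq : 0 ≤ -pr.p'' (c.b x) := neg_nonneg.2 (pr.p''_nonpos _)
    have a1 : ‖c.df x‖ ≤ c.Λ * c.σ x * -pr.p'' (c.b x) * ‖c.gb x‖ + c.Λ * (C0 / ε) * ℓ := by
      refine (norm_add_le _ _).trans (add_le_add (le_of_eq ?_) ?_)
      · rw [norm_smul, Real.norm_eq_abs, ← abs_neg, abs_of_nonneg] <;> [ring; skip]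
        have : 0 ≤ c.Λ * c.σ x * -pr.p'' (c.b x) := by positivity
        linarith
      · rw [norm_smul, Real.norm_eq_abs, abs_of_nonneg (by positivity)]
        exact mul_le_mul (mul_le_mul_of_nonneg_left (pr.p'_le _ (c.b_mem x)) hΛ) (hℓ x)
          (norm_nonneg _) (mul_nonneg hΛ pr.C0_nonneg)
    have a2 := mul_le_mul_of_nonneg_right a1 (sq_nonneg (c.zf P x))
    have a3 := mul_nonneg (norm_nonneg (c.df x)) (sq_nonneg (P.Ym x))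
    rw [y1, y2, e3]; nlinarith
  · simp [f, df, chi, hx, pr.p'_zero _ (not_lt.1 hx), pr.p''_zero _ (not_lt.1 hx)]

theorem ptE (h : Par ε δ) (z : ℝ) (x : X) :
    c.Λ ^ 2 * c.σ x ^ 2 * (pr.p' (c.b x) ^ 2 + pr.p (c.b x) * pr.p'' (c.b x)) * z ^ 2
      + z ^ 2 * (pr.p'' (c.b x) * ‖c.gb x‖ ^ 2 + pr.p' (c.b x) * c.N x) / c.P1 δ x
      + nk.W x * ((1 - c.chi x) * z ^ 2) + -pr.p'' (c.b x) / c.P1 δ x * z ^ 2 * c.dm δ x ^ 2
      - δ * c.Λ ^ 2 * (C0 / ε ^ 2) * (c.chi x * z ^ 2)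
    ≤ 2 * c.f x ^ 2 * z ^ 2 - 2 * (c.Λ * c.σ x * -pr.p'' (c.b x) * ‖c.gb x‖) * z ^ 2
      + nk.W x * z ^ 2 := by
  have hp := c.P1_pos h x
  have a1 : 0 ≤ c.f x ^ 2 * (δ / c.P1 δ x) := by have := h.δ_pos; positivity
  have a2 : 0 ≤ nk.W x * (c.chi x - c.b x * pr.p' (c.b x) / c.P1 δ x) := by
    refine mul_nonneg (nk.W_nonneg x) ?_
    unfold chi; split_ifs with hx
    · rw [sub_nonneg, div_le_one hp]
      have := pr.mul_p'_le _ (c.b_mem x); have := h.δ_pos; unfold P1; linarith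
    · simp [pr.p'_zero _ (not_lt.1 hx)]
  have a3 : 0 ≤ δ * c.Λ ^ 2 * (C0 / ε ^ 2 * c.chi x - c.σ x ^ 2 * -pr.p'' (c.b x)) := by
    refine mul_nonneg (mul_nonneg h.δ_pos.le (sq_nonneg _)) ?_
    have := mul_le_mul_of_nonneg_right (c.σ_sq_le x) (neg_nonneg.2 (pr.p''_nonpos (c.b x)))
    linarith [c.p''_le_chi x]
  have a4 := mul_nonneg (add_nonneg (add_nonneg a1 a2) a3) (sq_nonneg z)
  rw [← sub_nonneg]
  refine a4.trans (le_of_eq ?_)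
  have hp' := hp.ne'
  simp only [f, N, dm]
  field_simp
  unfold P1; ring

/-- L4. -/
theorem K0_ge (h : Par ε δ) {ℓ k : ℝ} (hℓ : ∀ x, ‖c.dσ x‖ ≤ ℓ) (hS : c.Stab k) :
    -k * c.xf (c.zf P) ^ 2 + c.H δ (c.zf P) (c.Gz P) + c.Dz δ (c.zf P)
      - 2 * P.t * c.x1 (c.zf P) + P.t * c.Qt + 2 * c.Qξ P + 2 * c.Fm P
      - 2 * P.t * (∫ x, |P.Ym x| * c.nu x ∂ν) + (a + τ₀) * P.S nk.W
      - (δ * c.Λ ^ 2 * (C0 / ε ^ 2) + 2 * (c.Λ * (C0 / ε) * ℓ)) * c.Z (c.zf P) ≤ c.K0 P := by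
  have hW := nk.wok
  have hz := c.z_D P
  have bz := DClass.bd hz
  have h0 := hS hz
  have H1 := (c.barta hW h hz).add ((c.hiH hW h hz).sub (c.hiJ h hz))
  have := (((((((((((HI.of (c.hiStab hz)).add H1).add (c.hiDz h bz)).sub
    ((c.hix1 hW bz).cmul (2 * P.t))).add ((c.hiQt hW).cmul P.t)).add ((c.hiQξ P).cmul 2)).add
    ((c.hiFm P).cmul 2)).sub ((HI.of ((DClass.bd P.Ym_D).abs.int (c.int_nu hW))).cmul
    (2 * P.t))).add ((P.hiS hW).cmul (a + τ₀))).sub ((c.hiZ bz).cmul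
    (δ * c.Λ ^ 2 * (C0 / ε ^ 2) + 2 * (c.Λ * (C0 / ε) * ℓ)))).add
    (((c.ELt hW hz).add (c.ELt hW (c.ξ_D P))).cmul (2 * P.t))).mono (c.hiK0 P) fun x => by
      have aA := c.normsq_G P x
      have aB : nk.W x * (P.Y₁ x ^ 2 + P.Y₂ x ^ 2) = nk.W x * (2 * c.zf P x ^ 2 + 2 * c.ξf P x ^ 2
          + 2 * P.t * c.β x * (c.zf P x + c.ξf P x) + P.t * c.β x ^ 2) := by
        rw [c.Y₁_eq P x, c.Y₂_eq P x]
        linear_combination (nk.W x * c.β x ^ 2) * P.t_sq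
      have y1 := P.is.nn₁ x
      have y2 := P.is.nn₂ x
      have aC : (1 + a + τ₀) * (nk.W x * (P.Y₁ x ^ 2 + P.Y₂ x ^ 2))
          + (c.f x ^ 2 * (P.Y₁ x ^ 2 + P.Y₂ x ^ 2) - 2 * ‖c.df x‖ * P.Y₁ x * P.Y₂ x)
          ≤ (nk.ρ x + (c.f x + nk.P x) ^ 2) * (P.Y₁ x ^ 2 + P.Y₂ x ^ 2)
            - 2 * ‖c.df x + nk.dP x‖ * P.Y₁ x * P.Y₂ x := by
        have s0 : 0 ≤ P.Y₁ x ^ 2 + P.Y₂ x ^ 2 := by positivity
        have b1 := mul_le_mul_of_nonneg_right (nk.curv x) s0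
        have b2 := mul_le_mul_of_nonneg_right (norm_add_le (c.df x) (nk.dP x))
          (mul_nonneg y1 y2)
        have b3 := mul_nonneg (norm_nonneg (nk.dP x)) (sq_nonneg (P.Y₁ x - P.Y₂ x))
        have b4 := mul_nonneg (mul_nonneg (c.f_nonneg x) (nk.P_nonneg x)) s0
        nlinarith
      have aD := c.ptD P hℓ x
      have aE := c.ptE h (c.zf P x) x
      have aF : P.t * (c.ξf P x * c.nu x) ≤ P.t * (|P.Ym x| * c.nu x) := by
        refine mul_le_mul_of_nonneg_left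
          (mul_le_mul_of_nonneg_right ?_ (c.nu_nonneg hW x)) P.t_nonneg
        have := mul_nonneg P.t_nonneg (c.β_mem x).1
        have := le_abs_self (P.Ym x)
        unfold ξf; linarith
      linarith
  simp only [zero_mul, add_zero, mul_zero] at this
  linarith

theorem Mm_le (h : Par ε δ) {r : ℝ} (hr : 0 < r) :
    ∫ x, c.Λ ^ 2 * (pr.p (c.b x) * pr.p' (c.b x) * P.Ym x ^ 2) * c.σ x ^ 2 ∂ν
      ≤ r * c.Fm P + 64 * ε / r * c.J δ (c.zf P) (c.Gz P) + C0 * ε * c.Dz δ (c.zf P) := by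
  have hW := nk.wok
  have hz := c.z_D P
  have bz := DClass.bd hz
  have hCε : 0 ≤ C0 * ε := by
    have := mul_nonneg pr.C0_nonneg (sq_nonneg ε)
    have e2 : C0 / ε * ε ^ 2 = C0 * ε := by field_simp [h.ε_pos.ne']
    linarith
  have := (HI.of (c.int_σ2 ((((c.bdb' pr.cp).mul (c.bdb' pr.cp')).mul
    (DClass.bd P.Ym_D).sq).cmul (c.Λ ^ 2)))).mono ((((c.hiFm P).cmul r).add
    ((HI.of (c.int_g2 ((c.bdb' pr.cm').mul bz.sq))).cmul (1 / r))).add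
    ((c.hiDz h bz).cmul (C0 * ε))) fun x => by
      have hp := c.P1_pos h x
      have hq : 0 ≤ -pr.p'' (c.b x) := neg_nonneg.2 (pr.p''_nonpos _)
      have hp' := pr.p'_nonneg (c.b x)
      by_cases hx : c.b x < ε
      · obtain ⟨e1, e2, e3⟩ := c.zero_of_lt hx
        have y1 : P.Ym x ^ 2 ≤ c.zf P x ^ 2 := by simpa [zf, e1] using P.Ym_sq_le x
        rw [pr.m'_one _ ⟨(c.b_mem x).1, by linarith [h.ε_pos]⟩]
        have a1 : 2 * (c.f x * ‖c.gb x‖) ≤ r * c.f x ^ 2 + 1 / r * ‖c.gb x‖ ^ 2 := by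
          have : r * c.f x ^ 2 + 1 / r * ‖c.gb x‖ ^ 2 - 2 * (c.f x * ‖c.gb x‖)
            = (r * c.f x - ‖c.gb x‖) ^ 2 / r := by field_simp; ring
          have : 0 ≤ (r * c.f x - ‖c.gb x‖) ^ 2 / r := by positivity
          linarith
        have a2 : c.Λ ^ 2 * c.σ x ^ 2 * pr.p' (c.b x) * c.P1 δ x
            ≤ 2 * (c.f x * ‖c.gb x‖) + pr.p' (c.b x) * (c.dm δ x ^ 2 / c.P1 δ x) := by
          have : 2 * (c.f x * ‖c.gb x‖) + pr.p' (c.b x) * (c.dm δ x ^ 2 / c.P1 δ x)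
              - c.Λ ^ 2 * c.σ x ^ 2 * pr.p' (c.b x) * c.P1 δ x
              = pr.p' (c.b x) * (‖c.gb x‖ ^ 2 / c.P1 δ x) := by
            simp only [f, dm]; field_simp; ring
          have : 0 ≤ pr.p' (c.b x) * (‖c.gb x‖ ^ 2 / c.P1 δ x) := by positivity
          linarith
        have a3 := mul_le_mul_of_nonneg_right (pr.p'_le_p'' _ (c.b_mem x))
          (by positivity : 0 ≤ c.dm δ x ^ 2 / c.P1 δ x)
        have a4 : c.Λ ^ 2 * c.σ x ^ 2 * pr.p' (c.b x) * pr.p (c.b x)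
            ≤ c.Λ ^ 2 * c.σ x ^ 2 * pr.p' (c.b x) * c.P1 δ x :=
          mul_le_mul_of_nonneg_left (by unfold P1; linarith [h.δ_pos]) (by positivity)
        have a5 := mul_le_mul_of_nonneg_right
          (a4.trans (a2.trans (add_le_add a1 a3))) (sq_nonneg (P.Ym x))
        have a6 := mul_le_mul_of_nonneg_left y1 (by positivity : 0 ≤ 1 / r * ‖c.gb x‖ ^ 2
          + C0 * ε * -pr.p'' (c.b x) * (c.dm δ x ^ 2 / c.P1 δ x))
        have e4 : -pr.p'' (c.b x) / c.P1 δ x * c.zf P x ^ 2 * c.dm δ x ^ 2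
          = -pr.p'' (c.b x) * (c.dm δ x ^ 2 / c.P1 δ x) * c.zf P x ^ 2 := by ring
        rw [e4]; nlinarith
      · have := pr.m'_nonneg (c.b x)
        rw [pr.p'_zero _ (not_lt.1 hx)]
        simp only [mul_zero, zero_mul]
        positivity
  have h2 := mul_le_mul_of_nonneg_left (c.zg_le hW h hz) (by positivity : 0 ≤ 1 / r)
  have e : 1 / r * (64 * ε * c.J δ (c.zf P) (c.Gz P)) = 64 * ε / r * c.J δ (c.zf P) (c.Gz P) := by
    ring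
  linarith

theorem Yp_sq_le (x : X) : P.Yp x ^ 2 ≤ 2 * c.zf P x ^ 2 + P.t / 2 * c.β x ^ 2 := by
  have e : P.Yp x = c.zf P x + P.t / 2 * c.β x := by unfold zf; ring
  have := P.t_sq
  rw [e]; nlinarith [sq_nonneg (c.zf P x - P.t / 2 * c.β x), sq_nonneg (c.β x)]

/-- L6. -/
theorem Nm_le (h : Par ε δ) {r : ℝ} (hr : 0 < r) :
    c.Nm P ≤ 3 / 2 * (r * c.Fm P + 64 * ε / r * c.J δ (c.zf P) (c.Gz P) + C0 * ε * c.Dz δ (c.zf P))
      + 4 * ε * P.S nk.W + 3 / 2 * r * (2 * c.Qξ P + P.t / 2 * c.Qt)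
      + 3 / 2 / r * (128 * ε * c.J δ (c.zf P) (c.Gz P) + 2 * P.t * ε * c.Φ) := by
  have hW := nk.wok
  have hz := c.z_D P
  have bz := DClass.bd hz
  have h1 := c.div hW (𝒟.mul P.Ym_D P.Ym_D) (fun s => pr.B' s - pr.B' 1) pr.B''
    (fun s _ => (pr.hB' s).sub_const _) pr.cB''.continuousOn
  simp only [sub_self, mul_zero, zero_mul] at h1
  have := (c.hiNm P).mono ((((h1.add ((HI.of (c.int_σ2 ((((c.bdb' pr.cp).mul (c.bdb' pr.cp')).mul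
    (DClass.bd P.Ym_D).sq).cmul (c.Λ ^ 2)))).cmul (3 / 2))).add ((P.hiS hW).cmul (4 * ε))).add
    ((((c.hiQξ P).cmul 2).add ((c.hiQt hW).cmul (P.t / 2))).cmul (3 / 2 * r))).add
    ((((HI.of (c.int_g2 ((c.bdb' pr.cm').mul bz.sq))).cmul 2).add
      ((HI.of (c.int_g2 (c.bdb' pr.cm'))).cmul (P.t / 2))).cmul (3 / 2 / r))) fun x => by
      have hw := hW.nonneg x
      have ht := P.t_nonneg
      have hε := h.ε_pos
      have hp := pr.p_nonneg hε (c.b_mem x)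
      have hp' := pr.p'_nonneg (c.b x)
      have hm' := pr.m'_nonneg (c.b x)
      have s1 : 2 * P.Ym x ^ 2 ≤ P.Y₁ x ^ 2 + P.Y₂ x ^ 2 := by
        unfold Pair.Ym; nlinarith [sq_nonneg (P.Y₁ x + P.Y₂ x)]
      have s2 := mul_le_mul_of_nonneg_left s1 (mul_nonneg hε.le hw)
      have s3 := mul_le_mul_of_nonneg_left (pr.tang_le _ (c.b_mem x))
        (mul_nonneg hw (sq_nonneg (P.Ym x)))
      have s4 : 0 ≤ ε * nk.W x * P.Ym x ^ 2 := by positivity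
      have n1 : 0 ≤ c.Λ ^ 2 * (pr.p (c.b x) * pr.p' (c.b x) * P.Ym x ^ 2) * c.σ x ^ 2 := by
        positivity
      simp only [inner_add_left, inner_smul_left, RCLike.conj_to_real]
      rcases le_total (c.b x) (2 * ε) with hb | hb
      · rw [pr.m'_one _ ⟨(c.b_mem x).1, hb⟩]
        have d0 : 0 ≤ pr.B' 1 - pr.B' (c.b x) := sub_nonneg.2 (pr.B'_le _)
        have d1 : pr.B' 1 - pr.B' (c.b x) ≤ 3 / 2 := by
          linarith [pr.B'_nonneg (c.b x), pr.B'_one_le, h.ε_le]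
        have g1 : ‖P.Gm x‖ ^ 2 ≤ 2 * ‖c.Gξ P x‖ ^ 2 + P.t / 2 * ‖c.v x‖ ^ 2 := by
          have e : P.Gm x = c.Gξ P x + (P.t / 2) • c.v x := by simp only [Gξ]; module
          have u1 := (le_abs_self _).trans (two_inner_le (c.Gξ P x) (c.v x) (P.t / 2) 1 one_pos)
          have t2 := P.t_sq
          rw [e, norm_add_sq_real, inner_smul_right, norm_smul, mul_pow, Real.norm_eq_abs, sq_abs]
          have u2 : (P.t / 2) ^ 2 = P.t / 4 := by linarith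
          rw [u2] at u1 ⊢; linarith
        have g2 : P.Ym x ^ 2 ≤ 2 * c.zf P x ^ 2 + P.t / 2 := by
          have := (P.Ym_sq_le x).trans (c.Yp_sq_le P x)
          have hb1 : c.β x ^ 2 ≤ 1 := by have := c.β_mem x; nlinarith [this.1, this.2]
          nlinarith
        have g3 := two_inner_le (P.Gm x) (c.gb x) (P.Ym x) (1 / r) (by positivity)
        have g4 : |2 * P.Ym x * ⟪P.Gm x, c.gb x⟫_ℝ|
            ≤ 1 / r * ((2 * c.zf P x ^ 2 + P.t / 2) * ‖c.gb x‖ ^ 2)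
              + r * (2 * ‖c.Gξ P x‖ ^ 2 + P.t / 2 * ‖c.v x‖ ^ 2) := by
          refine g3.trans (add_le_add (by gcongr) ?_)
          rw [div_div_eq_mul_div, div_one, mul_comm]; gcongr
        have g5 := mul_le_mul d1 g4 (abs_nonneg _) (by norm_num)
        have g6 := mul_le_mul_of_nonneg_left (le_abs_self (2 * P.Ym x * ⟪P.Gm x, c.gb x⟫_ℝ)) d0
        have g7 := mul_le_mul_of_nonneg_right d1 n1
        have g8 : (pr.B' 1 - pr.B' (c.b x)) * c.b x ≤ 3 / 2 * (2 * ε) :=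
          mul_le_mul d1 hb (c.b_mem x).1 (by norm_num)
        have g9 := mul_le_mul_of_nonneg_right g8 (mul_nonneg hw (sq_nonneg (P.Ym x)))
        have n2 : 0 ≤ r * (nk.W x * c.ξf P x ^ 2) := by positivity
        have n3 : 0 ≤ r * (P.t * (nk.W x * c.β x ^ 2)) := by positivity
        have e5 : 3 / 2 / r = 3 / 2 * (1 / r) := by ring
        rw [e5]
        simp only [nu, N]
        linarith
      · rw [pr.B'_top _ hb] at s3
        simp only [nu, pr.B'_top _ hb, sub_self, zero_mul, add_zero]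
        have n2 : 0 ≤ 3 / 2 * r * (2 * (‖c.Gξ P x‖ ^ 2 + nk.W x * c.ξf P x ^ 2)
          + P.t / 2 * (‖c.v x‖ ^ 2 + nk.W x * c.β x ^ 2)) := by positivity
        have n3 : 0 ≤ 3 / 2 / r * (2 * (pr.m' (c.b x) * c.zf P x ^ 2 * ‖c.gb x‖ ^ 2)
          + P.t / 2 * (pr.m' (c.b x) * ‖c.gb x‖ ^ 2)) := by positivity
        linarith
  have h2 := c.Mm_le P h hr
  have h3 := c.zg_le hW h hz
  have h4 := mul_le_mul_of_nonneg_left (c.mg_le hW h.ε_pos) P.t_nonneg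
  have h5 : 2 * ∫ x, pr.m' (c.b x) * c.zf P x ^ 2 * ‖c.gb x‖ ^ 2 ∂ν
      + P.t / 2 * ∫ x, pr.m' (c.b x) * ‖c.gb x‖ ^ 2 ∂ν
      ≤ 128 * ε * c.J δ (c.zf P) (c.Gz P) + 2 * P.t * ε * c.Φ := by linarith
  have h6 := mul_le_mul_of_nonneg_left h5 (by positivity : 0 ≤ 3 / 2 / r)
  linarith

theorem Em_le {s : ℝ} (hs : 0 < s) :
    2 * ∫ x, |P.Ym x| * c.nu x ∂ν ≤ 1 / s * c.Nm P + s * c.M := by
  have hW := nk.wok
  exact ((HI.of ((DClass.bd P.Ym_D).abs.int (c.int_nu hW))).cmul 2).mono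
    (((c.hiNm P).cmul (1 / s)).add ((c.hiM hW).cmul s)) fun x => by
      have a1 : 2 * |P.Ym x| ≤ 1 / s * P.Ym x ^ 2 + s := by
        have : 1 / s * P.Ym x ^ 2 + s - 2 * |P.Ym x| = (|P.Ym x| - s) ^ 2 / s := by
          rw [← sq_abs (P.Ym x)]; field_simp; ring
        have : 0 ≤ (|P.Ym x| - s) ^ 2 / s := by positivity
        linarith
      have := mul_le_mul_of_nonneg_right a1 (c.nu_nonneg hW x)
      linarith

theorem Wz_le : ∫ x, nk.W x * c.zf P x ^ 2 ∂ν ≤ P.S nk.W + P.t / 2 * c.bb := by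
  have hW := nk.wok
  have := (hW.hi (DClass.bd (c.z_D P)).sq).mono ((P.hiS hW).add
    ((hW.hi c.bd_β.sq).cmul (P.t / 2))) fun x => by
      have a1 : c.zf P x ^ 2 ≤ P.Y₁ x ^ 2 + P.Y₂ x ^ 2 + P.t / 2 * c.β x ^ 2 := by
        have := P.t_sq
        unfold zf Pair.Yp
        nlinarith [sq_nonneg (P.Y₁ x - P.Y₂ x), sq_nonneg (c.β x),
          sq_nonneg (1 / 2 * P.Y₁ x + 1 / 2 * P.Y₂ x + P.t / 2 * c.β x)]
      have := mul_le_mul_of_nonneg_left a1 (hW.nonneg x)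
      linarith
  have h2 := mul_le_mul_of_nonneg_left c.Wβ_le (by linarith [P.t_nonneg] : 0 ≤ P.t / 2)
  linarith

end Crit
end Crest.Agent.N346.P2
end
end

-- ▼ part N346/P2/Core4
section

/-! Row 346, P2, main estimate, part 4: the contribution of the two vector fields (L9). -/

set_option autoImplicit false
set_option linter.unusedSectionVars false
open MeasureTheory Set
open scoped InnerProductSpace

noncomputable section
namespace Crest.Agent.N346.P2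

variable {X : Type} [MeasurableSpace X] {V : Type} [NormedAddCommGroup V] [InnerProductSpace ℝ V]
  {ν : Measure X}

theorem ims (A B : V) {τ w : ℝ} (hτ : 0 ≤ τ) (hw : 0 ≤ w) (h : ‖B‖ ^ 2 ≤ 4 * τ * w) :
    ⟪A, B⟫_ℝ ≤ τ * ‖A‖ ^ 2 + w := by
  have h1 := inner_sq_le A B
  have h2 := mul_le_mul_of_nonneg_left h (sq_nonneg ‖A‖)
  have h3 : ⟪A, B⟫_ℝ ^ 2 ≤ (τ * ‖A‖ ^ 2 + w) ^ 2 := by nlinarith [sq_nonneg (τ * ‖A‖ ^ 2 - w)]
  exact (abs_le_of_sq_le_sq' h3 (by positivity)).2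

namespace Crit
variable {𝒟 : DClass ν V} {a q τ₀ ω : ℝ} {nk : Neck 𝒟 a q τ₀ ω} {ε C0 : ℝ} {pr : Prof ε C0}
  (c : Crit 𝒟 nk.W pr) {δ : ℝ}

def b0 (α γ : ℝ → ℝ) (x : X) : V := α (c.β x) • nk.e x + γ (c.β x) • c.v x
def βf (α γ : ℝ → ℝ) (x : X) : V := nk.θ x • c.b0 α γ x

theorem bdβ {m : ℝ → ℝ} (hm : ContinuousOn m (Icc 0 1)) : Bd (fun x => m (c.β x)) :=
  Bd.comp c.bd_β.1 c.β_mem hm

theorem cont_of {m m' : ℝ → ℝ} (hm : ∀ s ∈ Icc (0 : ℝ) 1, HasDerivAt m (m' s) s) :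
    ContinuousOn m (Icc 0 1) := fun s hs => (hm s hs).continuousAt.continuousWithinAt

theorem βf2 {α γ : ℝ → ℝ} (hα : ContinuousOn α (Icc 0 1)) (hγ : ContinuousOn γ (Icc 0 1)) :
    MemLp (c.βf α γ) 2 ν :=
  nk.bd_θ.smul_memLp (((c.bdβ hα).smul_memLp nk.e_memLp).add ((c.bdβ hγ).smul_memLp c.v2))

theorem int_R {Y : X → ℝ} {k : ℝ} {G β : X → V} (hY : 𝒟.D Y k G) (hβ : MemLp β 2 ν) :
    Integrable (fun x => 2 * Y x * ⟪β x, G x⟫_ℝ - ‖β x‖ ^ 2 * Y x ^ 2) ν :=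
  ((((DClass.bd hY).cmul 2).int (int_inner hβ (𝒟.memG hY))).sub
    ((DClass.bd hY).sq.int (int_normsq hβ))).congr
    (ae_of_all _ fun x => by simp only [Pi.sub_apply]; ring)

/-- L9 for one component. -/
theorem R_ge {α α' γ γ' : ℝ → ℝ} (hα : ∀ s ∈ Icc (0 : ℝ) 1, HasDerivAt α (α' s) s)
    (hγ : ∀ s ∈ Icc (0 : ℝ) 1, HasDerivAt γ (γ' s) s) (cα : ContinuousOn α' (Icc 0 1))
    (cγ : ContinuousOn γ' (Icc 0 1))
    (psd : ∀ s ∈ Icc (0 : ℝ) 1, ∀ w E S U : ℝ, 0 ≤ E → E ≤ w → 0 ≤ U → S ^ 2 ≤ E * U →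
      0 ≤ w - (α s ^ 2 * E + 2 * α s * γ s * S + γ s ^ 2 * U) - α' s * S - γ' s * U
        - γ s * w * s)
    {Y : X → ℝ} {k : ℝ} {G : X → V} (hY : 𝒟.D Y k G) :
    k * k * (α 1 * q + γ 1 * c.Φt) - (1 + ω ^ 2) * (∫ x, nk.W x * Y x ^ 2 ∂ν)
      - ∫ x, nk.θ x * γ (c.β x) * Y x ^ 2 * c.nu x ∂ν
      ≤ ∫ x, (2 * Y x * ⟪c.βf α γ x, G x⟫_ℝ - ‖c.βf α γ x‖ ^ 2 * Y x ^ 2) ∂ν := by
  have hW := nk.wok
  have bY := DClass.bd hY
  have dα := 𝒟.comp α α' 0 1 c.β_D c.β_mem ⟨zero_le_one, le_rfl⟩ hα cα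
  have dγ := 𝒟.comp γ γ' 0 1 c.β_D c.β_mem ⟨zero_le_one, le_rfl⟩ hγ cγ
  have f1 := nk.hiFlux (𝒟.mul dα (𝒟.mul hY hY))
  have f2 := c.ELt hW (𝒟.mul nk.θ_D (𝒟.mul dγ (𝒟.mul hY hY)))
  have := (((f1.add f2).sub ((hW.hi bY.sq).cmul (1 + ω ^ 2))).sub
    (HI.of (((nk.bd_θ.mul (c.bdβ (cont_of hγ))).mul bY.sq).int (c.int_nu hW)))).mono
    (HI.of (int_R hY (c.βf2 (cont_of hα) (cont_of hγ)))) fun x => by
      have hθ := nk.θ_mem x
      have hw := hW.nonneg x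
      have a1 := psd (c.β x) (c.β_mem x) (nk.W x) (‖nk.e x‖ ^ 2) ⟪nk.e x, c.v x⟫_ℝ (‖c.v x‖ ^ 2)
        (sq_nonneg _) (nk.e_le x) (sq_nonneg _) (inner_sq_le _ _)
      have a2 := ims (c.b0 α γ x) (nk.dθ x) (τ := nk.θ x * (1 - nk.θ x)) (w := ω ^ 2 * nk.W x)
        (mul_nonneg hθ.1 (sub_nonneg.2 hθ.2)) (by positivity) (by linarith [nk.dθ_le x])
      have a3 : ‖c.b0 α γ x‖ ^ 2 = α (c.β x) ^ 2 * ‖nk.e x‖ ^ 2
          + 2 * α (c.β x) * γ (c.β x) * ⟪nk.e x, c.v x⟫_ℝ + γ (c.β x) ^ 2 * ‖c.v x‖ ^ 2 := by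
        simp only [b0, norm_add_sq_real, inner_smul_left, inner_smul_right, norm_smul, mul_pow,
          Real.norm_eq_abs, sq_abs, RCLike.conj_to_real]; ring
      have a4 : ‖c.βf α γ x‖ ^ 2 = nk.θ x ^ 2 * ‖c.b0 α γ x‖ ^ 2 := by
        rw [βf, norm_smul, mul_pow, Real.norm_eq_abs, sq_abs]
      rw [← a3] at a1
      have a5 := mul_nonneg (mul_nonneg hθ.1 a1) (sq_nonneg (Y x))
      have a6 := mul_le_mul_of_nonneg_right a2 (sq_nonneg (Y x))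
      have a7 := mul_nonneg (mul_nonneg (sub_nonneg.2 hθ.2) hw) (sq_nonneg (Y x))
      rw [a4]
      simp only [βf, b0, inner_add_left, inner_add_right, inner_smul_left, inner_smul_right,
        RCLike.conj_to_real, real_inner_self_eq_norm_sq] at a6 ⊢
      simp only [b0] at a5
      linarith
  linarith

variable (P : Pair 𝒟 nk.ρ)

def Np : ℝ := ∫ x, P.Yp x ^ 2 * c.nu x ∂ν
def xe : ℝ := ∫ x, nk.θ x * c.β x * c.nu x ∂ν
def K1 (a : ℝ) (β₁ β₂ : X → V) : ℝ := Kf ν a 1 nk.ρ (fun x => c.f x + nk.P x)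
  (fun x => c.df x + nk.dP x) β₁ β₂ P.Y₁ P.Y₂ P.G₁ P.G₂

theorem Kf_zero (a : ℝ) (β₁ β₂ : X → V) : Kf ν a 0 nk.ρ (fun x => c.f x + nk.P x)
    (fun x => c.df x + nk.dP x) β₁ β₂ P.Y₁ P.Y₂ P.G₁ P.G₂ = c.K0 P := by
  simp [Kf, K0]

theorem K1_eq (a : ℝ) {β₁ β₂ : X → V} (h₁ : MemLp β₁ 2 ν) (h₂ : MemLp β₂ 2 ν) :
    c.K1 P a β₁ β₂ = c.K0 P
      + a * ((∫ x, (2 * P.Y₁ x * ⟪β₁ x, P.G₁ x⟫_ℝ - ‖β₁ x‖ ^ 2 * P.Y₁ x ^ 2) ∂ν)
        + ∫ x, (2 * P.Y₂ x * ⟪β₂ x, P.G₂ x⟫_ℝ - ‖β₂ x‖ ^ 2 * P.Y₂ x ^ 2) ∂ν) := by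
  have := (c.hiK0 P).add (((HI.of (int_R P.is.d₁ h₁)).add (HI.of (int_R P.is.d₂ h₂))).cmul a)
  rw [← this.2, K1, Kf]
  congr 1; funext x; ring

theorem Np_le (h : Par ε δ) :
    c.Np P ≤ 24 * c.J δ (c.zf P) (c.Gz P) + P.t / 2 * (7 * ε * c.Φ) := by
  have hW := nk.wok
  have := (HI.of ((DClass.bd P.Yp_D).sq.int (c.int_nu hW))).mono
    (((HI.of ((DClass.bd (c.z_D P)).sq.int (c.int_nu hW))).cmul 2).add
      ((HI.of (c.bd_β.int (c.int_nu hW))).cmul (P.t / 2))) fun x => by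
      have a1 := c.Yp_sq_le P x
      have a2 : c.β x ^ 2 ≤ c.β x := by have := c.β_mem x; nlinarith [this.1, this.2]
      have a3 := mul_le_mul_of_nonneg_left a2 P.t_nonneg
      have := mul_le_mul_of_nonneg_right (show P.Yp x ^ 2 ≤ 2 * c.zf P x ^ 2 + P.t / 2 * c.β x by
        linarith) (c.nu_nonneg hW x)
      linarith
  have h2 := c.znu_le hW h (c.z_D P)
  have h3 := mul_le_mul_of_nonneg_left (c.βnu_le hW h) (by linarith [P.t_nonneg] : 0 ≤ P.t / 2)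
  unfold Np; linarith

theorem xe_nonneg : 0 ≤ c.xe := integral_nonneg fun x =>
  mul_nonneg (mul_nonneg (nk.θ_mem x).1 (c.β_mem x).1) (c.nu_nonneg nk.wok x)
theorem xe_le (h : Par ε δ) : c.xe ≤ 7 * ε * c.Φ := by
  have hW := nk.wok
  refine le_trans ?_ (c.βnu_le hW h)
  exact (HI.of ((nk.bd_θ.mul c.bd_β).int (c.int_nu hW))).mono
    (HI.of (c.bd_β.int (c.int_nu hW))) fun x => by
      have := mul_le_mul_of_nonneg_right (nk.θ_mem x).2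
        (mul_nonneg (c.β_mem x).1 (c.nu_nonneg hW x))
      linarith

/-- L9. -/
theorem K1_ge (h : Par ε δ) {μ I Bc Γ : ℝ} (F : Fields μ q I Bc Γ) (hI : I ≤ c.Φt)
    (hB : 0 ≤ Bc) (ha : 0 ≤ a) {s : ℝ} (hs : 0 < s) (y : ℝ) :
    c.K0 P + a * (P.t * μ - (1 + ω ^ 2) * P.S nk.W
      + Bc * (2 * y * (c.x1 (c.zf P) - c.xd (c.zf P) + P.t / 2 * c.xe) - y ^ 2 * c.M)
      - ((2 * Γ * s + 8 * ε * Γ) * c.Np P + 2 * Γ / s * c.Nm P + 4 * ε * Γ * P.S nk.W))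
      ≤ c.K1 P a (c.βf F.α₁ F.γ₁) (c.βf F.α₂ F.γ₂) := by
  have hW := nk.wok
  have hΓ : 0 ≤ Γ := (abs_nonneg _).trans (F.γ₁_le 0 ⟨le_rfl, zero_le_one⟩)
  rw [c.K1_eq P a (c.βf2 (cont_of F.hα₁) (cont_of F.hγ₁)) (c.βf2 (cont_of F.hα₂) (cont_of F.hγ₂))]
  refine add_le_add le_rfl (mul_le_mul_of_nonneg_left ?_ ha)
  have r1 := c.R_ge F.hα₁ F.hγ₁ F.cα₁ F.cγ₁ F.psd₁ P.is.d₁
  have r2 := c.R_ge F.hα₂ F.hγ₂ F.cα₂ F.cγ₂ F.psd₂ P.is.d₂
  have b1 := DClass.bd P.is.d₁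
  have b2 := DClass.bd P.is.d₂
  have bz := DClass.bd (c.z_D P)
  have e1 := ((hW.hi b1.sq).add (hW.hi b2.sq)).uniq (P.hiS hW) fun x => by ring
  have e2 : P.t * μ ≤ P.t * P.t * (F.α₁ 1 * q + F.γ₁ 1 * c.Φt) := by
    have := mul_le_mul_of_nonneg_left hI F.γ₁_one
    rw [← sq, P.t_sq]
    exact mul_le_mul_of_nonneg_left (by linarith [F.flux]) P.t_nonneg
  have ixd : HI ν (fun x => (1 - nk.θ x) * c.zf P x * c.nu x) (c.xd (c.zf P)) :=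
    HI.of ((((Bd.const 1).sub nk.bd_θ).mul bz).int (c.int_nu hW))
  have ixe : HI ν (fun x => nk.θ x * c.β x * c.nu x) c.xe :=
    HI.of ((nk.bd_θ.mul c.bd_β).int (c.int_nu hW))
  have iNp : HI ν (fun x => P.Yp x ^ 2 * c.nu x) (c.Np P) :=
    HI.of ((DClass.bd P.Yp_D).sq.int (c.int_nu hW))
  have := (((((((c.hix1 hW bz).sub ixd).add (ixe.cmul (P.t / 2))).cmul (2 * y)).sub
    ((c.hiM hW).cmul (y ^ 2))).cmul Bc).add
    ((HI.of (((nk.bd_θ.mul (c.bdβ (cont_of F.hγ₁))).mul b1.sq).int (c.int_nu hW))).add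
      (HI.of (((nk.bd_θ.mul (c.bdβ (cont_of F.hγ₂))).mul b2.sq).int (c.int_nu hW))))).mono
    (((iNp.cmul (2 * Γ * s + 8 * ε * Γ)).add ((c.hiNm P).cmul (2 * Γ / s))).add
      ((P.hiS hW).cmul (4 * ε * Γ))) fun x => by
      have hθ := nk.θ_mem x
      have hn := c.nu_nonneg hW x
      have hβ := c.β_mem x
      have y1 : P.Y₁ x = P.Yp x + P.Ym x := by simp only [Pair.Yp, Pair.Ym]; ring
      have y2 : P.Y₂ x = P.Yp x - P.Ym x := by simp only [Pair.Yp, Pair.Ym]; ring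
      have ez : c.zf P x = P.Yp x - P.t / 2 * c.β x := by unfold zf; ring
      -- the frozen coefficients
      have g1 := abs_le.1 (F.γ₁_le 0 ⟨le_rfl, zero_le_one⟩)
      have g2 := abs_le.1 (F.γ₂_le 0 ⟨le_rfl, zero_le_one⟩)
      have u0 : |2 * (P.Yp x * P.Ym x)| ≤ s * P.Yp x ^ 2 + P.Ym x ^ 2 / s := by
        have := two_inner_le (P.Ym x) (P.Yp x) 1 s hs
        simpa [mul_comm] using this
      have u1 : F.γ₁ 0 * P.Y₁ x ^ 2 + F.γ₂ 0 * P.Y₂ x ^ 2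
          ≤ -Bc * P.Yp x ^ 2 + 2 * Γ * (s * P.Yp x ^ 2 + P.Ym x ^ 2 / s) := by
        have v1 : (F.γ₁ 0 - F.γ₂ 0) * (2 * (P.Yp x * P.Ym x))
            ≤ 2 * Γ * (s * P.Yp x ^ 2 + P.Ym x ^ 2 / s) := by
          refine (le_abs_self _).trans ?_
          rw [abs_mul]
          exact mul_le_mul (abs_le.2 ⟨by linarith, by linarith⟩) u0 (abs_nonneg _) (by positivity)
        have v2 := mul_nonneg hB (sq_nonneg (P.Ym x))
        have v3 : F.γ₁ 0 = -Bc - F.γ₂ 0 := by linarith [F.γ_zero]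
        rw [y1, y2]; rw [v3] at v1 ⊢; linarith
      have u2 : F.γ₁ (c.β x) * P.Y₁ x ^ 2 + F.γ₂ (c.β x) * P.Y₂ x ^ 2
          ≤ F.γ₁ 0 * P.Y₁ x ^ 2 + F.γ₂ 0 * P.Y₂ x ^ 2
            + Γ * c.β x * (P.Y₁ x ^ 2 + P.Y₂ x ^ 2) := by
        have l1 := mul_le_mul_of_nonneg_right (abs_le.1 (F.γ₁_lip _ hβ)).2 (sq_nonneg (P.Y₁ x))
        have l2 := mul_le_mul_of_nonneg_right (abs_le.1 (F.γ₂_lip _ hβ)).2 (sq_nonneg (P.Y₂ x))
        linarith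
      have u3 : 2 * y * P.Yp x - y ^ 2 ≤ P.Yp x ^ 2 := by nlinarith [sq_nonneg (P.Yp x - y)]
      have u4 := mul_le_mul_of_nonneg_left u3 hB
      have u5 := mul_le_mul_of_nonneg_left ((add_le_add u4 (u2.trans (add_le_add_left u1 _))))
        (mul_nonneg hθ.1 hn)
      have s0 : 0 ≤ P.Y₁ x ^ 2 + P.Y₂ x ^ 2 := by positivity
      have n0 : 0 ≤ (2 * Γ * (s * P.Yp x ^ 2 + P.Ym x ^ 2 / s)
          + Γ * c.β x * (P.Y₁ x ^ 2 + P.Y₂ x ^ 2)) * c.nu x := by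
        have := hβ.1; positivity
      have u6 := mul_le_mul_of_nonneg_right hθ.2 n0
      have u7 : 0 ≤ (1 - nk.θ x) * (Bc * (y ^ 2 * c.nu x)) :=
        mul_nonneg (sub_nonneg.2 hθ.2) (by positivity)
      have u8 : c.β x * c.nu x ≤ 2 * ε * c.nu x + 4 * ε * nk.W x := by
        have := c.βnu_pt hW h.ε_pos x
        have := mul_le_mul_of_nonneg_left (c.b_mem x).2
          (mul_nonneg h.ε_pos.le (hW.nonneg x))
        linarith
      have u9 := mul_le_mul_of_nonneg_left u8 (mul_nonneg hΓ s0)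
      have u10 : P.Y₁ x ^ 2 + P.Y₂ x ^ 2 ≤ 4 * P.Yp x ^ 2 := by
        have := P.Ym_sq_le x
        rw [y1, y2]; linarith
      have u11 := mul_le_mul_of_nonneg_left u10
        (mul_nonneg (mul_nonneg h.ε_pos.le hΓ) hn)
      have e5 : P.Ym x ^ 2 / s = 1 / s * P.Ym x ^ 2 := by ring
      have e6 : 2 * Γ / s = 2 * Γ * (1 / s) := by ring
      rw [e5] at u5 u6
      rw [e6, ez]
      linarith
  simp only [zero_mul] at r2
  have e3 : (1 + ω ^ 2) * P.S nk.W = (1 + ω ^ 2) * (∫ x, nk.W x * P.Y₁ x ^ 2 ∂ν)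
      + (1 + ω ^ 2) * ∫ x, nk.W x * P.Y₂ x ^ 2 ∂ν := by rw [← e1]; ring
  linarith

theorem βf_vanish {μ I Bc Γ : ℝ} (F : Fields μ q I Bc Γ) (x : X) :
    (c.f x + nk.P x) • (c.βf F.α₁ F.γ₁ x + c.βf F.α₂ F.γ₂ x) = 0 := by
  simp only [βf, ← smul_add, smul_smul, add_mul, mul_comm (nk.P x), nk.θ_P, add_zero]
  by_cases hx : c.b x < ε
  · obtain ⟨e1, e2, -⟩ := c.zero_of_lt hx
    simp only [b0, e1, e2, smul_zero, add_zero, ← add_smul, F.α_zero, zero_smul]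
  · simp [f, pr.p'_zero _ (not_lt.1 hx)]

theorem βf_sq_le {α γ : ℝ → ℝ} {Γ : ℝ} (hα : ∀ s ∈ Icc (0 : ℝ) 1, |α s| ≤ 1)
    (hγ : ∀ s ∈ Icc (0 : ℝ) 1, |γ s| ≤ Γ) (x : X) :
    ‖c.βf α γ x‖ ^ 2 ≤ 2 * nk.W x + 2 * Γ ^ 2 * ‖c.v x‖ ^ 2 := by
  have hθ := nk.θ_mem x
  have a1 : ‖c.βf α γ x‖ ≤ ‖nk.e x‖ + Γ * ‖c.v x‖ := by
    rw [βf, norm_smul, Real.norm_eq_abs, abs_of_nonneg hθ.1]
    refine (mul_le_of_le_one_left (norm_nonneg _) hθ.2).trans ((norm_add_le _ _).trans ?_)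
    rw [norm_smul, norm_smul]
    exact add_le_add (mul_le_of_le_one_left (norm_nonneg _) (hα _ (c.β_mem x)))
      (mul_le_mul_of_nonneg_right (hγ _ (c.β_mem x)) (norm_nonneg _))
  have := mul_self_le_mul_self (norm_nonneg _) a1
  nlinarith [nk.e_le x, sq_nonneg (‖nk.e x‖ - Γ * ‖c.v x‖)]

/-- the left side of the coercivity hypothesis -/
theorem H0_le (h : Par ε δ) {μ I Bc Γ : ℝ} (F : Fields μ q I Bc Γ) (ht : P.t = 0) :
    ∫ x, (‖P.G₁ x‖ ^ 2 + ‖P.G₂ x‖ ^ 2 + ‖c.βf F.α₁ F.γ₁ x‖ ^ 2 * P.Y₁ x ^ 2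
      + ‖c.βf F.α₂ F.γ₂ x‖ ^ 2 * P.Y₂ x ^ 2) ∂ν
      ≤ (2 * (2 + 8 * (C0 / ε)) + 288 * Γ ^ 2) * c.J δ (c.zf P) (c.Gz P) + 2 * c.Qξ P
        + 2 * P.S nk.W := by
  have hW := nk.wok
  have hz := c.z_D P
  have bz := DClass.bd hz
  have i1 := (DClass.bd P.is.d₁).sq.int (int_normsq (c.βf2 (cont_of F.hα₁) (cont_of F.hγ₁)))
  have i2 := (DClass.bd P.is.d₂).sq.int (int_normsq (c.βf2 (cont_of F.hα₂) (cont_of F.hγ₂)))
  have i0 : Integrable (fun x => ‖P.G₁ x‖ ^ 2 + ‖P.G₂ x‖ ^ 2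
      + ‖c.βf F.α₁ F.γ₁ x‖ ^ 2 * P.Y₁ x ^ 2 + ‖c.βf F.α₂ F.γ₂ x‖ ^ 2 * P.Y₂ x ^ 2) ν :=
    ((((int_normsq (𝒟.memG P.is.d₁)).add (int_normsq (𝒟.memG P.is.d₂))).add i1).add i2).congr
      (ae_of_all _ fun x => by simp only [Pi.add_apply]; ring)
  have := (HI.of i0).mono (((((HI.of (int_normsq (𝒟.memG hz))).cmul 2).add
    ((c.hiQξ P).cmul 2)).add ((P.hiS hW).cmul 2)).add
    ((HI.of (bz.sq.int (int_normsq c.v2))).cmul (8 * Γ ^ 2))) fun x => by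
      have a1 := c.normsq_G P x
      rw [ht] at a1
      have a2 := mul_le_mul_of_nonneg_right (c.βf_sq_le F.α₁_le F.γ₁_le x) (sq_nonneg (P.Y₁ x))
      have a3 := mul_le_mul_of_nonneg_right (c.βf_sq_le F.α₂_le F.γ₂_le x) (sq_nonneg (P.Y₂ x))
      have a4 : P.Y₁ x ^ 2 + P.Y₂ x ^ 2 ≤ 4 * c.zf P x ^ 2 := by
        have := mul_nonneg (P.is.nn₁ x) (P.is.nn₂ x)
        simp only [zf, ht, Pair.Yp]; nlinarith
      have a5 := mul_le_mul_of_nonneg_left a4 (by positivity : 0 ≤ 2 * Γ ^ 2 * ‖c.v x‖ ^ 2)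
      have a6 := mul_nonneg (hW.nonneg x) (sq_nonneg (c.ξf P x))
      linarith
  have h2 := c.G_le hW h hz
  have h3 := mul_le_mul_of_nonneg_left (c.zv_le hW h hz) (by positivity : 0 ≤ 8 * Γ ^ 2)
  linarith

end Crit
end Crest.Agent.N346.P2
end
end

-- ▼ part N346/P2/Core5

/-! Row 346, P2, main estimate, part 5: the final algebra (L10), pure real inequalities. -/

set_option autoImplicit false

namespace Crest.Agent.N346.P2

theorem two_mul_le (x y r : ℝ) (hr : 0 < r) : |2 * x * y| ≤ r * x ^ 2 + y ^ 2 / r := by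
  have h3 : 2 * |x| * |y| ≤ r * x ^ 2 + y ^ 2 / r := by
    rw [← sub_nonneg, ← sq_abs x, ← sq_abs y]
    have : r * |x| ^ 2 + |y| ^ 2 / r - 2 * |x| * |y| = (r * |x| - |y|) ^ 2 / r := by
      field_simp; ring
    rw [this]; positivity
  rwa [abs_mul, abs_mul, abs_two]

theorem alg_stab {K s k x1 xf E : ℝ} (hs : 0 < s) (hs1 : s ≤ 1 / 2) (hK : 1 ≤ K) (hk : |k| ≤ K)
    (hE : 0 ≤ E) (h : (x1 - xf) ^ 2 ≤ 144 * K ^ 7 * s ^ 3 * E) :
    -k * x1 ^ 2 - K * s * x1 ^ 2 - 144 * K ^ 8 * s * E ≤ -k * xf ^ 2 := by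
  set d := x1 - xf with hd
  have e : xf = x1 - d := by rw [hd]; ring
  have h1 := two_mul_le x1 d s hs
  have h2 : |d ^ 2 - 2 * x1 * d| ≤ s * x1 ^ 2 + d ^ 2 / s + d ^ 2 := by
    refine (abs_sub _ _).trans ?_
    rw [abs_of_nonneg (sq_nonneg d)]; linarith
  have h3 : d ^ 2 / s ≤ 144 * K ^ 7 * s ^ 2 * E := by
    rw [div_le_iff₀ hs]; linarith
  have h4 : k * (d ^ 2 - 2 * x1 * d) ≤ K * (s * x1 ^ 2 + d ^ 2 / s + d ^ 2) := by
    refine (le_abs_self _).trans ?_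
    rw [abs_mul]
    exact mul_le_mul hk h2 (abs_nonneg _) (by linarith)
  have h5 : s ^ 2 + s ^ 3 ≤ s := by nlinarith [sq_nonneg s]
  have h6 := mul_le_mul_of_nonneg_left h5 (by positivity : 0 ≤ 144 * K ^ 7 * E)
  have h7 : d ^ 2 / s + d ^ 2 ≤ 144 * K ^ 7 * s * E := by linarith
  have h8 := mul_le_mul_of_nonneg_left h7 (by linarith : 0 ≤ K)
  rw [e]; linarith

theorem alg_proj {K s γ k0 T I q Qt ωb r1 r2 x1 H : ℝ} (hγ : 0 < γ) (hk0 : 0 ≤ k0) (hk0K : k0 ≤ K)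
    (hI0 : 0 ≤ I) (hI : I ≤ K) (hT0 : 0 ≤ T) (hT : T ≤ 1) (hq : q = T * I)
    (hk : k0 * (I * (1 - T ^ 2)) = 1) (hs : 0 ≤ s) (hs1 : s ≤ 1) (hQ : Qt ≤ (1 + 6 * s ^ 4) * I)
    (hr2 : |r2| ≤ ωb) (hw : k0 ^ 2 * ωb ≤ γ / 64)
    (h : -2 * (-k0 * x1) * x1 - 2 * (k0 * T * x1) * r1 - ((-k0 * x1) ^ 2 + (k0 * T * x1) ^ 2) * Qt
      - 2 * (-k0 * x1) * (k0 * T * x1) * (q - r2) ≤ H) :
    k0 * x1 ^ 2 - (12 * K ^ 3 * s + γ / 32 + γ / 16) * x1 ^ 2 - 16 / γ * (k0 ^ 2 * r1 ^ 2) ≤ H := by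
  have hK : 0 ≤ K := hk0.trans hk0K
  have a1 : (1 + T ^ 2) * Qt ≤ (1 + T ^ 2) * I + 12 * s ^ 4 * I := by
    have := mul_le_mul_of_nonneg_left hQ (by positivity : 0 ≤ 1 + T ^ 2)
    have h2 : T ^ 2 ≤ 1 := by nlinarith
    have := mul_le_mul_of_nonneg_right h2 (by positivity : 0 ≤ 6 * s ^ 4 * I)
    linarith
  have a2 := mul_le_mul_of_nonneg_left a1 (sq_nonneg (k0 * x1))
  have a3 : s ^ 4 * I * k0 ^ 2 ≤ s * K * K ^ 2 := by
    have : s ^ 4 ≤ s := by simpa using pow_le_pow_of_le_one hs hs1 (by norm_num : 1 ≤ 4)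
    gcongr
  have a4 := mul_le_mul_of_nonneg_right a3 (sq_nonneg x1)
  have a5 : T * r2 ≤ ωb := by
    refine (le_abs_self _).trans ?_
    rw [abs_mul, abs_of_nonneg hT0]
    exact (mul_le_of_le_one_left (abs_nonneg _) hT).trans hr2
  have a6 := mul_le_mul_of_nonneg_left a5 (sq_nonneg (k0 * x1))
  have a7 := mul_le_mul_of_nonneg_right hw (sq_nonneg x1)
  have a8 := (le_abs_self _).trans (two_mul_le x1 (k0 * T * r1) (γ / 16) (by positivity))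
  have a9 : (k0 * T * r1) ^ 2 / (γ / 16) ≤ 16 / γ * (k0 ^ 2 * r1 ^ 2) := by
    have h2 : T ^ 2 ≤ 1 := by nlinarith
    have := mul_le_mul_of_nonneg_right h2 (by positivity : 0 ≤ 16 / γ * (k0 ^ 2 * r1 ^ 2))
    calc _ = T ^ 2 * (16 / γ * (k0 ^ 2 * r1 ^ 2)) := by field_simp
      _ ≤ _ := by linarith
  have a10 : k0 * x1 ^ 2 * (k0 * (I * (1 - T ^ 2))) = k0 * x1 ^ 2 := by rw [hk, mul_one]
  subst hq
  linarith

/-- lower bound for `K₀ - a S` -/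
theorem alg0 {K s m γ k k0 θ τ0 c0 ω bb a t H D Qξ Fm S x1 xf Qt K0 r1 : ℝ}
    (hs : 0 < s) (hs1 : s ≤ 1 / 2) (hK : 1 ≤ K) (hk : |k| ≤ K) (hγ : 0 < γ)
    (hm : 1200 * K ^ 8 * s ≤ m) (hmγ : m ≤ γ) (hθ0 : 0 ≤ θ) (hθ1 : θ ≤ 1) (hθ : θ * k0 ≤ γ / 8)
    (ht : 0 ≤ t) (hH : 0 ≤ H) (hD : 0 ≤ D) (hQ : 0 ≤ Qξ) (hF : 0 ≤ Fm) (hS : 0 ≤ S)
    (w2 : 16 * k0 ^ 2 * (ω ^ 2 * bb) ≤ γ * (τ0 / 4)) (w3 : 8 * k0 ^ 2 * (ω ^ 2 * bb ^ 2) ≤ γ * c0)
    (a1 : -k * xf ^ 2 + H + D - 2 * t * x1 + t * Qt + 2 * Qξ + 2 * Fm + (a + τ0) * S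
      - 320 * K ^ 4 * s * (H + D + Qξ + Fm + S + t) ≤ K0)
    (a2 : (x1 - xf) ^ 2 ≤ 144 * K ^ 7 * s ^ 3 * (H + D + Qξ + Fm + S + t))
    (a3 : k0 * x1 ^ 2 - (12 * K ^ 3 * s + γ / 32 + γ / 16) * x1 ^ 2
      - 16 / γ * (k0 ^ 2 * r1 ^ 2) ≤ H)
    (a4 : r1 ^ 2 ≤ ω ^ 2 * bb * (S + t / 2 * bb)) :
    t * Qt - 2 * t * x1 + (k0 - k - γ / 4) * x1 ^ 2 + θ * H + D + 2 * Qξ + 2 * Fm
      + 3 / 4 * τ0 * S - c0 * t - 464 * K ^ 8 * s * (H + D + Qξ + Fm + S + t) ≤ K0 - a * S := by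
  have hE : 0 ≤ H + D + Qξ + Fm + S + t := by positivity
  have b1 := alg_stab hs hs1 hK hk hE a2
  have b2 : 16 / γ * (k0 ^ 2 * r1 ^ 2) ≤ τ0 / 4 * S + c0 * t := by
    rw [div_mul_eq_mul_div, div_le_iff₀ hγ]
    have := mul_le_mul_of_nonneg_left a4 (sq_nonneg k0)
    have := mul_le_mul_of_nonneg_right w2 hS
    have := mul_le_mul_of_nonneg_right w3 ht
    linarith
  have b3 := mul_le_mul_of_nonneg_left a3 (sub_nonneg.2 hθ1)
  have b4 : 0 ≤ θ * ((12 * K ^ 3 * s + γ / 32 + γ / 16) * x1 ^ 2 + 16 / γ * (k0 ^ 2 * r1 ^ 2)) := by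
    have : 0 ≤ K := by linarith
    positivity
  have b5 := mul_le_mul_of_nonneg_right hθ (sq_nonneg x1)
  have k3 : K ^ 3 ≤ K ^ 8 := pow_le_pow_right₀ hK (by norm_num)
  have k1 : K ≤ K ^ 8 := by simpa using pow_le_pow_right₀ hK (by norm_num : 1 ≤ 8)
  have k4 : K ^ 4 ≤ K ^ 8 := pow_le_pow_right₀ hK (by norm_num)
  have b6 : 12 * K ^ 3 * s + K * s ≤ γ / 64 := by
    have := mul_le_mul_of_nonneg_right k3 hs.le
    have := mul_le_mul_of_nonneg_right k1 hs.le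
    linarith
  have b7 := mul_le_mul_of_nonneg_right b6 (sq_nonneg x1)
  have b8 := mul_le_mul_of_nonneg_right k4 (mul_nonneg hs.le hE)
  have b9 := mul_nonneg hγ.le (sq_nonneg x1)
  linarith

/-- the contribution of the fields -/
theorem alg_field {K s γ k0 T I q ωb r2 x1 xd xe H M Φt κ j0 t θ ω bb : ℝ} (hγ : 0 < γ)
    (hk0 : 0 ≤ k0) (hk0K : k0 ≤ K) (hK : 1 ≤ K)
    (hI0 : 0 ≤ I) (hI : I ≤ K) (hT0 : 0 ≤ T) (hT : T ≤ 1) (hq : q = T * I)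
    (hk : k0 * (I * (1 - T ^ 2)) = 1) (hs : 0 < s) (hs1 : s ≤ 1 / 2)
    (hΦ : Φt ≤ (1 + 6 * s ^ 4) * I) (hr2 : |r2| ≤ ωb) (hw : k0 ^ 2 * ωb ≤ γ / 64)
    (hj : 0 < j0) (hM : j0 * M ≤ Φt - T * (q - r2)) (hκ0 : 0 ≤ κ) (hκ : κ ≤ 1)
    (ht0 : 0 ≤ t) (ht1 : t ≤ 1) (hH : 0 ≤ H) (hθ : 0 ≤ θ)
    (hxd : xd ^ 2 ≤ 16 * ω ^ 2 * bb * H) (w4 : 256 * k0 ^ 2 * (ω ^ 2 * bb) ≤ γ * (θ / 4))
    (hxe0 : 0 ≤ xe) (hxe : xe ≤ 7 * s ^ 4 * K) :
    κ * k0 * x1 ^ 2 - ((γ / 16 + γ / 64 + 7 * K ^ 3 * s) * x1 ^ 2 + θ / 4 * H + K ^ 4 * s * t)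
      ≤ κ / j0 * (2 * (j0 * k0 * x1) * (x1 - xd + t / 2 * xe) - (j0 * k0 * x1) ^ 2 * M) := by
  have hK0 : 0 ≤ K := by linarith
  have e : κ / j0 * (2 * (j0 * k0 * x1) * (x1 - xd + t / 2 * xe) - (j0 * k0 * x1) ^ 2 * M)
      = κ * (2 * k0 * x1 * (x1 - xd + t / 2 * xe) - (k0 * x1) ^ 2 * (j0 * M)) := by
    field_simp
  rw [e]
  have a5 : T * r2 ≤ ωb := by
    refine (le_abs_self _).trans ?_
    rw [abs_mul, abs_of_nonneg hT0]
    exact (mul_le_of_le_one_left (abs_nonneg _) hT).trans hr2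
  have a1 : j0 * M ≤ I * (1 - T ^ 2) + 6 * s ^ 4 * I + ωb := by rw [hq] at hM; linarith
  have a2 := mul_le_mul_of_nonneg_left a1 (sq_nonneg (k0 * x1))
  have s4 : s ^ 4 ≤ s := by
    simpa using pow_le_pow_of_le_one hs.le (by linarith) (by norm_num : 1 ≤ 4)
  have a3 : s ^ 4 * I * k0 ^ 2 ≤ s * K * K ^ 2 := by gcongr
  have a4 := mul_le_mul_of_nonneg_right a3 (sq_nonneg x1)
  have a7 := mul_le_mul_of_nonneg_right hw (sq_nonneg x1)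
  have a8 := (le_abs_self _).trans (two_mul_le x1 (k0 * xd) (γ / 16) (by positivity))
  have a9 : (k0 * xd) ^ 2 / (γ / 16) ≤ θ / 4 * H := by
    rw [div_le_iff₀ (by positivity)]
    have := mul_le_mul_of_nonneg_left hxd (sq_nonneg k0)
    have := mul_le_mul_of_nonneg_right w4 hH
    linarith
  have a10 : k0 * x1 ^ 2 * (k0 * (I * (1 - T ^ 2))) = k0 * x1 ^ 2 := by rw [hk, mul_one]
  have a11 := (neg_le_abs _).trans (two_mul_le x1 (k0 * (t / 2 * xe)) s hs)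
  have a12 : (k0 * (t / 2 * xe)) ^ 2 / s ≤ K ^ 4 * s * t := by
    rw [div_le_iff₀ hs]
    have u1 : k0 * xe ≤ K * (7 * s ^ 4 * K) := by gcongr
    have u2 : s ^ 3 ≤ (1 / 2) ^ 3 := by gcongr
    have u3 : K * (7 * s ^ 4 * K) ≤ K ^ 2 * s := by
      have := mul_le_mul_of_nonneg_left u2 (by positivity : 0 ≤ 7 * K ^ 2 * s)
      have : 0 ≤ K ^ 2 * s := by positivity
      linarith
    have u4 : (k0 * xe) ^ 2 ≤ (K ^ 2 * s) ^ 2 :=
      pow_le_pow_left₀ (by positivity) (u1.trans u3) 2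
    have u5 : (t / 2) ^ 2 ≤ t := by
      have := mul_le_mul_of_nonneg_left ht1 ht0
      linarith
    have := mul_le_mul u4 u5 (sq_nonneg _) (sq_nonneg _)
    linarith
  have k3 : s * x1 ^ 2 ≤ K ^ 3 * s * x1 ^ 2 := by
    have := mul_le_mul_of_nonneg_right (one_le_pow₀ hK : 1 ≤ K ^ 3)
      (by positivity : 0 ≤ s * x1 ^ 2)
    linarith
  have b1 : k0 * x1 ^ 2 - ((γ / 16 + γ / 64 + 7 * K ^ 3 * s) * x1 ^ 2 + θ / 4 * H + K ^ 4 * s * t)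
      ≤ 2 * k0 * x1 * (x1 - xd + t / 2 * xe) - (k0 * x1) ^ 2 * (j0 * M) := by linarith
  have b2 := mul_le_mul_of_nonneg_left b1 hκ0
  have b3 := mul_le_mul_of_nonneg_right hκ (by positivity :
    0 ≤ (γ / 16 + γ / 64 + 7 * K ^ 3 * s) * x1 ^ 2 + θ / 4 * H + K ^ 4 * s * t)
  linarith

theorem alg_quad {h γ A t x : ℝ} (hh : 0 < h) (hγ : 0 < γ) (h1 : γ * h ≤ 1)
    (hA : 1 / h + γ / 4 ≤ A) (ht : t ^ 2 = t) :
    -(t * (h - γ * h ^ 2 / 5)) ≤ -2 * t * x + A * x ^ 2 := by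
  set u := h - γ * h ^ 2 / 5 with hu
  have u0 : 0 < u := by rw [hu]; nlinarith
  have u1 : 1 ≤ (1 / h + γ / 4) * u := by
    have : (1 / h + γ / 4) * u = 1 + γ * h / 20 * (1 - γ * h) := by rw [hu]; field_simp; ring
    rw [this]
    have : 0 ≤ γ * h / 20 * (1 - γ * h) := mul_nonneg (by positivity) (by linarith)
    linarith
  have u2 : 1 ≤ A * u := u1.trans (mul_le_mul_of_nonneg_right hA u0.le)
  have u3 := mul_le_mul_of_nonneg_right u2 (sq_nonneg x)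
  have u4 := sq_nonneg (x - u * t)
  have u5 : u ^ 2 * t ^ 2 = u ^ 2 * t := by rw [ht]
  have : 0 ≤ u * (-2 * t * x + A * x ^ 2 + t * u) := by linarith
  have := nonneg_of_mul_nonneg_right this u0
  linarith

/-- the final bound for `K₁` -/
theorem alg1 {K s m γ k k0 κ θ τ0 c0 ω a t H D Qξ Fm S x1 Qt K0 K1 μ I Fi : ℝ}
    (hs : 0 < s) (hs1 : s ≤ 1 / 2) (hK : 1 ≤ K) (hγ : 0 < γ) (hm : 1200 * K ^ 8 * s ≤ m) (hmγ : m ≤ γ)
    (hmθ : m ≤ θ / 2) (hm1 : m ≤ 1) (hmτ : m ≤ τ0 / 4) (hmc : m ≤ c0) (hω : ω ^ 2 ≤ τ0 / 4)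
    (ha0 : 0 ≤ a) (ha : a ≤ 1) (ht : 0 ≤ t) (ht2 : t ^ 2 = t)
    (hH : 0 ≤ H) (hD : 0 ≤ D) (hQ : 0 ≤ Qξ) (hF : 0 ≤ Fm) (hS : 0 ≤ S)
    (hh : 0 < I - μ) (hγI : γ * (I - μ) ≤ 1) (hc : 20 * c0 ≤ γ * (I - μ) ^ 2)
    (hA : 1 / (I - μ) + γ - γ / 16 ≤ k0 + a * κ * k0 - k) (hQt : I - 7 * s ^ 4 * K ≤ Qt)
    (a0 : t * Qt - 2 * t * x1 + (k0 - k - γ / 4) * x1 ^ 2 + θ * H + D + 2 * Qξ + 2 * Fm
      + 3 / 4 * τ0 * S - c0 * t - 464 * K ^ 8 * s * (H + D + Qξ + Fm + S + t) ≤ K0 - a * S)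
    (af : κ * k0 * x1 ^ 2
      - ((γ / 16 + γ / 64 + 7 * K ^ 3 * s) * x1 ^ 2 + θ / 4 * H + K ^ 4 * s * t) ≤ Fi)
    (a9 : K0 + a * (t * μ - (1 + ω ^ 2) * S + Fi
      - 650 * K ^ 2 * s * (H + D + Qξ + Fm + S + t)) ≤ K1) :
    t * ((1 + a) * μ + c0) ≤ K1 := by
  have hK0 : 0 ≤ K := by linarith
  have hE : 0 ≤ H + D + Qξ + Fm + S + t := by positivity
  have hm0 : 0 ≤ m := le_trans (by positivity) hm
  have hθ : 0 ≤ θ := by linarith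
  have b1 := mul_le_mul_of_nonneg_left af ha0
  have b2 := mul_le_mul_of_nonneg_right ha (by positivity :
    0 ≤ (γ / 16 + γ / 64 + 7 * K ^ 3 * s) * x1 ^ 2 + θ / 4 * H + K ^ 4 * s * t
      + ω ^ 2 * S + 650 * K ^ 2 * s * (H + D + Qξ + Fm + S + t))
  have k3 : K ^ 3 * s ≤ K ^ 8 * s := by gcongr; norm_num
  have k1 : s ^ 4 * K ≤ K ^ 8 * s := by
    have s4 : s ^ 4 ≤ s := by
      simpa using pow_le_pow_of_le_one hs.le (by linarith) (by norm_num : 1 ≤ 4)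
    have : K ≤ K ^ 8 := by simpa using pow_le_pow_right₀ hK (by norm_num : 1 ≤ 8)
    rw [mul_comm (K ^ 8)]; gcongr
  have k4 : K ^ 4 * s ≤ K ^ 8 * s := by gcongr; norm_num
  have k2 : K ^ 2 * s ≤ K ^ 8 * s := by gcongr; norm_num
  have b3 := mul_le_mul_of_nonneg_right k2 hE
  have b4 := mul_le_mul_of_nonneg_right k4 ht
  have b5 := mul_le_mul_of_nonneg_right hm hE
  have b6 := mul_le_mul_of_nonneg_right hω hS
  have q1 := alg_quad (x := x1) (A := k0 - k - γ / 4 + a * κ * k0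
    - (γ / 16 + γ / 64 + 7 * K ^ 3 * s)) hh hγ hγI (by linarith) ht2
  have c1 := mul_le_mul_of_nonneg_right hmθ hH
  have c2 := mul_le_mul_of_nonneg_right hm1 hD
  have c3 := mul_le_mul_of_nonneg_right hm1 hQ
  have c4 := mul_le_mul_of_nonneg_right hm1 hF
  have c5 := mul_le_mul_of_nonneg_right hmτ hS
  have c6 := mul_le_mul_of_nonneg_right hmc ht
  have c7 := mul_le_mul_of_nonneg_left hQt ht
  have c8 := mul_le_mul_of_nonneg_right hc ht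
  have c9 := mul_le_mul_of_nonneg_right k1 ht
  have d1 := mul_nonneg hθ hH
  have d2 := mul_nonneg hm0 hS
  have d3 : 0 ≤ K ^ 8 * s * (H + D + Qξ + Fm + S) := by positivity
  have d4 := mul_le_mul_of_nonneg_right hm ht
  have d5 := mul_nonneg hm0 ht
  linarith

theorem exists_small (C m : ℝ) (hm : 0 < m) :
    ∃ r : ℝ, 0 < r ∧ ∀ x : ℝ, 0 ≤ x → x ≤ r → C * x ≤ m := by
  refine ⟨m / (|C| + 1), by positivity, fun x h0 hx => ?_⟩
  rw [le_div_iff₀ (by positivity)] at hx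
  have := mul_le_mul_of_nonneg_right (le_abs_self C) h0
  linarith

end Crest.Agent.N346.P2
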